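import Vale.Agent.P120.Bdl.B4
attribute [-instance] ProperSMul.toContinuousSMul IsTopologicalTorsor.toContinuousSMul IdemSemiring.toCanonicallyOrderedAdd IdemSemiring.toMulLeftMono IdemSemiring.toMulRightMono AddQuantale.instAddLeftMono AddQuantale.instAddRightMono Quantale.instMulLeftMono Quantale.instMulRightMono FiniteDimensional.rclike_to_real IsScalarTower.complexToReal FiniteDimensional.complexToReal

/-!
Theorem B with very big pieces: the Lipschitz image covers the cube up to measure `θ l₀^n`, for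
any `θ > 0` (the text follows the proof of `theoremB` in the starting file `Bdl/B1`).
-/

set_option linter.all false

open MeasureTheory Metric Set Filter Topology
open scoped ENNReal NNReal RealInnerProductSpace

namespace Vale.Agent.P120

variable {n d : ℕ}

/-- Theorem B. -/
theorem theoremB_big (n d : ℕ) (hn : 1 ≤ n) (hnd : n ≤ d) (c C : ℝ) (hc : 0 < c) (hC : 0 < C) :
    ∃ δ : ℝ, 0 < δ ∧ ∀ CA : ℝ, 0 ≤ CA → ∀ θ : ℝ, 0 < θ → ∃ M : ℝ≥0,
    ∀ (μ : Measure (Eu d)) (D : ℝ≥0∞), AR n c C D μ → ∀ l₀ : ℝ, ENNReal.ofReal l₀ ≤ D →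
    ∀ (Q : Cubes μ.support 16 l₀), ∀ z ∈ Q.N 0,
    (∀ J : ℕ, ∑ j ∈ Finset.range J, μ {x | x ∈ Q.cube 0 z ∧ ¬ ∃ ι : Eu n →ₗᵢ[ℝ] Eu d,
        (∀ y ∈ μ.support, dist y (Q.p j x) ≤ 10 * Q.l j →
          ∃ v, dist y (Q.p j x + ι v) ≤ δ * Q.l j) ∧
        (∀ v, ‖v‖ ≤ 10 * Q.l j →
          ∃ y ∈ μ.support, dist y (Q.p j x + ι v) ≤ δ * Q.l j)} ≤
      ENNReal.ofReal (CA * l₀ ^ n)) →
    ∃ g : Eu n → Eu d, LipschitzWith M g ∧
      μ (Q.cube 0 z \ g '' ball 0 l₀) ≤ ENNReal.ofReal (θ * l₀ ^ n) := by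
  classical
  have hu := uvol_pos n
  set a₁ : ℝ := uvol n * 12 ^ n / c with ha₁
  set a₂ : ℝ := 10 * 6 ^ (n - 1) * 4 ^ n / c with ha₂
  set b₀ : ℝ := uvol n / (C * 16 ^ n) with hb₀
  have ha₁0 : 0 < a₁ := by positivity
  have ha₂0 : 0 < a₂ := by positivity
  have hb₀0 : 0 < b₀ := by positivity
  set κ : ℝ := min 1 (b₀ / 2 / a₂) with hκ
  have hκ0 : 0 < κ := by positivity
  have hκ1 : κ ≤ 1 := min_le_left _ _
  have hκs : κ * a₂ ≤ b₀ / 2 := by
    have : κ ≤ b₀ / 2 / a₂ := min_le_right _ _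
    rwa [le_div_iff₀ ha₂0] at this
  set δ : ℝ := κ / (800 * (16 : ℕ)) with hδ
  have hδ0 : 0 < δ := by positivity
  refine ⟨δ, hδ0, fun CA hCA θ hθ0 => ?_⟩
  -- constants
  set C₃ : ℝ := 2 * a₁ / b₀ * (C * 2 ^ n + CA) + CA with hC₃
  have hC₃0 : 0 ≤ C₃ := by positivity
  obtain ⟨N, hN⟩ := exists_nat_gt (C₃ / θ)
  obtain ⟨C₀, hC₀, hbad⟩ := child_embed n d 16 hn
  obtain ⟨M, hM⟩ := coding_lip n d (min (κ / 2) (1 / 4)) (max 2 C₀) (by positivity)
    (by positivity) N
  refine ⟨M, ?_⟩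
  intro μ D har l₀ hD Q z hz hcarl
  have hl₀ := Q.l_pos
  obtain ⟨ι₀⟩ := exists_isometry hnd
  set U : UData n μ.support 16 l₀ :=
    { Q := Q
      io := fun k w => if h : BF n μ.support w (Q.l k) 10 δ then h.choose else ι₀
      G := fun k w => BF n μ.support w (Q.l k) 10 δ
      κ := κ
      κ_pos := hκ0
      κ_le := hκ1
      ε := δ
      ε_pos := hδ0
      ε_le := by rw [hδ]; apply le_of_eq; (clear * - hκ0; field_simp)
      flat := by
        intro k w _ hG
        rw [dif_pos hG]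
        exact hG.choose_spec } with hU
  have hUQ : U.Q = Q := rfl
  have hUκ : U.κ = κ := rfl
  -- the coding map
  obtain ⟨g, hg, hKg⟩ := hM μ.support 16 l₀ U.Q U.TopP (by
    intro j w hw hT
    by_cases hG : U.G j w
    · obtain ⟨h, h1, h2⟩ := U.good_embed hw hT hG
      refine ⟨h, fun u hu v hv => ?_, fun u hu => ?_⟩
      · refine le_trans ?_ (h1 u hu v hv)
        rw [hUκ]
        gcongr
        exact min_le_left _ _
      · refine (h2 u hu).trans ?_
        have := U.Q.l_pos' j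
        gcongr
        exact le_max_left _ _
    · obtain ⟨h, h1, h2⟩ := hbad μ.support l₀ U.Q j w
      refine ⟨h, fun u hu v hv => ?_, fun u hu => ?_⟩
      · refine le_trans ?_ (h1 u (U.bad_skel hw hT hG hu) v (U.bad_skel hw hT hG hv))
        gcongr
        exact min_le_right _ _
      · refine (h2 u (U.bad_skel hw hT hG hu)).trans ?_
        have := U.Q.l_pos' j
        gcongr
        exact le_max_right _ _) z hz rfl
  refine ⟨g, hg, ?_⟩
  -- counting
  have hfin : μ (Q.cube 0 z) ≠ ⊤ := (Q.cube_lt_top har 0 z).ne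
  have hup : μ.real (Q.cube 0 z) ≤ C * 2 ^ n * l₀ ^ n := by
    have := Q.cube_upper har 0 z
    rw [Q.l_zero, mul_pow, ← mul_assoc] at this
    exact this
  have hcount : ∀ J, ∑ k ∈ Finset.range (J + 1), μ.real {x | x ∈ U.Q.cube 0 z ∧ U.top k x = k} ≤
      C₃ * l₀ ^ n := by
    intro J
    have hB : ∑ k ∈ Finset.range (J + 1),
        μ.real {x | x ∈ U.Q.cube 0 z ∧ ¬ U.G k (U.Q.p k x)} ≤ CA * l₀ ^ n := by
      have h1 := hcarl (J + 1)
      have h2 : ∀ k, μ {x | x ∈ U.Q.cube 0 z ∧ ¬ U.G k (U.Q.p k x)} ≠ ⊤ := fun k =>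
        ne_top_of_le_ne_top hfin (measure_mono fun x hx => hx.1)
      have h3 : ∑ k ∈ Finset.range (J + 1), μ {x | x ∈ U.Q.cube 0 z ∧ ¬ U.G k (U.Q.p k x)} ≤
          ENNReal.ofReal (CA * l₀ ^ n) := by
        refine le_trans (Finset.sum_le_sum fun k _ => measure_mono ?_) h1
        rintro x ⟨hx, hx2⟩
        refine ⟨hx, fun ⟨ι, h4, h5⟩ => hx2 ⟨ι, ?_, ?_⟩⟩
        · intro y hy hyd
          exact h4 y hy hyd.le
        · intro v hv
          exact h5 v hv.le
      calc _ = (∑ k ∈ Finset.range (J + 1),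
            μ {x | x ∈ U.Q.cube 0 z ∧ ¬ U.G k (U.Q.p k x)}).toReal := by
            rw [ENNReal.toReal_sum fun k _ => h2 k]; rfl
        _ ≤ _ := ENNReal.toReal_le_of_le_ofReal (by (clear * - hCA hl₀; positivity)) h3
    have h1 := U.tops_bound hn har hD z J (by rw [hUκ]; exact hκs) hB
    refine h1.trans ?_
    rw [hC₃]
    have e1 : 2 * (uvol n * 12 ^ n / c) / (uvol n / (C * 16 ^ n)) = 2 * a₁ / b₀ := rfl
    rw [e1]
    have h2 : 0 ≤ 2 * a₁ / b₀ := by positivity
    have h3 : μ.real (U.Q.cube 0 z) + CA * l₀ ^ n ≤ (C * 2 ^ n + CA) * l₀ ^ n := by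
      rw [add_mul]
      exact add_le_add hup le_rfl
    calc _ ≤ 2 * a₁ / b₀ * ((C * 2 ^ n + CA) * l₀ ^ n) + CA * l₀ ^ n := by (clear * - hc hC hu h3; gcongr)
      _ = _ := by ring
  -- the exceptional set
  set X : ℕ → Set (Eu d) := fun J => {x | x ∈ U.Q.cube 0 z ∧
    (N + 1 : ℝ) ≤ ∑ k ∈ Finset.range (J + 1), ind (U.top k x = k)} with hX
  have hXm : ∀ J, μ (X J) ≤ ENNReal.ofReal (θ * l₀ ^ n) := by
    intro J
    have hsat : ∀ x ∈ μ.support, ∀ y ∈ μ.support, U.Q.p J x = U.Q.p J y →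
        (((N + 1 : ℝ) ≤ ∑ k ∈ Finset.range (J + 1), ind (U.top k x = k)) ↔
          ((N + 1 : ℝ) ≤ ∑ k ∈ Finset.range (J + 1), ind (U.top k y = k))) := by
      intro x hx y hy h
      have : ∑ k ∈ Finset.range (J + 1), ind (U.top k x = k) =
          ∑ k ∈ Finset.range (J + 1), ind (U.top k y = k) := by
        refine Finset.sum_congr rfl fun k hk => ?_
        rw [Finset.mem_range] at hk
        rw [U.top_congr hx hy (U.Q.p_nest (show k ≤ J by omega) hx hy h)]
      rw [this]
    have h1 := (U.Q.real_eq_wsum har (z₀ := z) hsat).2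
    have h2 : (N + 1 : ℝ) * μ.real (X J) ≤ C₃ * l₀ ^ n := by
      calc (N + 1 : ℝ) * μ.real (X J) = U.Q.wsum z J (fun x => (N + 1 : ℝ) *
            ind ((N + 1 : ℝ) ≤ ∑ k ∈ Finset.range (J + 1), ind (U.top k x = k))) := by
            rw [U.Q.wsum_const_mul, ← h1]
        _ ≤ U.Q.wsum z J (fun x => ∑ k ∈ Finset.range (J + 1), ind (U.top k x = k)) := by
            apply U.Q.wsum_mono
            intro x _
            by_cases h : (N + 1 : ℝ) ≤ ∑ k ∈ Finset.range (J + 1), ind (U.top k x = k)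
            · rw [ind_true h, mul_one]; exact h
            · rw [ind_false h, mul_zero]
              exact Finset.sum_nonneg fun _ _ => ind_nonneg _
        _ = ∑ k ∈ Finset.range (J + 1), μ.real {x | x ∈ U.Q.cube 0 z ∧ U.top k x = k} := by
            rw [U.Q.wsum_sum]
            refine Finset.sum_congr rfl fun k hk => ?_
            rw [Finset.mem_range] at hk
            have hTs : ∀ x ∈ μ.support, ∀ y ∈ μ.support, U.Q.p k x = U.Q.p k y →
                (U.top k x = k ↔ U.top k y = k) := by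
              intro x hx y hy h
              rw [U.top_congr hx hy h]
            rw [(U.Q.real_eq_wsum har hTs).2, U.Q.wsum_eq har (show k ≤ J by omega)]
            intro x hx y hy h
            exact ind_congr (hTs x hx y hy h)
        _ ≤ _ := hcount J
    have hXfin : μ (X J) ≠ ⊤ := ne_top_of_le_ne_top hfin (measure_mono fun x hx => hx.1)
    rw [← ofReal_measureReal hXfin]
    apply ENNReal.ofReal_le_ofReal
    have h3 : C₃ < θ * (N + 1) := by
      rw [div_lt_iff₀ hθ0] at hN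
      nlinarith only [hθ0, hN]
    have h4 : (N + 1 : ℝ) * μ.real (X J) ≤ (N + 1 : ℝ) * (θ * l₀ ^ n) := by
      calc _ ≤ C₃ * l₀ ^ n := h2
        _ ≤ θ * (N + 1) * l₀ ^ n := by (clear * - hl₀ h3; gcongr)
        _ = _ := by ring
    exact le_of_mul_le_mul_left h4 (by (clear * -; positivity))
  have hXmono : Monotone X := by
    intro J J' hJ x hx
    refine ⟨hx.1, hx.2.trans ?_⟩
    apply Finset.sum_le_sum_of_subset_of_nonneg
    · intro k hk
      rw [Finset.mem_range] at hk ⊢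
      omega
    · intro _ _ _
      exact ind_nonneg _
  have hXU : μ (⋃ J, X J) ≤ ENNReal.ofReal (θ * l₀ ^ n) := by
    rw [hXmono.measure_iUnion]
    exact iSup_le hXm
  -- the good set
  set K : Set (Eu d) := {x | x ∈ μ.support ∧ U.Q.p 0 x = z ∧
    (tops U.Q U.TopP 0 x).encard ≤ N} with hK
  have hcov : Q.cube 0 z ⊆ K ∪ ⋃ J, X J := by
    rintro x ⟨hx, hxz⟩
    by_cases h : (tops U.Q U.TopP 0 x).encard ≤ N
    · left; exact ⟨hx, hxz, h⟩
    · right
      push Not at h
      have h1 : ((N + 1 : ℕ) : ℕ∞) ≤ (tops U.Q U.TopP 0 x).encard := by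
        rw [Nat.cast_add, Nat.cast_one]
        exact Order.add_one_le_of_lt h
      obtain ⟨t, ht, htc⟩ := Set.exists_subset_encard_eq h1
      have htf : t.Finite := by
        rw [← Set.encard_lt_top_iff, htc]
        exact ENat.natCast_lt_top _
      obtain ⟨J, hJ⟩ := htf.bddAbove
      rw [mem_iUnion]
      refine ⟨J, ⟨hx, hxz⟩, ?_⟩
      have htc' : htf.toFinset.card = N + 1 := by
        rw [htf.encard_eq_coe_toFinset_card] at htc
        exact_mod_cast htc
      calc (N + 1 : ℝ) = ∑ k ∈ htf.toFinset, (1 : ℝ) := by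
            rw [Finset.sum_const, htc']; simp only [nsmul_eq_mul, Nat.cast_add, Nat.cast_one,
                                           mul_one]
        _ = ∑ k ∈ htf.toFinset, ind (U.top k x = k) := by
            refine Finset.sum_congr rfl fun k hk => ?_
            rw [Set.Finite.mem_toFinset] at hk
            rw [ind_true ((U.topP_p hx).1 (ht hk).2)]
        _ ≤ _ := by
            apply Finset.sum_le_sum_of_subset_of_nonneg
            · intro k hk
              rw [Set.Finite.mem_toFinset] at hk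
              exact Finset.mem_range.2 (Nat.lt_succ_of_le (hJ hk))
            · intro _ _ _
              exact ind_nonneg _
  refine le_trans (measure_mono ?_) hXU
  rintro x ⟨hx, hxg⟩
  rcases hcov hx with h | h
  · exact absurd (hKg h) hxg
  · exact h

end Vale.Agent.P120
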