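import Vale.Agent.P120.Bdl.B4
attribute [-instance] ProperSMul.toContinuousSMul IsTopologicalTorsor.toContinuousSMul IdemSemiring.toCanonicallyOrderedAdd IdemSemiring.toMulLeftMono IdemSemiring.toMulRightMono AddQuantale.instAddLeftMono AddQuantale.instAddRightMono Quantale.instMulLeftMono Quantale.instMulRightMono FiniteDimensional.rclike_to_real IsScalarTower.complexToReal FiniteDimensional.complexToReal

/-!
The chain of `Bdl` that used `L^2` boundedness, redone under a testing condition: the forms are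
controlled only against the standard cutoffs of balls.  (The texts are those of the starting files
`Bdl/B1`, `Bdl/B3`, `Bdl/B4` with the necessary changes.)
-/

set_option linter.all false

open MeasureTheory Metric Set Filter Topology
open scoped ENNReal NNReal

namespace Vale.Agent.P120.TT

/-- testing: the regularised forms against the cutoffs of balls -/
def RB {d : ℕ} (n : ℕ) (C₁ : ℝ) (μ : Measure (Eu d)) : Prop :=
  0 ≤ C₁ ∧ ∀ e : ℝ, 0 < e → ∀ (a : Eu d) (S : ℝ), 0 < S → ∀ ψ : Eu d → ℝ, Continuous ψ →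
    HasCompactSupport ψ →
    ‖form n e μ ψ (cut a S)‖ ≤ C₁ * Real.sqrt (∫ x, ψ x ^ 2 ∂μ) * Real.sqrt (S ^ n)

/-- the limit class -/
structure Lim {d : ℕ} (n : ℕ) (c C C₁ C₂ : ℝ) (ν : Measure (Eu d)) : Prop where
  ar : AR n c C ⊤ ν
  rb : RB n C₁ ν
  er : ER n C₂ ν

section

variable {n d : ℕ} {c C : ℝ} {D : ℝ≥0∞} {μ : Measure (Eu d)}

/-- `RB` at `e = 0` for Lipschitz functions -/
theorem RB.zero (hn : 1 ≤ n) (h : AR n c C D μ) {C₁ : ℝ} (hb : RB n C₁ μ) {ψ : Eu d → ℝ}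
    (hψ : LipC ψ) (a : Eu d) {S : ℝ} (hS : 0 < S) :
    ‖form n 0 μ ψ (cut a S)‖ ≤ C₁ * Real.sqrt (∫ x, ψ x ^ 2 ∂μ) * Real.sqrt (S ^ n) := by
  have ht := (form_tendsto hn h hψ (lipC_cut a S hS)).norm
  refine le_of_tendsto ht ?_
  filter_upwards [self_mem_nhdsWithin] with e he
  exact hb.2 e he a S hS ψ hψ.continuous hψ.2

end

end Vale.Agent.P120.TT

section
/-! Packing of bad balls. -/
namespace Vale.Agent.P120.TT
/-- Lemma 1. `A ≥ 2` is the scale ratio. -/
theorem packing (n d A : ℕ) (hn : 1 ≤ n) (hA : 2 ≤ A) (c C C₁ M : ℝ) (hM : 1 ≤ M) :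
    ∃ Cp : ℝ, 0 < Cp ∧ ∀ (μ : Measure (Eu d)) (D : ℝ≥0∞), AR n c C D μ → RB n C₁ μ →
    ∀ (x₀ : Eu d) (r₀ : ℝ), 0 < r₀ → ∀ S₀ : ℝ, 0 < S₀ → S₀ ≤ 8 * r₀ →
    ∀ (I : Finset (Eu d × ℕ)),
      (∀ i ∈ I, i.1 ∈ μ.support ∧ dist i.1 x₀ ≤ r₀ ∧
        ENNReal.ofReal (r₀ * ((A : ℝ) ^ i.2)⁻¹) ≤ D ∧
        ¬ Good n M μ (cut x₀ S₀) i.1 (r₀ * ((A : ℝ) ^ i.2)⁻¹)) →
      (∀ i ∈ I, ∀ l ∈ I, i ≠ l → i.2 = l.2 → r₀ * ((A : ℝ) ^ i.2)⁻¹ ≤ dist i.1 l.1) →
      ∑ i ∈ I, (r₀ * ((A : ℝ) ^ i.2)⁻¹) ^ n ≤ Cp * r₀ ^ n := by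
  have hM0 : 0 < M := by linarith only [hM]
  by_cases hc : 0 < c
  swap
  · exact ⟨1, one_pos, fun μ D h => absurd h.c_pos hc⟩
  by_cases hC : 0 < C
  swap
  · exact ⟨1, one_pos, fun μ D h => absurd h.C_pos hC⟩
  obtain ⟨Cs, hCs, hschur⟩ := schur_full n d A hn hA c C M hM hc hC
  refine ⟨(M * d * C₁) ^ 2 * Cs * (8 ^ n) + 1, by (clear * - hC hCs; positivity), ?_⟩
  intro μ D h hb x₀ r₀ hr₀ S₀ hS₀ hS₀8 I hI hsep
  set θ := cut x₀ S₀ with hθdef
  have hθ : LipC θ := lipC_cut x₀ S₀ hS₀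
  have := h.isLocallyFiniteMeasure
  have hA0 : (0 : ℝ) < (A : ℝ) := by
    have : (2 : ℝ) ≤ (A : ℝ) := by exact_mod_cast hA
    linarith only [this]
  have hr : ∀ k : ℕ, 0 < r₀ * ((A : ℝ) ^ k)⁻¹ := fun k => by positivity
  -- choose the test functions
  have hex : ∀ i : Eu d × ℕ, ∃ ψ : Eu d → ℝ, i ∈ I →
      (∀ x y, |ψ x - ψ y| ≤ M / (r₀ * ((A : ℝ) ^ i.2)⁻¹) * dist x y) ∧
      (∀ x, M * (r₀ * ((A : ℝ) ^ i.2)⁻¹) ≤ dist x i.1 → ψ x = 0) ∧ ∫ x, ψ x ∂μ = 0 ∧
      (r₀ * ((A : ℝ) ^ i.2)⁻¹) ^ n / M < ‖form n 0 μ ψ θ‖ := by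
    intro i
    by_cases hi : i ∈ I
    · have := (hI i hi).2.2.2
      unfold Good at this
      push Not at this
      obtain ⟨ψ, h1, h2, h3, h4⟩ := this
      exact ⟨ψ, fun _ => ⟨h1, h2, h3, h4⟩⟩
    · exact ⟨0, fun hi' => absurd hi' hi⟩
  choose ψ hψ using hex
  have hLip : ∀ i ∈ I, LipC (ψ i) := fun i hi => lipC_of_bound (hψ i hi).1 (hψ i hi).2.1
  set X : ℝ := ∑ i ∈ I, (r₀ * ((A : ℝ) ^ i.2)⁻¹) ^ n with hX
  have hX0 : 0 ≤ X := Finset.sum_nonneg fun i _ => by positivity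
  have hsch := hschur μ D h r₀ hr₀ I ψ (fun i hi => ⟨(hI i hi).1, (hI i hi).2.2.1⟩)
    (fun i hi => ⟨(hψ i hi).1, (hψ i hi).2.1, (hψ i hi).2.2.1⟩) hsep
  -- the direction vectors
  set u : Eu d × ℕ → Eu d := fun i => (‖form n 0 μ (ψ i) θ‖)⁻¹ • form n 0 μ (ψ i) θ with hu
  have hu1 : ∀ i ∈ I, ∀ k : Fin d, |u i k| ≤ 1 := by
    intro i _ k
    have h1 : ‖u i k‖ ≤ ‖u i‖ := PiLp.norm_apply_le (u i) k
    rw [Real.norm_eq_abs] at h1
    refine h1.trans ?_
    simp only [hu]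
    rw [norm_smul, norm_inv, norm_norm]
    exact inv_mul_le_one
  have hnorm : ∀ i ∈ I, ‖form n 0 μ (ψ i) θ‖ = ∑ k : Fin d, u i k * (form n 0 μ (ψ i) θ) k := by
    intro i _
    have h1 := EuclideanSpace.real_norm_sq_eq (form n 0 μ (ψ i) θ)
    simp only [hu]
    by_cases hz : ‖form n 0 μ (ψ i) θ‖ = 0
    · rw [hz]
      simp only [inv_zero, zero_smul, PiLp.zero_apply, zero_mul, Finset.sum_const_zero]
    · have : ∀ k : Fin d, ((‖form n 0 μ (ψ i) θ‖)⁻¹ • form n 0 μ (ψ i) θ) k *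
          (form n 0 μ (ψ i) θ) k = (‖form n 0 μ (ψ i) θ‖)⁻¹ * (form n 0 μ (ψ i) θ) k ^ 2 := by
        intro k
        rw [PiLp.smul_apply, smul_eq_mul]
        ring
      simp_rw [this]
      rw [← Finset.mul_sum, ← h1]
      field_simp
  have hsum1 : X / M ≤ ∑ i ∈ I, ‖form n 0 μ (ψ i) θ‖ := by
    rw [hX, Finset.sum_div]
    exact Finset.sum_le_sum fun i hi => (hψ i hi).2.2.2.le
  have hsum2 : ∑ i ∈ I, ‖form n 0 μ (ψ i) θ‖ =
      ∑ k : Fin d, (form n 0 μ (fun x => ∑ i ∈ I, u i k * ψ i x) θ) k := by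
    rw [Finset.sum_congr rfl hnorm, Finset.sum_comm]
    apply Finset.sum_congr rfl
    intro k _
    rw [form_sum_left hn h I (fun i => u i k) ψ hLip hθ 0 le_rfl]
    simp only [WithLp.ofLp_sum, WithLp.ofLp_smul, Finset.sum_apply, Pi.smul_apply, smul_eq_mul]
  have hsum3 : ∀ k : Fin d, (form n 0 μ (fun x => ∑ i ∈ I, u i k * ψ i x) θ) k ≤
      C₁ * Real.sqrt (Cs * X) * Real.sqrt ((8 * r₀) ^ n) := by
    intro k
    have h1 : ‖(form n 0 μ (fun x => ∑ i ∈ I, u i k * ψ i x) θ) k‖ ≤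
        ‖form n 0 μ (fun x => ∑ i ∈ I, u i k * ψ i x) θ‖ := PiLp.norm_apply_le _ k
    rw [Real.norm_eq_abs] at h1
    refine (le_abs_self _).trans (h1.trans ?_)
    refine (RB.zero hn h hb (LipC.sum I (fun i => u i k) ψ hLip) x₀ hS₀).trans ?_
    have h2 := integral_sq_sum_le (μ := μ) I (fun i => u i k) (fun i hi => hu1 i hi k) ψ hLip
    have hC₁ := hb.1
    gcongr
    exact h2.trans hsch
  have hsum4 : X / M ≤ d * (C₁ * Real.sqrt (Cs * X) * Real.sqrt ((8 * r₀) ^ n)) := by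
    refine hsum1.trans ?_
    rw [hsum2]
    refine (Finset.sum_le_sum fun k _ => hsum3 k).trans ?_
    rw [Finset.sum_const, Finset.card_univ, Fintype.card_fin, nsmul_eq_mul]
  have hfin : X ^ 2 ≤ (M * d * C₁) ^ 2 * (Cs * X) * ((8 * r₀) ^ n) := by
    have h1 : X ≤ M * (d * (C₁ * Real.sqrt (Cs * X) * Real.sqrt ((8 * r₀) ^ n))) := by
      rw [div_le_iff₀ hM0] at hsum4
      linarith only [hsum4]
    calc X ^ 2 ≤ (M * (d * (C₁ * Real.sqrt (Cs * X) * Real.sqrt ((8 * r₀) ^ n)))) ^ 2 := by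
          (clear * - hA hr₀ h1; gcongr)
      _ = (M * d * C₁) ^ 2 * (Real.sqrt (Cs * X)) ^ 2 * (Real.sqrt ((8 * r₀) ^ n)) ^ 2 := by
          ring
      _ = _ := by
          rw [Real.sq_sqrt (by (clear * - hA hCs hr₀; positivity)), Real.sq_sqrt (by positivity)]
  rcases hX0.eq_or_lt with hX00 | hXpos
  · rw [← hX00]; (clear * - hC hCs hr₀; positivity)
  · have h2 : X ≤ (M * d * C₁) ^ 2 * Cs * ((8 * r₀) ^ n) := by
      have : X * X ≤ ((M * d * C₁) ^ 2 * Cs * ((8 * r₀) ^ n)) * X := by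
        nlinarith only [hfin]
      exact le_of_mul_le_mul_right this hXpos
    refine h2.trans ?_
    rw [mul_pow 8 r₀]
    have h3 : 0 ≤ r₀ ^ n := by positivity
    linarith only [h3]

end Vale.Agent.P120.TT
end

section
open MeasureTheory Metric Set Filter Topology
open scoped ENNReal NNReal
namespace Vale.Agent.P120.TT
variable {n d : ℕ}
variable {c C C₁ : ℝ} {μ : ℕ → Measure (Eu d)} {D : ℕ → ℝ≥0∞} {ν : Measure (Eu d)}

theorem RB.lim (_hn : 1 ≤ n) (h : ∀ k, AR n c C (D k) (μ k)) (hb : ∀ k, RB n C₁ (μ k))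
    (_hD : Tendsto D (UU : Filter ℕ) (𝓝 ⊤)) (hν : IsLocallyFiniteMeasure ν)
    (hl : VagueLim UU μ ν) : RB n C₁ ν := by
  refine ⟨(hb 0).1, fun e he a S hS ψ hψ hψ' => ?_⟩
  have hθ := lipC_cut a S hS
  have h1 := (hl.form_pos (AR.ulb h) n he hψ hψ' hθ.continuous hθ.2).norm
  have h2 : Tendsto (fun k => ∫ x, ψ x ^ 2 ∂(μ k)) (UU : Filter ℕ) (𝓝 (∫ x, ψ x ^ 2 ∂ν)) :=
    hl _ (hψ.pow 2) (hψ'.comp_left (g := fun t : ℝ => t ^ 2) (by simp))
  have h4 := ((h2.sqrt.const_mul C₁).mul_const (Real.sqrt (S ^ n)))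
  exact le_of_tendsto_of_tendsto' h1 h4 fun k => (hb k).2 e he a S hS ψ hψ hψ'

/-- Lemma 5: limits of `M_k`-good measures are exactly reflectionless. -/
theorem lim_of_good (n : ℕ) (hn : 1 ≤ n) (C : ℝ) (hC : 0 < C) : ∃ C₂ : ℝ, 0 < C₂ ∧
    ∀ (d : ℕ) (c C₁ : ℝ) (μ : ℕ → Measure (Eu d)) (D : ℕ → ℝ≥0∞) (ν : Measure (Eu d))
      (M : ℕ → ℝ) (θ : ℕ → Eu d → ℝ), (∀ k, AR n c C (D k) (μ k)) → (∀ k, RB n C₁ (μ k)) →
      Tendsto D (UU : Filter ℕ) (𝓝 ⊤) → IsLocallyFiniteMeasure ν → VagueLim UU μ ν →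
      (∀ k, (0 : Eu d) ∈ (μ k).support) → Tendsto M (UU : Filter ℕ) atTop →
      (∀ k, LipC (θ k)) → (∀ k x, 0 ≤ θ k x ∧ θ k x ≤ 1) → (∀ k x, dist x 0 ≤ M k → θ k x = 1) →
      (∀ k, Good n (M k) (μ k) (θ k) 0 1) → Lim n c C C₁ C₂ ν := by
  obtain ⟨C', hC', hfar⟩ := form_far n hn C hC
  refine ⟨C', hC', ?_⟩
  intro d c C₁ μ D ν M θ hAR hRB hD hν hl h0 hM hθL hθ01 hθ1 hgood
  have hνAR : AR n c C ⊤ ν := AR.lim hAR hD hν hl
  have hνRB : RB n C₁ ν := RB.lim hn hAR hRB hD hν hl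
  have hloc := fun k => (AR.ulb hAR).locallyFinite k
  have h0ν : (0 : Eu d) ∈ ν.support :=
    mem_support_lim hAR hD hν hl (x := fun _ => 0) (Eventually.of_forall h0) tendsto_const_nhds
  refine ⟨hνAR, hνRB, hC'.le, ?_⟩
  intro a R S ψ τ hR hS hψ hψR hψ0 hτ hτ01 hτ1
  set φ : Eu d → ℝ := tent 0 1 with hφ
  have hφL : LipC φ := lipC_tent 0 1 one_pos
  set R' : ℝ := max 1 (‖a‖ + R) with hR'
  have hR'0 : 0 < R' := by positivity
  have hψR' : ∀ x, R' < dist x 0 → ψ x = 0 := by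
    intro x hx
    refine hψR x ?_
    rw [dist_zero_right] at hx
    have h1 : ‖a‖ + R ≤ R' := le_max_right _ _
    have h2 : ‖x‖ ≤ dist x a + ‖a‖ := by
      rw [dist_eq_norm]
      calc ‖x‖ = ‖(x - a) + a‖ := by rw [sub_add_cancel]
        _ ≤ _ := norm_add_le _ _
    linarith only [hx, h1, h2]
  have hφR' : ∀ x, R' < dist x 0 → φ x = 0 := by
    intro x hx
    exact tent_eq_zero_vl one_pos ((le_max_left 1 _).trans hx.le)
  have hψabs : Continuous fun x => |ψ x| := hψ.continuous.abs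
  have hψabs' : HasCompactSupport fun x => |ψ x| := hψ.2.comp_left (g := fun t : ℝ => |t|) (by simp)
  obtain ⟨L, hL⟩ := hψ.1
  -- the multiples
  have hI : 0 < ∫ x, φ x ∂ν := integral_tent_pos h0ν one_pos
  have hIk : Tendsto (fun k => ∫ x, φ x ∂(μ k)) (UU : Filter ℕ) (𝓝 (∫ x, φ x ∂ν)) :=
    hl _ hφL.continuous hφL.2
  have hψk : Tendsto (fun k => ∫ x, ψ x ∂(μ k)) (UU : Filter ℕ) (𝓝 0) := by
    have := hl _ hψ.continuous hψ.2
    rwa [hψ0] at this
  set m : ℕ → ℝ := fun k => (∫ x, ψ x ∂(μ k)) / (∫ x, φ x ∂(μ k)) with hm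
  have hmlim : Tendsto m (UU : Filter ℕ) (𝓝 0) := by
    have := hψk.div hIk hI.ne'
    rwa [zero_div] at this
  -- Step A
  have hA : ∀ S' : ℝ, 2 * R' ≤ S' →
      ‖form n 0 ν ψ (cut 0 S')‖ ≤ C' * (R' / S') * ∫ x, |ψ x| ∂ν := by
    intro S' hS'
    have hS'0 : 0 < S' := by linarith only [hR'0, hS']
    have hcL : LipC (cut (0 : Eu d) S') := lipC_cut 0 S' hS'0
    have hbound : ∀ᶠ k in (UU : Filter ℕ),
        ‖form n 0 (μ k) ψ (cut 0 S') - m k • form n 0 (μ k) φ (cut 0 S')‖ ≤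
          1 / M k + C' * (R' / S') * (∫ x, |ψ x| ∂(μ k) + |m k| * ∫ x, φ x ∂(μ k)) := by
      have e1 : ∀ᶠ k in (UU : Filter ℕ), 0 < ∫ x, φ x ∂(μ k) :=
        hIk.eventually (lt_mem_nhds hI)
      have e2 : ∀ᶠ k in (UU : Filter ℕ), |m k| < 1 := by
        have := hmlim.abs
        rw [abs_zero] at this
        exact this.eventually (gt_mem_nhds one_pos)
      filter_upwards [e1, e2, hM.eventually_ge_atTop (L + 1), hM.eventually_ge_atTop S']
        with k hk1 hk2 hk3 hk4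
      set ψk : Eu d → ℝ := fun x => ψ x - m k * φ x with hψkdef
      have hψkL : LipC ψk := hψ.sub (hφL.const_mul (m k))
      have hMk : R' < M k := by linarith only [hR'0, hS', hk4]
      have hψkR : ∀ x, R' < dist x 0 → ψk x = 0 := by
        intro x hx
        simp only [hψkdef, hψR' x hx, hφR' x hx, mul_zero, sub_zero]
      have hψkint : ∫ x, ψk x ∂(μ k) = 0 := by
        have := hloc k
        rw [integral_sub (integrable_of_cc hψ.continuous hψ.2)
          ((integrable_of_cc hφL.continuous hφL.2).const_mul _), integral_const_mul]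
        rw [hm]
        field_simp
        simp
      have hG := hgood k ψk (fun x y => by
          have h1 : ψk x - ψk y = (ψ x - ψ y) - m k * (φ x - φ y) := by
            simp only [hψkdef]; ring
          rw [h1, div_one]
          have h2 : |ψ x - ψ y| ≤ L * dist x y := by
            rw [← Real.dist_eq]; exact hL.dist_le_mul x y
          have h3 : |m k * (φ x - φ y)| ≤ 1 * dist x y := by
            rw [abs_mul]
            have h4 := abs_tent_sub_le_vl (0 : Eu d) one_pos x y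
            rw [inv_one, one_mul] at h4
            exact mul_le_mul hk2.le h4 (abs_nonneg _) zero_le_one
          have h4 := abs_sub (ψ x - ψ y) (m k * (φ x - φ y))
          calc |ψ x - ψ y - m k * (φ x - φ y)| ≤ |ψ x - ψ y| + |m k * (φ x - φ y)| := h4
            _ ≤ L * dist x y + 1 * dist x y := add_le_add h2 h3
            _ = (L + 1) * dist x y := by ring
            _ ≤ M k * dist x y := mul_le_mul_of_nonneg_right hk3 dist_nonneg)
        (fun x hx => hψkR x (by linarith only [hR'0, hS', hk4, hx])) hψkint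
      rw [one_pow] at hG
      have hdiff : LipC (fun x => θ k x - cut 0 S' x) := (hθL k).sub hcL
      have hF := hfar d c (D k) (μ k) (hAR k) ψk (fun x => θ k x - cut 0 S' x) 0 R' S' 0 hψkL
        hdiff hR'0 hS' le_rfl hψkR (fun x hx => by
          simp only [hθ1 k x (hx.trans hk4), cut_eq_one_vl hS'0 hx, sub_self])
        (fun x => by
          rw [abs_le]
          have h1 := hθ01 k x
          have h2 := cut_nonneg_vl (0 : Eu d) S' x
          have h3 := cut_le_one_vl (0 : Eu d) S' x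
          constructor <;> linarith only [h1.1, h1.2, h1, h3, h2]) hψkint
      rw [form_sub_right hn (hAR k) (hθL k) hcL hψkL 0 le_rfl] at hF
      have h1 : form n 0 (μ k) ψ (cut 0 S') - m k • form n 0 (μ k) φ (cut 0 S') =
          form n 0 (μ k) ψk (cut 0 S') := by
        rw [← form_smul_left, ← form_sub_left hn (hAR k) hψ (hφL.const_mul (m k)) hcL 0 le_rfl]
      rw [h1]
      have h2 : ‖form n 0 (μ k) ψk (cut 0 S')‖ ≤ ‖form n 0 (μ k) ψk (θ k)‖ +
          ‖form n 0 (μ k) ψk (θ k) - form n 0 (μ k) ψk (cut 0 S')‖ := by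
        have := norm_sub_le (form n 0 (μ k) ψk (θ k))
          (form n 0 (μ k) ψk (θ k) - form n 0 (μ k) ψk (cut 0 S'))
        rwa [sub_sub_cancel] at this
      refine h2.trans (add_le_add hG (hF.trans ?_))
      refine mul_le_mul_of_nonneg_left ?_ (by (clear * - hC' hS'0; positivity))
      have := hloc k
      have i1 : Integrable (fun x => |ψ x|) (μ k) := integrable_of_cc hψabs hψabs'
      have i2 : Integrable (fun x => |m k| * φ x) (μ k) :=
        (integrable_of_cc hφL.continuous hφL.2).const_mul _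
      rw [← integral_const_mul, ← integral_add i1 i2]
      refine integral_mono (integrable_of_cc hψkL.continuous hψkL.2).abs (i1.add i2) fun x => ?_
      have h4 := abs_sub (ψ x) (m k * φ x)
      rw [abs_mul, abs_of_nonneg (tent_nonneg_vl (0 : Eu d) 1 x)] at h4
      exact h4
    have l1 : Tendsto (fun k => form n 0 (μ k) ψ (cut 0 S') - m k • form n 0 (μ k) φ (cut 0 S'))
        (UU : Filter ℕ) (𝓝 (form n 0 ν ψ (cut 0 S') - (0 : ℝ) • form n 0 ν φ (cut 0 S'))) :=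
      (hl.form hn hAR hD hν hψ hcL 0 le_rfl).sub
        (hmlim.smul (hl.form hn hAR hD hν hφL hcL 0 le_rfl))
    rw [zero_smul, sub_zero] at l1
    have l2 : Tendsto (fun k => 1 / M k + C' * (R' / S') *
        (∫ x, |ψ x| ∂(μ k) + |m k| * ∫ x, φ x ∂(μ k))) (UU : Filter ℕ)
        (𝓝 (0 + C' * (R' / S') * (∫ x, |ψ x| ∂ν + |0| * ∫ x, φ x ∂ν))) := by
      refine Tendsto.add ?_ (Tendsto.const_mul _ ((hl _ hψabs hψabs').add (hmlim.abs.mul hIk)))
      have h1 := hM.inv_tendsto_atTop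
      simp only [one_div]
      exact h1
    rw [abs_zero, zero_mul, add_zero, zero_add] at l2
    exact le_of_tendsto_of_tendsto l1.norm l2 hbound
  refine er_bound_of_cut hn hfar hνAR ψ hψ hψ0 a R S τ hR hS hψR hτ hτ01 hτ1 ?_
  have hlim : Tendsto (fun S' : ℝ => C' * (R' / S') * ∫ x, |ψ x| ∂ν) atTop
      (𝓝 (C' * 0 * ∫ x, |ψ x| ∂ν)) :=
    Tendsto.mul_const _ (Tendsto.const_mul _ (tendsto_const_nhds.div_atTop tendsto_id))
  rw [mul_zero, zero_mul] at hlim
  refine squeeze_zero_norm' ?_ hlim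
  filter_upwards [eventually_ge_atTop (2 * R')] with S' h1
  exact hA S' h1

/-- limits of the class `Lim` stay in the class -/
theorem lim_of_lim (n : ℕ) (hn : 1 ≤ n) (C : ℝ) (hC : 0 < C) : ∃ C₂ : ℝ, 0 < C₂ ∧
    ∀ (d : ℕ) (c C₁ C₂' : ℝ) (μ : ℕ → Measure (Eu d)) (ν : Measure (Eu d)),
      (∀ k, Lim n c C C₁ C₂' (μ k)) → IsLocallyFiniteMeasure ν → VagueLim UU μ ν →
      (∀ k, (0 : Eu d) ∈ (μ k).support) → Lim n c C C₁ C₂ ν := by
  obtain ⟨C', hC', hfar⟩ := form_far n hn C hC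
  refine ⟨C', hC', ?_⟩
  intro d c C₁ C₂' μ ν hLim hν hl h0
  have hAR : ∀ k, AR n c C ⊤ (μ k) := fun k => (hLim k).ar
  have hD : Tendsto (fun _ : ℕ => (⊤ : ℝ≥0∞)) (UU : Filter ℕ) (𝓝 ⊤) := tendsto_const_nhds
  have hνAR : AR n c C ⊤ ν := AR.lim hAR hD hν hl
  have hνRB : RB n C₁ ν := RB.lim hn hAR (fun k => (hLim k).rb) hD hν hl
  have hloc := fun k => (AR.ulb hAR).locallyFinite k
  have h0ν : (0 : Eu d) ∈ ν.support :=
    mem_support_lim hAR hD hν hl (x := fun _ => 0) (Eventually.of_forall h0) tendsto_const_nhds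
  refine ⟨hνAR, hνRB, hC'.le, ?_⟩
  intro a R S ψ τ hR hS hψ hψR hψ0 hτ hτ01 hτ1
  set φ : Eu d → ℝ := tent 0 1 with hφ
  have hφL : LipC φ := lipC_tent 0 1 one_pos
  set R' : ℝ := max 1 (‖a‖ + R) with hR'
  have hR'0 : 0 < R' := by positivity
  have hψR' : ∀ x, R' < dist x 0 → ψ x = 0 := by
    intro x hx
    refine hψR x ?_
    rw [dist_zero_right] at hx
    have h1 : ‖a‖ + R ≤ R' := le_max_right _ _
    have h2 : ‖x‖ ≤ dist x a + ‖a‖ := by
      rw [dist_eq_norm]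
      calc ‖x‖ = ‖(x - a) + a‖ := by rw [sub_add_cancel]
        _ ≤ _ := norm_add_le _ _
    linarith only [hx, h1, h2]
  have hφR' : ∀ x, R' < dist x 0 → φ x = 0 := by
    intro x hx
    exact tent_eq_zero_vl one_pos ((le_max_left 1 _).trans hx.le)
  have hψabs : Continuous fun x => |ψ x| := hψ.continuous.abs
  have hψabs' : HasCompactSupport fun x => |ψ x| := hψ.2.comp_left (g := fun t : ℝ => |t|) (by simp)
  have hI : 0 < ∫ x, φ x ∂ν := integral_tent_pos h0ν one_pos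
  have hIk : Tendsto (fun k => ∫ x, φ x ∂(μ k)) (UU : Filter ℕ) (𝓝 (∫ x, φ x ∂ν)) :=
    hl _ hφL.continuous hφL.2
  have hψk : Tendsto (fun k => ∫ x, ψ x ∂(μ k)) (UU : Filter ℕ) (𝓝 0) := by
    have := hl _ hψ.continuous hψ.2
    rwa [hψ0] at this
  set m : ℕ → ℝ := fun k => (∫ x, ψ x ∂(μ k)) / (∫ x, φ x ∂(μ k)) with hm
  have hmlim : Tendsto m (UU : Filter ℕ) (𝓝 0) := by
    have := hψk.div hIk hI.ne'
    rwa [zero_div] at this
  have hC₂' : 0 ≤ C₂' := (hLim 0).er.1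
  have hA : ∀ S' : ℝ, 2 * R' ≤ S' →
      ‖form n 0 ν ψ (cut 0 S')‖ ≤ C₂' * (R' / S') * ∫ x, |ψ x| ∂ν := by
    intro S' hS'
    have hS'0 : 0 < S' := by linarith only [hR'0, hS']
    have hcL : LipC (cut (0 : Eu d) S') := lipC_cut 0 S' hS'0
    have hbound : ∀ᶠ k in (UU : Filter ℕ),
        ‖form n 0 (μ k) ψ (cut 0 S') - m k • form n 0 (μ k) φ (cut 0 S')‖ ≤
          C₂' * (R' / S') * (∫ x, |ψ x| ∂(μ k) + |m k| * ∫ x, φ x ∂(μ k)) := by
      have e1 : ∀ᶠ k in (UU : Filter ℕ), 0 < ∫ x, φ x ∂(μ k) :=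
        hIk.eventually (lt_mem_nhds hI)
      filter_upwards [e1] with k hk1
      set ψk : Eu d → ℝ := fun x => ψ x - m k * φ x with hψkdef
      have hψkL : LipC ψk := hψ.sub (hφL.const_mul (m k))
      have hψkR : ∀ x, R' < dist x 0 → ψk x = 0 := by
        intro x hx
        simp only [hψkdef, hψR' x hx, hφR' x hx, mul_zero, sub_zero]
      have hψkint : ∫ x, ψk x ∂(μ k) = 0 := by
        have := hloc k
        rw [integral_sub (integrable_of_cc hψ.continuous hψ.2)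
          ((integrable_of_cc hφL.continuous hφL.2).const_mul _), integral_const_mul]
        rw [hm]
        field_simp
        simp
      have hG := (hLim k).er.2 0 R' S' ψk (cut 0 S') hR'0 hS' hψkL hψkR hψkint hcL
        (fun x => ⟨cut_nonneg_vl _ _ _, cut_le_one_vl _ _ _⟩) (fun x hx => cut_eq_one_vl hS'0 hx)
      have h1 : form n 0 (μ k) ψ (cut 0 S') - m k • form n 0 (μ k) φ (cut 0 S') =
          form n 0 (μ k) ψk (cut 0 S') := by
        rw [← form_smul_left, ← form_sub_left hn (hAR k) hψ (hφL.const_mul (m k)) hcL 0 le_rfl]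
      rw [h1]
      refine hG.trans ?_
      refine mul_le_mul_of_nonneg_left ?_ (by (clear * - hC₂' hS'0; positivity))
      have := hloc k
      have i1 : Integrable (fun x => |ψ x|) (μ k) := integrable_of_cc hψabs hψabs'
      have i2 : Integrable (fun x => |m k| * φ x) (μ k) :=
        (integrable_of_cc hφL.continuous hφL.2).const_mul _
      rw [← integral_const_mul, ← integral_add i1 i2]
      refine integral_mono (integrable_of_cc hψkL.continuous hψkL.2).abs (i1.add i2) fun x => ?_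
      have h4 := abs_sub (ψ x) (m k * φ x)
      rw [abs_mul, abs_of_nonneg (tent_nonneg_vl (0 : Eu d) 1 x)] at h4
      exact h4
    have l1 : Tendsto (fun k => form n 0 (μ k) ψ (cut 0 S') - m k • form n 0 (μ k) φ (cut 0 S'))
        (UU : Filter ℕ) (𝓝 (form n 0 ν ψ (cut 0 S') - (0 : ℝ) • form n 0 ν φ (cut 0 S'))) :=
      (hl.form hn hAR hD hν hψ hcL 0 le_rfl).sub
        (hmlim.smul (hl.form hn hAR hD hν hφL hcL 0 le_rfl))
    rw [zero_smul, sub_zero] at l1
    have l2 : Tendsto (fun k => C₂' * (R' / S') *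
        (∫ x, |ψ x| ∂(μ k) + |m k| * ∫ x, φ x ∂(μ k))) (UU : Filter ℕ)
        (𝓝 (C₂' * (R' / S') * (∫ x, |ψ x| ∂ν + |0| * ∫ x, φ x ∂ν))) :=
      Tendsto.const_mul _ ((hl _ hψabs hψabs').add (hmlim.abs.mul hIk))
    rw [abs_zero, zero_mul, add_zero] at l2
    exact le_of_tendsto_of_tendsto l1.norm l2 hbound
  refine er_bound_of_cut hn hfar hνAR ψ hψ hψ0 a R S τ hR hS hψR hτ hτ01 hτ1 ?_
  have hlim : Tendsto (fun S' : ℝ => C₂' * (R' / S') * ∫ x, |ψ x| ∂ν) atTop
      (𝓝 (C₂' * 0 * ∫ x, |ψ x| ∂ν)) :=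
    Tendsto.mul_const _ (Tendsto.const_mul _ (tendsto_const_nhds.div_atTop tendsto_id))
  rw [mul_zero, zero_mul] at hlim
  refine squeeze_zero_norm' ?_ hlim
  filter_upwards [eventually_ge_atTop (2 * R')] with S' h1
  exact hA S' h1

end Vale.Agent.P120.TT
end

section
open MeasureTheory Metric Set Filter Topology
open scoped ENNReal NNReal
namespace Vale.Agent.P120.TT
variable {n d : ℕ} {c C : ℝ}

/-- affine heights on a reflectionless measure satisfy the weak equation -/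
theorem Ht_of_lim (hn : 1 ≤ n) {C₁ C₂ A : ℝ} {ν : Measure (Eu d)} (hν : Lim n c C C₁ C₂ ν)
    (v : Eu d) (κ : ℝ) (hA : 0 ≤ A)
    (hg : ∀ R : ℝ, 1 ≤ R → ∫ x in closedBall (0 : Eu d) R, (inner ℝ v x + κ) ^ 2 ∂ν
      ≤ A * R ^ (n + 3)) :
    Ht n A ν (fun x => inner ℝ v x + κ) := by
  refine ⟨hA, ?_, hg, ?_⟩
  · refine ⟨‖v‖₊, LipschitzWith.of_dist_le_mul fun x y => ?_⟩
    rw [Real.dist_eq, dist_eq_norm, add_sub_add_right_eq_sub, ← inner_sub_right]
    exact abs_real_inner_le_norm v (x - y)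
  · intro ψ hψ hψ0
    obtain ⟨R, hR1, hR⟩ := hψ.hf_exists_radius
    obtain ⟨hC₂, her⟩ := hν.er
    have hbound : ∀ S : ℝ, 2 * R ≤ S →
        |hform n 0 ν (fun x => inner ℝ v x + κ) ψ (cut 0 S)| ≤
          ‖v‖ * (C₂ * (R / S) * ∫ x, |ψ x| ∂ν) := by
      intro S hS
      have hS0 : 0 < S := by linarith only [hR1, hS]
      rw [hform_affine hn hν.ar hψ (lipC_cut 0 S hS0) 0 le_rfl]
      refine (abs_real_inner_le_norm _ _).trans ?_
      gcongr
      refine her 0 R S ψ (cut 0 S) (by linarith only [hR1]) hS hψ ?_ hψ0 (lipC_cut 0 S hS0) ?_ ?_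
      · intro x hx
        rw [dist_zero_right] at hx
        exact hR x hx
      · intro x
        unfold cut
        refine ⟨le_max_left _ _, max_le zero_le_one (min_le_left _ _)⟩
      · intro x hx
        unfold cut
        have : dist x 0 / S ≤ 1 := (div_le_one hS0).2 hx
        rw [min_eq_left (by linarith only [this]), max_eq_right zero_le_one]
    rw [tendsto_zero_iff_abs_tendsto_zero]
    have hlim : Tendsto (fun S : ℝ => ‖v‖ * (C₂ * (R / S) * ∫ x, |ψ x| ∂ν)) atTop (𝓝 0) := by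
      have h1 : Tendsto (fun S : ℝ => R / S) atTop (𝓝 0) :=
        tendsto_const_nhds.div_atTop tendsto_id
      have h2 := ((h1.const_mul C₂).mul_const (∫ x, |ψ x| ∂ν)).const_mul ‖v‖
      simpa only [mul_zero, zero_mul] using h2
    refine squeeze_zero' (Eventually.of_forall fun S => abs_nonneg _) ?_ hlim
    filter_upwards [eventually_ge_atTop (2 * R)] with S hS
    exact hbound S hS

end Vale.Agent.P120.TT
end

section
open MeasureTheory Metric Set Filter Topology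
open scoped ENNReal NNReal
namespace Vale.Agent.P120.TT
variable {d n : ℕ} {c C C₁ C₂ : ℝ} {D D' : ℝ≥0∞} {ν : Measure (Eu d)}
section
variable (O : Eu d ≃ₗᵢ[ℝ] Eu d) (a : Eu d) {r : ℝ}

theorem cut_simT (hr : 0 < r) (b : Eu d) (S : ℝ) (x : Eu d) :
    cut b S (simT O a r x) = cut (simTi O a r b) (r * S) x := by
  unfold cut
  rw [dist_simT_left O a hr]
  congr 3
  rw [mul_comm r S, ← div_div, inv_mul_eq_div, div_right_comm]

theorem RB.simM [SFinite ν] (h : RB n C₁ ν) (hr : 0 < r) : RB n C₁ (simM n O a r ν) := by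
  refine ⟨h.1, fun e he b S hS ψ hψ hψ' => ?_⟩
  have h1 := h.2 (r * e) (mul_pos hr he) (simTi O a r b) (r * S) (mul_pos hr hS)
    (fun x => ψ (simT O a r x))
    (hψ.comp (continuous_simT O a hr)) (hψ'.comp_homeomorph (simH O a hr))
  have hfun : (fun x => cut b S (simT O a r x)) = cut (simTi O a r b) (r * S) :=
    funext fun x => cut_simT O a hr b S x
  rw [form_simM O a n e hr, norm_smul, LinearIsometryEquiv.norm_map,
    Real.norm_of_nonneg (by positivity : (0 : ℝ) ≤ (r ^ n)⁻¹), integral_simM O a n hr,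
    smul_eq_mul, Real.sqrt_mul (by positivity), hfun]
  have h2 : Real.sqrt ((r * S) ^ n) = Real.sqrt (r ^ n) * Real.sqrt (S ^ n) := by
    rw [mul_pow, Real.sqrt_mul (by positivity)]
  have h3 : (r ^ n)⁻¹ * Real.sqrt (r ^ n) = Real.sqrt ((r ^ n)⁻¹) := by
    rw [Real.sqrt_inv]
    have h4 : Real.sqrt (r ^ n) * Real.sqrt (r ^ n) = r ^ n := Real.mul_self_sqrt (by positivity)
    have h5 : 0 < Real.sqrt (r ^ n) := Real.sqrt_pos.2 (by positivity)
    rw [inv_mul_eq_div, div_eq_iff (by positivity), eq_comm, inv_mul_eq_iff_eq_mul₀ h5.ne']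
    exact h4.symm
  calc (r ^ n)⁻¹ * ‖form n (r * e) ν (fun x => ψ (simT O a r x)) (cut (simTi O a r b) (r * S))‖
      ≤ (r ^ n)⁻¹ * (C₁ * √(∫ (x : Eu d), ψ (simT O a r x) ^ 2 ∂ν) * √((r * S) ^ n)) :=
        mul_le_mul_of_nonneg_left h1 (by positivity)
    _ = ((r ^ n)⁻¹ * √(r ^ n)) * (C₁ * √(∫ (x : Eu d), ψ (simT O a r x) ^ 2 ∂ν) *
          √(S ^ n)) := by rw [h2]; ring
    _ = _ := by rw [h3]; ring

/-- the limit class is invariant under similarities -/
theorem Lim.simM (h : Lim n c C C₁ C₂ ν) (hr : 0 < r) : Lim n c C C₁ C₂ (simM n O a r ν) := by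
  have := h.ar.isLocallyFiniteMeasure
  exact ⟨h.ar.simM O a hr fun _ _ _ => le_top, h.rb.simM O a hr, h.er.simM O a hr⟩

end

/-- invariance of the class under linear isometries -/
theorem Lim.map_isometry {C₁ C₂ : ℝ} {ν : Measure (Eu d)} (hν : Lim n c C C₁ C₂ ν)
    (O : Eu d ≃ₗᵢ[ℝ] Eu d) : Lim n c C C₁ C₂ (ν.map O) := by
  have h := hν.simM O 0 one_pos
  have h2 : simT O 0 (1 : ℝ) = O := by
    funext x
    simp [simT]
  rw [Vale.Agent.P120.simM, h2] at h
  simpa only [one_pow, inv_one, ENNReal.ofReal_one, one_smul] using h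

end Vale.Agent.P120.TT
end

section
open MeasureTheory Metric Set Filter Topology
open scoped ENNReal NNReal
namespace Vale.Agent.P120.TT
namespace Plane
open Vale.Agent.P120.Plane
variable {d n : ℕ}
variable (ι : Eu n →ₗᵢ[ℝ] Eu d) (b : Eu d)

theorem rb_comap {ν : Measure (Eu d)} (hs : ∀ x ∈ ν.support, x ∈ range (jj ι b))
    [SFinite (ν.comap (jj ι b))] {n' : ℕ} {C₁ : ℝ} (h : RB n' C₁ ν) : RB n' C₁ (ν.comap (jj ι b)) := by
  refine ⟨h.1, fun e he a S hS ψ hψ hψc => ?_⟩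
  have hpp : Continuous (pp ι b) := by
    have : LipschitzWith 1 (pp ι b) := LipschitzWith.of_dist_le_mul (by simpa only [NNReal.coe_one, one_mul] using dist_pp_le ι b)
    exact this.continuous
  have htt : Continuous (tt ι b) := by
    have : LipschitzWith 2 (tt ι b) := LipschitzWith.of_dist_le_mul (fun x y => by
      simpa only [Real.dist_eq, NNReal.coe_ofNat] using tt_lip ι b x y)
    exact this.continuous
  -- extension
  have ext : ∀ φ : Eu n → ℝ, Continuous φ → HasCompactSupport φ →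
      Continuous (fun x => φ (pp ι b x) * max 0 (1 - tt ι b x)) ∧
      HasCompactSupport (fun x => φ (pp ι b x) * max 0 (1 - tt ι b x)) ∧
      ∀ v, (fun x => φ (pp ι b x) * max 0 (1 - tt ι b x)) (jj ι b v) = φ v := by
    intro φ hφ hφc
    refine ⟨(hφ.comp hpp).mul (continuous_const.max (continuous_const.sub htt)), ?_, ?_⟩
    · obtain ⟨r, hr⟩ := hφc.isCompact.isBounded.subset_closedBall (0 : Eu n)
      apply HasCompactSupport.intro (isCompact_closedBall (jj ι b 0) (1 + r))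
      intro x hx
      by_contra hne
      apply hx
      have h1 : φ (pp ι b x) ≠ 0 := left_ne_zero_of_mul hne
      have h2 : max 0 (1 - tt ι b x) ≠ 0 := right_ne_zero_of_mul hne
      have h3 : dist (pp ι b x) 0 ≤ r := hr (subset_tsupport _ h1)
      have h4 : tt ι b x ≤ 1 := by
        by_contra hc
        push Not at hc
        exact h2 (max_eq_left (by linarith only [hc]))
      have := dist_le_tt ι b x 0
      rw [mem_closedBall]
      linarith only [h3, h4, this]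
    · intro v
      simp only [pp_jj, tt_jj]
      simp only [sub_zero, zero_le_one, sup_of_le_right, mul_one]
  obtain ⟨a1, a2, a3⟩ := ext ψ hψ hψc
  have b3 : ∀ v, cut (jj ι b a) S (jj ι b v) = cut a S v := by
    intro v
    unfold cut
    rw [dist_jj]
  have key := h.2 e he (jj ι b a) S hS _ a1 a2
  rw [form_comap ι b hs, ι.norm_map] at key
  simp only [a3, b3] at key
  rw [← integral_comap_jj ι b hs] at key
  simp only [a3, b3] at key
  exact key

/-- planar measures in `Lim` have full support in their plane -/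
theorem full_support (hn : 1 ≤ n) (hnd : n ≤ d) {c C C₁ C₂ : ℝ}
    {ν : Measure (Eu d)} (h : Lim n c C C₁ C₂ ν) (h0 : ν.support.Nonempty)
    {W : Submodule ℝ (Eu d)} (hW : Module.finrank ℝ W = n)
    (hs : ∀ x ∈ ν.support, dP W b x = 0) : ν.support = {x | dP W b x = 0} := by
  apply Subset.antisymm (fun x hx => hs x hx)
  intro x hx
  obtain ⟨a, ha⟩ := h0
  obtain ⟨Ct, hCt, hT⟩ := trunc_bound_ER n d hn c C C₂ h.ar.c_pos h.ar.C_pos
  have hclosed : IsClosed ν.support := Measure.isClosed_support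
  rw [← hclosed.closure_eq, Metric.mem_closure_iff]
  intro ε hε
  set r : ℝ := 8 * (dist x a + 1) with hr
  have hr0 : 0 < r := by (clear * -; positivity)
  obtain ⟨ρ, τ, hρ, _, hτ, H⟩ := no_holes n d hn hnd c C Ct h.ar.c_pos h.ar.C_pos
    (ε / (2 * r)) (by (clear * - hε; positivity))
  have h1 := H ν ⊤ h.ar a ha r hr0 le_top
    (fun y hy _ s S hs1 hs2 _ => hT ν h.ar h.er y hy s S (lt_of_lt_of_le (by (clear * - hρ; positivity)) hs1) hs2)
    W b hW (fun y hy _ => by rw [hs y hy]; (clear * - hτ; positivity)) (x - b)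
    ((dP_eq_zero_iff W b x).mp hx) (by
      rw [add_sub_cancel]
      rw [hr]
      linarith only [])
  obtain ⟨y, hy, hyd⟩ := h1
  rw [add_sub_cancel, dist_comm] at hyd
  refine ⟨y, hy, lt_of_le_of_lt hyd ?_⟩
  have : ε / (2 * r) * r = ε / 2 := by (clear * - hε hr0; field_simp)
  rw [this]
  linarith only [hε]

/-- reduction of `liouville_plane` to the statement on `R^n` -/
theorem plane_of (hn : 1 ≤ n) (hnd : n ≤ d) {c C C₁ C₂ : ℝ}
    (H : ∀ ν' : Measure (Eu n), Lim n c C C₁ C₂ ν' → ν'.support = univ →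
      ∃ g : ℝ, 0 < g ∧ ν' = ENNReal.ofReal g • (volume : Measure (Eu n)))
    {ν : Measure (Eu d)} (h : Lim n c C C₁ C₂ ν) (h0 : ν.support.Nonempty)
    (W : Submodule ℝ (Eu d)) (b : Eu d) (hW : Module.finrank ℝ W = n)
    (hs : ∀ x ∈ ν.support, dP W b x = 0) :
    ∃ (ι : Eu n →ₗᵢ[ℝ] Eu d) (g : ℝ), LinearMap.range ι.toLinearMap = W ∧
      c / kap n ≤ g ∧ g ≤ C / kap n ∧ 0 < g ∧ ν.support = {x | dP W b x = 0} ∧
      ∀ f : Eu d → ℝ, Continuous f → HasCompactSupport f →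
        ∫ x, f x ∂ν = g * ∫ v, f (b + ι v) := by
  obtain ⟨ι, hι⟩ := exists_iso W hW
  have hsr : ∀ x ∈ ν.support, x ∈ range (jj ι b) := fun x hx =>
    (mem_range_jj_iff ι b hι x).mpr (hs x hx)
  have har := ar_comap ι b hsr h.ar
  have hlf : IsLocallyFiniteMeasure (ν.comap (jj ι b)) := har.isLocallyFiniteMeasure
  have hfull := full_support b hn hnd h h0 hW hs
  have hlim : Lim n c C C₁ C₂ (ν.comap (jj ι b)) :=
    ⟨har, rb_comap ι b hsr h.rb, er_comap ι b hn hsr h.er⟩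
  have hsu : (ν.comap (jj ι b)).support = univ := by
    ext v
    simp only [mem_univ, iff_true]
    rw [mem_support_comap ι b hsr, hfull]
    exact (mem_range_jj_iff ι b hι _).mp ⟨v, rfl⟩
  obtain ⟨g, hg, hge⟩ := H _ hlim hsu
  have hkap : 0 < kap n := by
    unfold kap
    exact ENNReal.toReal_pos (measure_ball_pos _ _ one_pos).ne' measure_ball_lt_top.ne
  have hvol : volume (ball (0 : Eu n) 1) = ENNReal.ofReal (kap n) := by
    unfold kap
    rw [ENNReal.ofReal_toReal measure_ball_lt_top.ne]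
  have hball : (ν.comap (jj ι b)) (ball 0 1) = ENNReal.ofReal (g * kap n) := by
    rw [hge, Measure.smul_apply, hvol, smul_eq_mul, ← ENNReal.ofReal_mul hg.le]
  refine ⟨ι, g, hι, ?_, ?_, hg, hfull, fun f hf hfc => ?_⟩
  · rw [div_le_iff₀ hkap]
    have h1 := har.lower 0 (by rw [hsu]; trivial) 1 one_pos le_top
    rw [hball, one_pow, mul_one] at h1
    exact (ENNReal.ofReal_le_ofReal_iff (by (clear * - hg hkap; (clear * - hg hkap; positivity)))).mp h1
  · rw [le_div_iff₀ hkap]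
    have h1 := har.upper 0 1 one_pos
    have h2 : (ν.comap (jj ι b)) (ball 0 1) ≤ ENNReal.ofReal (C * 1 ^ n) :=
      (measure_mono ball_subset_closedBall).trans h1
    rw [hball, one_pow, mul_one] at h2
    exact (ENNReal.ofReal_le_ofReal_iff h.ar.C_pos.le).mp h2
  · rw [← integral_comap_jj ι b hsr f, hge, integral_smul_measure, ENNReal.toReal_ofReal hg.le,
      smul_eq_mul]
    rfl

end Plane
end Vale.Agent.P120.TT
end

section
open MeasureTheory Metric Set Filter Topology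
open scoped ENNReal NNReal InnerProductSpace
namespace Vale.Agent.P120.TT
variable {n : ℕ}

variable {c C : ℝ} {D : ℝ≥0∞} {ν : Measure (Eu n)}

/-- `RB` for `L²` functions with bounded support -/
theorem RB.ext {d : ℕ} {μ : Measure (Eu d)} {C₁ : ℝ} (h : AR n c C D μ) (hb : RB n C₁ μ)
    (e : ℝ) (he : 0 < e) {ψ : Eu d → ℝ} (hψ : MemLp ψ 2 μ) (R : ℝ) (hR : 0 < R)
    (hψR : ∀ x, R < ‖x‖ → ψ x = 0) (a : Eu d) {S : ℝ} (hS : 0 < S) :
    ‖form n e μ ψ (cut a S)‖ ≤ C₁ * Real.sqrt (∫ x, ψ x ^ 2 ∂μ) * Real.sqrt (S ^ n) := by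
  set θ := cut a S with hθdef
  have hθ : Continuous θ := (lipC_cut a S hS).continuous
  have hθ' : HasCompactSupport θ := (lipC_cut a S hS).2
  have hlf := h.isLocallyFiniteMeasure
  obtain ⟨hC1, hb⟩ := hb
  have hθi : Integrable θ μ := hθ.integrable_of_hasCompactSupport hθ'
  have hfin : μ (closedBall (0 : Eu d) (2 * R)) ≠ ⊤ := measure_closedBall_lt_top.ne
  set V := Real.sqrt (μ.real (closedBall (0 : Eu d) (2 * R))) with hV
  set Θ := Real.sqrt (S ^ n) with hΘ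
  set Ψ := Real.sqrt (∫ x, ψ x ^ 2 ∂μ) with hΨ
  set I := ∫ x, |θ x| ∂μ with hI
  have hI0 : 0 ≤ I := integral_nonneg fun x => abs_nonneg _
  have hΘ0 : 0 ≤ Θ := Real.sqrt_nonneg _
  have hV0 : 0 ≤ V := Real.sqrt_nonneg _
  have hψi : Integrable ψ μ := by
    have h1 : IntegrableOn ψ (closedBall (0 : Eu d) R) μ := by
      have : Fact (μ (closedBall (0 : Eu d) R) < ⊤) := ⟨measure_closedBall_lt_top⟩
      exact (hψ.restrict _).integrable one_le_two
    rw [← integrable_indicator_iff measurableSet_closedBall] at h1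
    refine h1.congr (Eventually.of_forall fun x => ?_)
    by_cases hx : x ∈ closedBall (0 : Eu d) R
    · rw [indicator_of_mem hx]
    · rw [indicator_of_notMem hx, hψR x (by simpa only [mem_closedBall, dist_zero_right,
                                              not_le] using hx)]
  have key : ∀ ε : ℝ, 0 < ε → ‖form n e μ ψ θ‖ ≤
      C₁ * Ψ * Θ + ε * (C₁ * Θ + (e ^ n)⁻¹ * V * I) := by
    intro ε hε
    obtain ⟨g, hg, hgR, hgε⟩ := exists_lipC_approx hψ R hR hψR ε hε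
    have hgi : Integrable g μ := hg.continuous.integrable_of_hasCompactSupport hg.2
    have hg2 : MemLp g 2 μ := hg.memLp 2
    have hd2 : MemLp (fun x => ψ x - g x) 2 μ := hψ.sub hg2
    have hdi : Integrable (fun x => ψ x - g x) μ := hψi.sub hgi
    have e1 : form n e μ ψ θ = form n e μ g θ + form n e μ (fun x => ψ x - g x) θ := by
      rw [form_eq_of_pos h e he hψi hθi, form_eq_of_pos h e he hgi hθi,
        form_eq_of_pos h e he hdi hθi, ← integral_add]
      · congr 1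
        funext p
        rw [← add_smul]; congr 1; ring
      · exact integrable_pos_form h e he hgi hθi
      · exact integrable_pos_form h e he hdi hθi
    have h2 : ‖form n e μ g θ‖ ≤ C₁ * (Ψ + ε) * Θ := by
      refine (hb e he a S hS g hg.continuous hg.2).trans ?_
      have h3 : Real.sqrt (∫ x, g x ^ 2 ∂μ) ≤ Ψ + ε := by
        have h4 := sqrt_integral_sq_sub_le hψ hd2
        simp only [sub_sub_cancel] at h4
        linarith only [hgε, h4]
      (clear * - hC1 h3; (clear * - h3 hC1; gcongr))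
    have h5 : ‖form n e μ (fun x => ψ x - g x) θ‖ ≤ (e ^ n)⁻¹ * (V * ε) * I := by
      rw [form_eq_of_pos h e he hdi hθi]
      have h6 : ∀ p : Eu d × Eu d, ‖((ψ p.1 - g p.1) * θ p.2) • rK n e (p.1 - p.2)‖ ≤
          (e ^ n)⁻¹ * (|ψ p.1 - g p.1| * |θ p.2|) := by
        intro p
        rw [norm_smul, norm_mul, Real.norm_eq_abs, Real.norm_eq_abs, mul_comm]
        gcongr
        exact norm_rK_le_e n e he _
      have h7 := norm_integral_le_of_norm_le (μ := μ.prod μ)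
        ((hdi.abs.mul_prod hθi.abs).const_mul ((e ^ n)⁻¹)) (Eventually.of_forall h6)
      refine h7.trans ?_
      rw [integral_const_mul, integral_prod_mul (fun x => |ψ x - g x|) (fun x => |θ x|), ← mul_assoc]
      have h8 := integral_abs_le_sqrt hd2 (closedBall (0 : Eu d) (2 * R)) measurableSet_closedBall
        hfin (fun x hx => by
          have hx' : 2 * R < ‖x‖ := by simpa only [mem_closedBall, dist_zero_right, not_le] using hx
          rw [hgR x hx', hψR x (by linarith only [hR, hx']), sub_zero])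
      have h9 : ∫ x, |ψ x - g x| ∂μ ≤ V * ε := h8.trans (by (clear * - hgε; (clear * - hgε; gcongr)))
      (clear * - he h9; gcongr)
    rw [e1]
    refine (norm_add_le _ _).trans ?_
    calc ‖form n e μ g θ‖ + ‖form n e μ (fun x => ψ x - g x) θ‖
        ≤ C₁ * (Ψ + ε) * Θ + (e ^ n)⁻¹ * (V * ε) * I := add_le_add h2 h5
      _ = _ := by ring
  refine le_of_forall_pos_le_add fun δ hδ => ?_
  set A := C₁ * Θ + (e ^ n)⁻¹ * V * I with hA
  have hA0 : 0 ≤ A := by (clear * - he hC1; (clear * - hC1 he; positivity))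
  refine (key (δ / (A + 1)) (by (clear * - he hC1 hδ; positivity))).trans ?_
  gcongr
  rw [div_mul_eq_mul_div, div_le_iff₀ (by (clear * - he hC1; positivity))]
  nlinarith only [hδ]

/-- the truncated equation -/
theorem frac_cut_le (hn : 1 ≤ n) {C₁ C₂ : ℝ} (h : Lim n c C C₁ C₂ ν) (hs : ν.support = univ)
    (ζ : Eu n → ℝ) (hζ : ContDiff ℝ 2 ζ) (hζ' : HasCompactSupport ζ) :
    ∃ M S₀ : ℝ, 0 < S₀ ∧ ∀ S : ℝ, S₀ ≤ S → |∫ y, cut 0 S y * fracL n ζ y ∂ν| ≤ M / S := by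
  have har := h.ar
  have hC := har.C_pos
  have hc := har.c_pos
  have hlf := har.isLocallyFiniteMeasure
  obtain ⟨K, hK, hvK⟩ := har.volume_le hn hs
  have hac : (volume : Measure (Eu n)) ≪ ν :=
    Measure.absolutelyContinuous_of_le_smul hvK
  have hζ1 : ContDiff ℝ 1 ζ := hζ.of_le one_le_two
  have hζf : Continuous (fderiv ℝ ζ) := hζ.continuous_fderiv two_ne_zero
  -- the support radius
  obtain ⟨R0, hR0⟩ := hζ'.isCompact.isBounded.subset_closedBall (0 : Eu n)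
  set R : ℝ := max R0 1 with hR
  have hRpos : 0 < R := lt_max_of_lt_right one_pos
  have hζR : ∀ x, R < ‖x‖ → fderiv ℝ ζ x = 0 := by
    intro x hx
    have h1 : x ∉ tsupport ζ := by
      intro hx'
      have h2 := hR0 hx'
      rw [mem_closedBall, dist_zero_right] at h2
      have h3 := le_max_left R0 1
      linarith only [hx, h2, h3]
    by_contra h2
    exact h1 (support_fderiv_subset ℝ (Function.mem_support.2 h2))
  set ψ : Fin n → Eu n → ℝ := fun i x => dens ν x * fderiv ℝ ζ x (EuclideanSpace.single i 1)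
    with hψ
  have hdc : ∀ i, Continuous fun x => fderiv ℝ ζ x (EuclideanSpace.single i (1 : ℝ)) := fun i =>
    hζf.clm_apply continuous_const
  have hds : ∀ i, HasCompactSupport fun x => fderiv ℝ ζ x (EuclideanSpace.single i (1 : ℝ)) :=
    fun i => hζ'.fderiv_apply (𝕜 := ℝ) _
  have hψR : ∀ i x, R < ‖x‖ → ψ i x = 0 := by
    intro i x hx
    simp only [hψ, hζR x hx, zero_apply, mul_zero]
  have hdensm : Measurable (dens ν) := (Measure.measurable_rnDeriv _ _).ennreal_toReal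
  have hψm : ∀ i, MemLp (ψ i) 2 ν := by
    intro i
    refine MemLp.of_le_mul (c := K) (((hdc i).memLp_of_hasCompactSupport (hds i)) :
      MemLp (fun x => fderiv ℝ ζ x (EuclideanSpace.single i (1 : ℝ))) 2 ν)
      (hdensm.mul (hdc i).measurable).aestronglyMeasurable ?_
    filter_upwards [dens_le ν hvK hK] with x hx
    simp only [hψ, norm_mul]
    gcongr
    exact hx
  have hψi : ∀ i, Integrable (ψ i) ν := fun i =>
    (integrable_rnDeriv_smul_iff hac).2 ((hdc i).integrable_of_hasCompactSupport (hds i))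
  have hψ0 : ∀ i, ∫ x, ψ i x ∂ν = 0 := by
    intro i
    have h1 : ∫ x, ψ i x ∂ν = ∫ x, fderiv ℝ ζ x (EuclideanSpace.single i (1 : ℝ)) :=
      integral_rnDeriv_smul hac
    rw [h1]
    have h2 := integral_mul_fderiv_eq_neg_fderiv_mul_of_integrable
      (μ := (volume : Measure (Eu n))) (f := fun _ => (1 : ℝ)) (g := ζ)
      (v := EuclideanSpace.single i 1) (by simp only [fderiv_fun_const, Pi.zero_apply, zero_apply,
                                             zero_mul, integrable_fun_zero]) (by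
        simpa only [one_mul] using (hdc i).integrable_of_hasCompactSupport (hds i)) (by
        simpa only [one_mul] using hζ.continuous.integrable_of_hasCompactSupport hζ')
        (fun x _ => differentiableAt_const _)
        (fun x _ => (hζ.differentiable two_ne_zero) x)
    simpa only [one_mul, fderiv_fun_const, Pi.zero_apply, zero_apply, zero_mul, integral_zero, neg_zero] using h2
  have h0s : (0 : Eu n) ∈ ν.support := by rw [hs]; trivial
  have htent : 0 < ∫ x, tent (0 : Eu n) R x ∂ν := by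
    have htL : LipC (tent (0 : Eu n) R) := lipC_tent 0 R hRpos
    have hti := htL.continuous.integrable_of_hasCompactSupport htL.2 (μ := ν)
    have h1 : ∀ x, (ball (0 : Eu n) (R / 2)).indicator (fun _ => (1 / 2 : ℝ)) x ≤
        tent (0 : Eu n) R x := by
      intro x
      by_cases hx : x ∈ ball (0 : Eu n) (R / 2)
      · rw [indicator_of_mem hx]
        rw [mem_ball] at hx
        unfold tent
        refine le_max_of_le_right ?_
        have : dist x 0 / R ≤ 1 / 2 := by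
          rw [div_le_iff₀ hRpos]; linarith only [hx]
        linarith only [this]
      · rw [indicator_of_notMem hx]; exact le_max_left _ _
    have h2 : 0 < ν.real (ball (0 : Eu n) (R / 2)) := by
      refine ENNReal.toReal_pos ?_ measure_ball_lt_top.ne
      have h3 := har.lower 0 h0s (R / 2) (by (clear * -; positivity)) le_top
      exact (lt_of_lt_of_le (ENNReal.ofReal_pos.2 (by (clear * - hc; positivity))) h3).ne'
    have h4 := integral_mono ((integrable_indicator_iff measurableSet_ball).2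
      (integrableOn_const (C := (1 / 2 : ℝ)) (measure_ball_lt_top (μ := ν) (x := (0 : Eu n))
        (r := R / 2)).ne)) hti h1
    rw [integral_indicator measurableSet_ball, setIntegral_const, smul_eq_mul] at h4
    have h5 : 0 < ν.real (ball (0 : Eu n) (R / 2)) * (1 / 2) := by (clear * - h2; (clear * - h2; positivity))
    linarith only [h2, h4]
  set V := Real.sqrt (ν.real (closedBall (0 : Eu n) (2 * R))) with hV
  have hC2 := h.er.1
  refine ⟨∑ i, C₂ * (2 * R) * ∫ x, |ψ i x| ∂ν, 4 * R, by (clear * -; positivity), fun S hS => ?_⟩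
  have hSpos : 0 < S := by linarith only [hRpos, hS]
  have hθL : LipC (cut (0 : Eu n) S) := lipC_cut 0 S hSpos
  set Θ := Real.sqrt (S ^ n) with hΘ
  have hθc := hθL.continuous
  -- the limit of the left side
  obtain ⟨B, hB0, hB⟩ := gradPot_bound hn ζ hζ hζ'
  have hlim : Tendsto (fun e : ℝ => ∫ y, cut 0 S y * gradPot n e ζ y ∂ν) (𝓝[>] 0)
      (𝓝 (∫ y, cut 0 S y * (- fracL n ζ y) ∂ν)) := by
    refine tendsto_integral_filter_of_dominated_convergence
      (fun y => |cut 0 S y| * B) ?_ ?_ ?_ ?_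
    · filter_upwards [self_mem_nhdsWithin] with e he
      have h1 : (fun y => gradPot n e ζ y) = fun y => - ∫ x, ζ x * Dk n e (x - y) := by
        funext y; exact gradPot_eq e he ζ hζ1 hζ' y
      have h2 : StronglyMeasurable fun y : Eu n => ∫ x, ζ x * Dk n e (x - y) := by
        have h3 : Continuous (fun p : Eu n × Eu n => ζ p.2 * Dk n e (p.2 - p.1)) :=
          (hζ.continuous.comp continuous_snd).mul
            ((continuous_Dk e he).comp (continuous_snd.sub continuous_fst))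
        exact h3.stronglyMeasurable.integral_prod_right
      have h4 : StronglyMeasurable fun y => gradPot n e ζ y := by
        rw [h1]; exact h2.neg
      exact (hθc.stronglyMeasurable.mul h4).aestronglyMeasurable
    · filter_upwards [self_mem_nhdsWithin] with e he
      refine Eventually.of_forall fun y => ?_
      rw [norm_mul, Real.norm_eq_abs, Real.norm_eq_abs]
      gcongr
      exact hB e y he
    · exact (hθc.integrable_of_hasCompactSupport hθL.2).abs.mul_const _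
    · exact Eventually.of_forall fun y => (tendsto_gradPot hn ζ hζ hζ' y).const_mul _
  -- bound for every small parameter
  have key : ∀ ε : ℝ, 0 < ε → |∫ y, cut 0 S y * fracL n ζ y ∂ν| ≤
      ∑ i, (C₁ * ε * Θ + C₂ * (2 * R / S) * ((∫ x, |ψ i x| ∂ν) + V * ε)) := by
    intro ε hε
    have hex : ∀ i, ∃ g : Eu n → ℝ, LipC g ∧ (∀ x, 2 * R < ‖x‖ → g x = 0) ∧ ∫ x, g x ∂ν = 0 ∧
      Real.sqrt (∫ x, (ψ i x - g x) ^ 2 ∂ν) ≤ ε := fun i =>
      exists_lipC_approx0 (hψm i) (hψi i) R hRpos (hψR i) (hψ0 i) htent ε hε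
    choose g hgL hgR hg0 hgε using hex
    have hgi : ∀ i, Integrable (g i) ν := fun i =>
      (hgL i).continuous.integrable_of_hasCompactSupport (hgL i).2
    have hθi : Integrable (cut (0 : Eu n) S) ν := hθc.integrable_of_hasCompactSupport hθL.2
    have hdm : ∀ i, MemLp (fun x => ψ i x - g i x) 2 ν := fun i => (hψm i).sub ((hgL i).memLp 2)
    have hdfi : ∀ i, Integrable (fun x => ψ i x - g i x) ν := fun i => (hψi i).sub (hgi i)
    have hdR : ∀ i x, 2 * R < ‖x‖ → ψ i x - g i x = 0 := fun i x hx => by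
      rw [hψR i x (by linarith only [hRpos, hx]), hgR i x hx, sub_zero]
    have hbd : ∀ e : ℝ, 0 < e → |∫ y, cut 0 S y * gradPot n e ζ y ∂ν| ≤
        ∑ i, (C₁ * ε * Θ + ‖form n e ν (g i) (cut 0 S)‖) := by
      intro e he
      rw [← sum_form_eq har hac e he ζ hζ1 hζ' (cut 0 S) hθc hθL.2]
      refine (norm_coord_sum_le _).trans (Finset.sum_le_sum fun i _ => ?_)
      have e1 : form n e ν (ψ i) (cut 0 S) = form n e ν (fun x => ψ i x - g i x) (cut 0 S) +
          form n e ν (g i) (cut 0 S) := by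
        rw [form_eq_of_pos har e he (hψi i) hθi, form_eq_of_pos har e he (hgi i) hθi,
          form_eq_of_pos har e he (hdfi i) hθi, ← integral_add]
        · congr 1
          funext p
          rw [← add_smul]; congr 1; ring
        · exact integrable_pos_form har e he (hdfi i) hθi
        · exact integrable_pos_form har e he (hgi i) hθi
      change ‖form n e ν (ψ i) (cut 0 S)‖ ≤ _
      rw [e1]
      refine (norm_add_le _ _).trans ?_
      gcongr
      refine (RB.ext har h.rb e he (hdm i) (2 * R) (by (clear * -; (clear * -; positivity))) (hdR i) 0 hSpos).trans ?_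
      have := h.rb.1
      gcongr
      exact hgε i
    have hlim2 : Tendsto (fun e : ℝ => ∑ i, (C₁ * ε * Θ + ‖form n e ν (g i) (cut 0 S)‖))
        (𝓝[>] 0) (𝓝 (∑ i, (C₁ * ε * Θ + ‖form n 0 ν (g i) (cut 0 S)‖))) :=
      tendsto_finsetSum _ fun i _ =>
        (form_tendsto hn har (hgL i) hθL).norm.const_add _
    have h1 : |∫ y, cut 0 S y * (- fracL n ζ y) ∂ν| ≤
        ∑ i, (C₁ * ε * Θ + ‖form n 0 ν (g i) (cut 0 S)‖) := by
      refine le_of_tendsto_of_tendsto hlim.abs hlim2 ?_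
      filter_upwards [self_mem_nhdsWithin] with e he
      exact hbd e he
    have h2 : |∫ y, cut 0 S y * (- fracL n ζ y) ∂ν| = |∫ y, cut 0 S y * fracL n ζ y ∂ν| := by
      rw [← abs_neg, ← integral_neg]
      congr 2
      funext y; ring
    rw [h2] at h1
    refine h1.trans (Finset.sum_le_sum fun i _ => ?_)
    gcongr
    have h3 := h.er.2 0 (2 * R) S (g i) (cut 0 S) (by (clear * -; (clear * -; positivity))) (by linarith only [hS]) (hgL i)
      (fun x hx => hgR i x (by simpa only [dist_zero_right] using hx)) (hg0 i) hθL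
      (fun x => ⟨cut0_nonneg S x, cut0_le_one S x⟩)
      (fun x hx => cut0_eq_one S hSpos x (by simpa only [dist_zero_right] using hx))
    refine h3.trans ?_
    have h4 : ∫ x, |g i x| ∂ν ≤ (∫ x, |ψ i x| ∂ν) + V * ε := by
      have h5 : ∫ x, |g i x| ∂ν ≤ ∫ x, (|ψ i x| + |ψ i x - g i x|) ∂ν := by
        refine integral_mono (hgi i).abs ((hψi i).abs.add (hdfi i).abs) fun x => ?_
        have := abs_sub_abs_le_abs_sub (g i x) (ψ i x)
        rw [abs_sub_comm] at this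
        simp only
        linarith only [this]
      rw [integral_add (hψi i).abs (hdfi i).abs] at h5
      refine h5.trans ?_
      gcongr
      refine (integral_abs_le_sqrt (hdm i) (closedBall (0 : Eu n) (2 * R))
        measurableSet_closedBall measure_closedBall_lt_top.ne (fun x hx => ?_)).trans ?_
      · exact hdR i x (by simpa only [mem_closedBall, dist_zero_right, not_le] using hx)
      · gcongr
        exact hgε i
    (clear * - hC2 hSpos h4; gcongr)
  -- let ε → 0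
  have hlim3 : Tendsto (fun ε : ℝ => ∑ i, (C₁ * ε * Θ + C₂ * (2 * R / S) *
      ((∫ x, |ψ i x| ∂ν) + V * ε))) (𝓝[>] 0)
      (𝓝 (∑ i, (C₁ * 0 * Θ + C₂ * (2 * R / S) * ((∫ x, |ψ i x| ∂ν) + V * 0)))) := by
    refine Tendsto.mono_left ?_ nhdsWithin_le_nhds
    refine Continuous.tendsto' ?_ 0 _ rfl
    fun_prop
  have h6 : |∫ y, cut 0 S y * fracL n ζ y ∂ν| ≤
      ∑ i, (C₁ * 0 * Θ + C₂ * (2 * R / S) * ((∫ x, |ψ i x| ∂ν) + V * 0)) := by
    refine ge_of_tendsto hlim3 ?_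
    filter_upwards [self_mem_nhdsWithin] with ε hε
    exact key ε hε
  refine h6.trans (le_of_eq ?_)
  rw [Finset.sum_div]
  refine Finset.sum_congr rfl fun i _ => ?_
  ring

/-- the full equation: `∫ (-Δ)^{1/2} ζ dν = 0` -/
theorem frac_eq (hn : 1 ≤ n) {C₁ C₂ : ℝ} (h : Lim n c C C₁ C₂ ν) (hs : ν.support = univ)
    (ζ : Eu n → ℝ) (hζ : ContDiff ℝ (⊤ : ℕ∞) ζ) (hζ' : HasCompactSupport ζ) :
    ∫ y, fracL n ζ y ∂ν = 0 := by
  obtain ⟨M, S₀, hS₀, hM⟩ := frac_cut_le hn h hs ζ (contDiff_infty.1 hζ 2) hζ'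
  obtain ⟨⟨B, hB⟩, -, hcont⟩ := fracL_bound n hn ζ hζ hζ'
  have hdec := (integrable_decay (d := n) n h.ar.C_pos h.ar.upper).const_mul B
  have hlim : Tendsto (fun k : ℕ => ∫ y, cut 0 ((k : ℝ) + 1) y * fracL n ζ y ∂ν) atTop
      (𝓝 (∫ y, fracL n ζ y ∂ν)) := by
    refine tendsto_integral_of_dominated_convergence
      (fun y => B * ((1 + ‖y‖) ^ (n + 1))⁻¹) (fun k => ?_) hdec
      (fun k => Eventually.of_forall fun y => ?_) (Eventually.of_forall fun y => ?_)
    · exact ((lipC_cut (0 : Eu n) ((k : ℝ) + 1) (by (clear * -; (clear * -; positivity)))).continuous.mul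
        hcont).aestronglyMeasurable
    · rw [norm_mul, Real.norm_of_nonneg (cut0_nonneg _ _), Real.norm_eq_abs]
      exact (mul_le_of_le_one_left (abs_nonneg _) (cut0_le_one _ _)).trans (hB y)
    · refine tendsto_const_nhds.congr' ?_
      obtain ⟨N, hN⟩ := exists_nat_ge ‖y‖
      filter_upwards [eventually_ge_atTop N] with k hk
      have hk' : (N : ℝ) ≤ k := by exact_mod_cast hk
      rw [cut0_eq_one _ (by (clear * -; positivity)) y (by linarith only [hN, hk']), one_mul]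
  have hlim0 : Tendsto (fun k : ℕ => ∫ y, cut 0 ((k : ℝ) + 1) y * fracL n ζ y ∂ν) atTop
      (𝓝 0) := by
    have h0 : Tendsto (fun k : ℕ => M * (1 / ((k : ℝ) + 1))) atTop (𝓝 0) := by
      have := (tendsto_one_div_add_atTop_nhds_zero_nat (𝕜 := ℝ)).const_mul M
      rwa [mul_zero] at this
    refine squeeze_zero_norm' ?_ h0
    obtain ⟨N, hN⟩ := exists_nat_ge S₀
    filter_upwards [eventually_ge_atTop N] with k hk
    have hk' : (N : ℝ) ≤ k := by exact_mod_cast hk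
    rw [Real.norm_eq_abs]
    refine (hM _ (by linarith only [hN, hk'])).trans (le_of_eq ?_)
    ring
  exact tendsto_nhds_unique hlim hlim0

/-- Lemma 8: a measure on `R^n` with full support in the class `Lim` is a constant multiple of
Lebesgue measure. -/
theorem liouville1 (n : ℕ) (hn : 1 ≤ n) (c C C₁ C₂ : ℝ) (ν : Measure (Eu n))
    (h : Lim n c C C₁ C₂ ν) (hs : ν.support = univ) :
    ∃ g : ℝ, 0 < g ∧ ν = ENNReal.ofReal g • (volume : Measure (Eu n)) := by
  have har := h.ar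
  have hlf := har.isLocallyFiniteMeasure
  obtain ⟨K, hK, hνK⟩ := har.le_volume hn
  have hac : ν ≪ (volume : Measure (Eu n)) := Measure.absolutelyContinuous_of_le_smul hνK
  set G : Eu n → ℝ := fun x => (ν.rnDeriv volume x).toReal with hG
  have hGm : Measurable G := (Measure.measurable_rnDeriv _ _).ennreal_toReal
  have hGK' : ν.rnDeriv volume ≤ᵐ[volume] fun _ => ENNReal.ofReal K := by
    refine ae_le_of_forall_setLIntegral_le_of_sigmaFinite
      (Measure.measurable_rnDeriv _ _) fun s hs' _ => ?_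
    refine (Measure.setLIntegral_rnDeriv_le s).trans ?_
    rw [setLIntegral_const]
    have := hνK s
    simpa only [ge_iff_le, Measure.smul_apply, smul_eq_mul] using this
  have hGK : ∀ᵐ x, |G x| ≤ K := by
    filter_upwards [hGK'] with x hx
    rw [abs_of_nonneg ENNReal.toReal_nonneg]
    exact ENNReal.toReal_le_of_le_ofReal hK.le hx
  obtain ⟨κ, hκ, hvol⟩ := exists_vol_const n
  have hloc : ∀ R : ℝ, MemLp G 2 (volume.restrict (ball 0 R)) := by
    intro R
    have : Fact ((volume : Measure (Eu n)) (ball 0 R) < ⊤) := ⟨measure_ball_lt_top⟩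
    exact MemLp.of_bound hGm.aestronglyMeasurable K (ae_restrict_of_ae (by
      filter_upwards [hGK] with x hx
      rwa [Real.norm_eq_abs]))
  have hgrowth : ∀ R : ℝ, 1 ≤ R → ∫ x in ball (0 : Eu n) R, G x ^ 2 ≤ K ^ 2 * κ * R ^ (n + 3) := by
    intro R hR
    have hR0 : 0 < R := by linarith only [hR]
    have h1 : ∫ x in ball (0 : Eu n) R, G x ^ 2 ≤ ∫ _x in ball (0 : Eu n) R, K ^ 2 := by
      refine integral_mono_of_nonneg (Eventually.of_forall fun x => sq_nonneg _)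
        (integrableOn_const measure_ball_lt_top.ne) (ae_restrict_of_ae ?_)
      filter_upwards [hGK] with x hx
      rw [← sq_abs]
      exact pow_le_pow_left₀ (abs_nonneg _) hx 2
    rw [setIntegral_const, smul_eq_mul] at h1
    have h2 : (volume : Measure (Eu n)).real (ball 0 R) = κ * R ^ n := by
      rw [Measure.real, (hvol 0 R hR0).1, ENNReal.toReal_ofReal (by (clear * - hκ hR; (clear * - hκ hR; positivity)))]
    rw [h2] at h1
    have h3 : R ^ n ≤ R ^ (n + 3) := pow_le_pow_right₀ hR (by omega)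
    calc ∫ x in ball (0 : Eu n) R, G x ^ 2 ≤ κ * R ^ n * K ^ 2 := h1
      _ ≤ κ * R ^ (n + 3) * K ^ 2 := by (clear * - h3 hκ hK; gcongr)
      _ = _ := by ring
  have hweak : ∀ φ : Eu n → ℝ, ContDiff ℝ (⊤ : ℕ∞) φ → HasCompactSupport φ → ∫ x, φ x = 0 →
      ∫ x, G x * fracL n φ x = 0 := by
    intro φ hφ hφ' _
    have h1 := frac_eq hn h hs φ hφ hφ'
    rw [← integral_rnDeriv_smul hac] at h1
    exact h1
  obtain ⟨b, a, hba⟩ := liouville n hn G hloc (K ^ 2 * κ) hgrowth hweak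
  have hcl : ∀ x : Eu n, |b + ⟪a, x⟫_ℝ| ≤ K := by
    have h1 : ∀ᵐ x : Eu n, x ∈ {x : Eu n | |b + ⟪a, x⟫_ℝ| ≤ K} := by
      filter_upwards [hba, hGK] with x hx hx'
      rw [hx] at hx'
      exact hx'
    have h2 : IsClosed {x : Eu n | |b + ⟪a, x⟫_ℝ| ≤ K} :=
      isClosed_le (by (clear * -; fun_prop)) continuous_const
    have h3 : Dense {x : Eu n | |b + ⟪a, x⟫_ℝ| ≤ K} := MeasureTheory.Measure.dense_of_ae h1
    have h4 := h3.closure_eq
    rw [h2.closure_eq] at h4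
    intro x
    have : x ∈ {x : Eu n | |b + ⟪a, x⟫_ℝ| ≤ K} := by rw [h4]; trivial
    exact this
  have ha : a = 0 := by
    by_contra ha
    have hna : 0 < ‖a‖ := norm_pos_iff.2 ha
    have h1 := hcl (((K + |b| + 1) / ‖a‖ ^ 2) • a)
    rw [real_inner_smul_right, real_inner_self_eq_norm_sq, div_mul_cancel₀ _ (by (clear * - ha; positivity))] at h1
    have h2 := (abs_le.1 h1).2
    have h3 := neg_abs_le b
    linarith only [h2, h3]
  subst ha
  have hν : ν = ENNReal.ofReal b • (volume : Measure (Eu n)) := by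
    rw [← Measure.withDensity_rnDeriv_eq ν volume hac, ← withDensity_const]
    apply withDensity_congr_ae
    filter_upwards [hba, hGK'] with x hx hx'
    rw [inner_zero_left, add_zero] at hx
    have h1 : ν.rnDeriv volume x ≠ ⊤ := (hx'.trans_lt ENNReal.ofReal_lt_top).ne
    rw [← hx, hG]
    simp only
    rw [ENNReal.ofReal_toReal h1]
  refine ⟨b, ?_, hν⟩
  by_contra hb
  rw [ENNReal.ofReal_of_nonpos (not_lt.1 hb), zero_smul] at hν
  rw [hν, Measure.support_zero] at hs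
  exact (empty_ne_univ (α := Eu n)) hs

end Vale.Agent.P120.TT
end

section
open MeasureTheory Metric Set Filter Topology
open scoped ENNReal NNReal
namespace Vale.Agent.P120.TT

/-- a measure in the class `Lim` on `R^d` supported in an affine `n`-plane is a multiple of
Lebesgue measure on that plane -/
theorem liouville_plane (n d : ℕ) (hn : 1 ≤ n) (hnd : n ≤ d) (c C C₁ C₂ : ℝ)
    (ν : Measure (Eu d)) (h : Lim n c C C₁ C₂ ν) (h0 : ν.support.Nonempty)
    (W : Submodule ℝ (Eu d)) (b : Eu d) (hW : Module.finrank ℝ W = n)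
    (hs : ∀ x ∈ ν.support, dP W b x = 0) :
    ∃ (ι : Eu n →ₗᵢ[ℝ] Eu d) (g : ℝ), LinearMap.range ι.toLinearMap = W ∧
      c / kap n ≤ g ∧ g ≤ C / kap n ∧ 0 < g ∧ ν.support = {x | dP W b x = 0} ∧
      ∀ f : Eu d → ℝ, Continuous f → HasCompactSupport f →
        ∫ x, f x ∂ν = g * ∫ v, f (b + ι v) :=
  TT.Plane.plane_of hn hnd (fun ν' h' hs' => liouville1 n hn c C C₁ C₂ ν' h' hs') h h0 W b hW hs

end Vale.Agent.P120.TT
end

section
open MeasureTheory Metric Set Filter Topology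
open scoped ENNReal NNReal
namespace Vale.Agent.P120.TT
variable {d n : ℕ} {c C : ℝ}

theorem planar_limit (n d : ℕ) (hn : 1 ≤ n) (hnd : n ≤ d) (c C C₁ C₂ : ℝ) (hC : 0 < C)
    (W : Submodule ℝ (Eu d)) (hW : Module.finrank ℝ W = n) (ν : ℕ → Measure (Eu d))
    (hν : ∀ k, Lim n c C C₁ C₂ (ν k)) (h0 : ∀ k, (0 : Eu d) ∈ (ν k).support)
    (t : ℕ → ℝ) (ht : Tendsto t (UU : Filter ℕ) (𝓝 0)) (b : ℕ → Eu d)
    (hb : Tendsto b (UU : Filter ℕ) (𝓝 0)) (K : ℝ)
    (hgr : ∀ k, ∀ R : ℝ, 1 ≤ R → ∫ x in closedBall (0 : Eu d) R, dP W (b k) x ^ 2 ∂(ν k) ≤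
      K * t k ^ 2 * R ^ (n + 3))
    (ν' : Measure (Eu d)) (hlf : IsLocallyFiniteMeasure ν') (hvl : VagueLim UU ν ν') :
    AR n c C ⊤ ν' ∧ ∃ (ι : Eu n →ₗᵢ[ℝ] Eu d) (g : ℝ), LinearMap.range ι.toLinearMap = W ∧
      0 < g ∧ ∀ f : Eu d → ℝ, Continuous f → HasCompactSupport f →
        ∫ x, f x ∂ν' = g * ∫ v : Eu n, f (ι v) := by
  obtain ⟨C₂', _, hlim⟩ := lim_of_lim n hn C hC
  have hL : Lim n c C C₁ C₂' ν' := hlim d c C₁ C₂ ν ν' hν hlf hvl h0
  have hAR : ∀ k, AR n c C ⊤ (ν k) := fun k => (hν k).ar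
  have hD : Tendsto (fun _ : ℕ => (⊤ : ℝ≥0∞)) (UU : Filter ℕ) (𝓝 ⊤) := tendsto_const_nhds
  have h0ν : (0 : Eu d) ∈ ν'.support :=
    mem_support_lim hAR hD hlf hvl (x := fun _ => 0) (Eventually.of_forall h0) tendsto_const_nhds
  -- the limit lives on `W`
  have hs : ∀ x ∈ ν'.support, dP W 0 x = 0 := by
    intro x hx
    by_contra hne
    set R : ℝ := ‖x‖ + 1 with hR
    have hR1 : 1 ≤ R := by have := norm_nonneg x; linarith only [this]
    have hR0 : 0 < R := by linarith only [hR1]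
    set F : Eu d → ℝ := fun y => cut 0 R y * dP W 0 y ^ 2 with hF
    have hFc : Continuous F := by
      have h1 : Continuous (cut (0 : Eu d) R) := by
        unfold cut
        (clear * -; fun_prop)
      exact h1.mul ((continuous_dP_pl W 0).pow 2)
    have hcut0 : ∀ y : Eu d, 2 * R < ‖y‖ → cut 0 R y = 0 := by
      intro y hy
      unfold cut
      rw [dist_zero_right]
      have h2 : 2 < ‖y‖ / R := by rw [lt_div_iff₀ hR0]; exact hy
      rw [max_eq_left]
      exact (min_le_right _ _).trans (by linarith only [h2])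
    have hF0 : ∀ y, F y ≠ 0 → y ∈ closedBall (0 : Eu d) (2 * R) := by
      intro y hy
      rw [mem_closedBall_zero_iff]
      by_contra hcon
      apply hy
      simp only [hF]
      rw [hcut0 y (not_le.mp hcon), zero_mul]
    have hFcs : HasCompactSupport F := by
      refine HasCompactSupport.intro (isCompact_closedBall (0 : Eu d) (2 * R)) fun y hy => ?_
      by_contra hcon
      exact hy (hF0 y hcon)
    have hFnn : ∀ y, 0 ≤ F y := fun y => mul_nonneg (le_max_left _ _) (sq_nonneg _)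
    have hlimF := hvl F hFc hFcs
    have hbound : ∀ k, ∫ y, F y ∂(ν k) ≤
        2 * (K * t k ^ 2 * (2 * R) ^ (n + 3)) + 2 * ‖b k‖ ^ 2 * (C * (2 * R) ^ n) := by
      intro k
      have hlfk := (hAR k).isLocallyFiniteMeasure
      have hsub : ∫ y, F y ∂(ν k) = ∫ y in closedBall (0 : Eu d) (2 * R), F y ∂(ν k) := by
        refine (setIntegral_eq_integral_of_forall_compl_eq_zero fun y hy => ?_).symm
        by_contra hcon
        exact hy (hF0 y hcon)
      rw [hsub]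
      have hcomp := isCompact_closedBall (0 : Eu d) (2 * R)
      have hi1 : IntegrableOn (fun y => dP W (b k) y ^ 2) (closedBall (0 : Eu d) (2 * R)) (ν k) :=
        ((continuous_dP_pl W (b k)).pow 2).continuousOn.integrableOn_compact hcomp
      have hi2 : IntegrableOn (fun _ : Eu d => ‖b k‖ ^ 2) (closedBall (0 : Eu d) (2 * R)) (ν k) :=
        continuous_const.continuousOn.integrableOn_compact hcomp
      have h1 : ∫ y in closedBall (0 : Eu d) (2 * R), F y ∂(ν k) ≤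
          ∫ y in closedBall (0 : Eu d) (2 * R),
            (2 * dP W (b k) y ^ 2 + 2 * ‖b k‖ ^ 2) ∂(ν k) := by
        refine setIntegral_mono_on (hFc.continuousOn.integrableOn_compact hcomp)
          ((hi1.const_mul 2).add (hi2.const_mul 2)) measurableSet_closedBall fun y _ => ?_
        refine le_trans ?_ (dP_zero_sq_le W (b k) y)
        simp only [hF]
        refine (mul_le_mul_of_nonneg_right (b := cut 0 R y) (c := 1) ?_ (sq_nonneg _)).trans
          (one_mul _).le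
        unfold cut
        exact max_le zero_le_one (min_le_left _ _)
      refine h1.trans ?_
      rw [integral_add (hi1.const_mul 2) (hi2.const_mul 2), integral_const_mul,
        integral_const_mul]
      have h2 := hgr k (2 * R) (by linarith only [hR1])
      have h3 : ∫ _y in closedBall (0 : Eu d) (2 * R), ‖b k‖ ^ 2 ∂(ν k) ≤
          ‖b k‖ ^ 2 * (C * (2 * R) ^ n) := by
        rw [setIntegral_const, smul_eq_mul, mul_comm]
        refine mul_le_mul_of_nonneg_left ?_ (sq_nonneg _)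
        rw [measureReal_def]
        exact ENNReal.toReal_le_of_le_ofReal (by (clear * - hC; (clear * - hC; positivity)))
          ((hAR k).upper 0 (2 * R) (by linarith only [hR1]))
      nlinarith only [h2, h3]
    have hto0 : Tendsto (fun k => 2 * (K * t k ^ 2 * (2 * R) ^ (n + 3)) +
        2 * ‖b k‖ ^ 2 * (C * (2 * R) ^ n)) (UU : Filter ℕ) (𝓝 0) := by
      have h1 : Tendsto (fun k => 2 * (K * t k ^ 2 * (2 * R) ^ (n + 3))) (UU : Filter ℕ)
          (𝓝 (2 * (K * 0 ^ 2 * (2 * R) ^ (n + 3)))) :=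
        (((ht.pow 2).const_mul K).mul_const _).const_mul 2
      have h2 : Tendsto (fun k => 2 * ‖b k‖ ^ 2 * (C * (2 * R) ^ n)) (UU : Filter ℕ)
          (𝓝 (2 * ‖(0 : Eu d)‖ ^ 2 * (C * (2 * R) ^ n))) :=
        ((hb.norm.pow 2).const_mul 2).mul_const _
      have h3 := h1.add h2
      simpa only [ne_eq, OfNat.ofNat_ne_zero, not_false_eq_true, zero_pow, mul_zero, zero_mul, norm_zero,     add_zero] using h3
    have hF' : ∫ y, F y ∂ν' = 0 := by
      refine le_antisymm ?_ (integral_nonneg hFnn)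
      exact le_of_tendsto_of_tendsto hlimF hto0 (Eventually.of_forall hbound)
    have hint : Integrable F ν' := hFc.integrable_of_hasCompactSupport hFcs
    have hae := (integral_eq_zero_iff_of_nonneg hFnn hint).mp hF'
    have hFx : F x ≠ 0 := by
      simp only [hF]
      refine mul_ne_zero ?_ (pow_ne_zero 2 hne)
      unfold cut
      rw [dist_zero_right]
      have h2 : ‖x‖ / R ≤ 1 := by rw [div_le_one hR0]; linarith only []
      have h3 : (1 : ℝ) ≤ min 1 (2 - ‖x‖ / R) := le_min le_rfl (by linarith only [h2])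
      have h4 : (1 : ℝ) ≤ max 0 (min 1 (2 - ‖x‖ / R)) := h3.trans (le_max_right _ _)
      linarith only [h4]
    have hopen : IsOpen {y | F y ≠ 0} := isOpen_ne_fun hFc continuous_const
    have hpos := (Measure.mem_support_iff_forall x).mp hx _ (hopen.mem_nhds hFx)
    have hz : ν' {y | F y ≠ 0} = 0 := by
      have := ae_iff.mp hae
      simpa only [ne_eq, Pi.zero_apply] using this
    exact hpos.ne' hz
  obtain ⟨ι, g, hι, _, _, hg, _, hf⟩ :=
    liouville_plane n d hn hnd c C C₁ C₂' ν' hL ⟨0, h0ν⟩ W 0 hW hs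
  refine ⟨hL.ar, ι, g, hι, hg, fun f hfc hfs => ?_⟩
  have := hf f hfc hfs
  simpa only [zero_add] using this

theorem improvement_main (n d : ℕ) (hn : 1 ≤ n) (hnd : n ≤ d) (c C C₁ C₂ : ℝ) (hc : 0 < c)
    (hC : 0 < C) : ∃ ε₁ : ℝ, 0 < ε₁ ∧ ∀ (ν : Measure (Eu d)), Lim n c C C₁ C₂ ν →
    (0 : Eu d) ∈ ν.support → ∀ t : ℝ, 0 < t → t ≤ ε₁ → (∀ R : ℝ, 1 ≤ R → FlatL2 n ν R t) →
    FlatL2 n ν 1 (t / 2) := by
  by_contra hcon
  push Not at hcon
  obtain ⟨K, ε, hK, hε, hrot⟩ := rot_setup n d hn c C hc hC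
  obtain ⟨W₀, hW₀⟩ := exists_subspace_finrank n d hnd
  have hex : ∀ k : ℕ, ∃ (μ : Measure (Eu d)) (t : ℝ) (O : Eu d ≃ₗᵢ[ℝ] Eu d) (b : Eu d),
      Lim n c C C₁ C₂ μ ∧ 0 < t ∧ t ≤ 1 / ((k : ℝ) + 1) ∧ ¬ FlatL2 n μ 1 (t / 2) ∧
      b ∈ W₀ᗮ ∧ ‖b‖ ^ (n + 2) ≤ K * t ^ 2 ∧ (0 : Eu d) ∈ (μ.map O).support ∧
      ∀ R : ℝ, 1 ≤ R → ∫ x in closedBall (0 : Eu d) R, dP W₀ b x ^ 2 ∂(μ.map O) ≤
        K * t ^ 2 * R ^ (n + 3) := by
    intro k
    obtain ⟨μ, hμ, h0, t, ht, htε, hfl, hnf⟩ := hcon (min ε (1 / ((k : ℝ) + 1)))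
      (lt_min hε (by (clear * -; (clear * -; positivity))))
    obtain ⟨O, b, hb, hbK, h0', hgr⟩ := hrot W₀ hW₀ μ hμ.ar h0 t ht
      (htε.trans (min_le_left _ _)) hfl
    exact ⟨μ, t, O, b, hμ, ht, htε.trans (min_le_right _ _), hnf, hb, hbK, h0', hgr⟩
  choose μ t O b hμ ht htk hnf hb hbK h0 hgr using hex
  set ν : ℕ → Measure (Eu d) := fun k => (μ k).map (O k) with hνdef
  have hν : ∀ k, Lim n c C C₁ C₂ (ν k) := fun k => (hμ k).map_isometry (O k)
  obtain ⟨ν', hlf', hvl⟩ := exists_vagueLim n C ν (fun k x r hr => (hν k).ar.upper x r hr)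
  have ht0 : Tendsto t atTop (𝓝 0) :=
    squeeze_zero (fun k => (ht k).le) htk tendsto_one_div_add_atTop_nhds_zero_nat
  have hUU : (UU : Filter ℕ) ≤ atTop := by
    rw [← Nat.cofinite_eq_atTop]
    exact Filter.hyperfilter_le_cofinite
  have hb0 : Tendsto b atTop (𝓝 0) := by
    have h1 : Tendsto (fun k => ‖b k‖ ^ (n + 2)) atTop (𝓝 0) := by
      have h2 : Tendsto (fun k => K * t k ^ 2) atTop (𝓝 (K * 0 ^ 2)) :=
        (ht0.pow 2).const_mul K
      rw [zero_pow two_ne_zero, mul_zero] at h2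
      exact squeeze_zero (fun k => by (clear * -; (clear * -; positivity))) hbK h2
    rw [tendsto_zero_iff_norm_tendsto_zero]
    rw [Metric.tendsto_atTop] at h1 ⊢
    intro δ hδ
    obtain ⟨N, hN⟩ := h1 (δ ^ (n + 2)) (by (clear * - hδ; positivity))
    refine ⟨N, fun k hk => ?_⟩
    have h3 := hN k hk
    rw [Real.dist_0_eq_abs, abs_of_nonneg (by (clear * -; positivity))] at h3 ⊢
    exact lt_of_pow_lt_pow_left₀ _ hδ.le h3
  obtain ⟨har', ι, g, hι, hg, hplanar⟩ := planar_limit n d hn hnd c C C₁ C₂ hC W₀ hW₀ ν hν h0 t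
    (ht0.mono_left hUU) b (hb0.mono_left hUU) K hgr ν' hlf' hvl
  subst hι
  -- the heights
  have hHt : ∀ (i : Fin d) (k : ℕ), Ht n K (ν k) (fun x =>
      inner ℝ ((t k)⁻¹ • (LinearMap.range ι.toLinearMap)ᗮ.starProjection (EuclideanSpace.single i (1 : ℝ))) x +
        (-((t k)⁻¹ * b k i))) := by
    intro i k
    refine Ht_of_lim hn (hν k) _ _ hK.le ?_
    intro R hR
    have htk0 := ht k
    have hpt : ∀ x : Eu d, (inner ℝ ((t k)⁻¹ • (LinearMap.range ι.toLinearMap)ᗮ.starProjection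
        (EuclideanSpace.single i (1 : ℝ))) x + (-((t k)⁻¹ * b k i))) ^ 2 ≤
        ((t k)⁻¹) ^ 2 * dP (LinearMap.range ι.toLinearMap) (b k) x ^ 2 := by
      intro x
      rw [height_eq (LinearMap.range ι.toLinearMap) (hb k), mul_pow]
      apply mul_le_mul_of_nonneg_left _ (by (clear * - htk0; positivity))
      unfold dP
      rw [← sq_abs]
      exact pow_le_pow_left₀ (abs_nonneg _) (abs_coord_le _ _) 2
    have hi1 : IntegrableOn (fun x => dP (LinearMap.range ι.toLinearMap) (b k) x ^ 2) (closedBall (0 : Eu d) R) (ν k) :=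
      integrableOn_dP_sq (hν k).ar (LinearMap.range ι.toLinearMap) (b k) R
    calc ∫ x in closedBall (0 : Eu d) R, (inner ℝ ((t k)⁻¹ • (LinearMap.range ι.toLinearMap)ᗮ.starProjection
          (EuclideanSpace.single i (1 : ℝ))) x + (-((t k)⁻¹ * b k i))) ^ 2 ∂(ν k)
        ≤ ∫ x in closedBall (0 : Eu d) R, ((t k)⁻¹) ^ 2 * dP (LinearMap.range ι.toLinearMap) (b k) x ^ 2 ∂(ν k) := by
          refine integral_mono_of_nonneg (ae_of_all _ fun x => sq_nonneg _)
            (hi1.const_mul _) (ae_of_all _ hpt)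
      _ = ((t k)⁻¹) ^ 2 * ∫ x in closedBall (0 : Eu d) R, dP (LinearMap.range ι.toLinearMap) (b k) x ^ 2 ∂(ν k) := by
          rw [integral_const_mul]
      _ ≤ ((t k)⁻¹) ^ 2 * (K * t k ^ 2 * R ^ (n + 3)) := by
          apply mul_le_mul_of_nonneg_left (hgr k R hR) (by (clear * - htk0; positivity))
      _ = K * R ^ (n + 3) := by (clear * - hK hR htk0; (clear * - htk0 hR hK; field_simp))
  have hst : ∀ i : Fin d, ∃ (β : ℝ) (a : Eu n), Tendsto (fun k => ∫ x in ball (0 : Eu d) 1,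
      ((inner ℝ ((t k)⁻¹ • (LinearMap.range ι.toLinearMap)ᗮ.starProjection (EuclideanSpace.single i (1 : ℝ))) x +
        (-((t k)⁻¹ * b k i))) - (β + inner ℝ a (adj ι x))) ^ 2 ∂(ν k)) (UU : Filter ℕ) (𝓝 0) := by
    intro i
    obtain ⟨σp, σm, H⟩ := exists_impSeq hn (fun k => (hν k).ar) h0 hvl har' hg hplanar (hHt i)
    exact H.strong_affine hn
  choose β a hβa using hst
  have hfin := flat_of_affine (𝒰 := UU) ι ν (fun k => (hν k).ar) t ht b hb β a hβa
  obtain ⟨k, hk⟩ := hfin.exists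
  exact hnf k ((FlatL2.map_isometry (O k) (μ k) 1 (t k / 2)).1 hk)

end Vale.Agent.P120.TT
end

section
open MeasureTheory Metric Set Filter Topology
open scoped ENNReal NNReal RealInnerProductSpace
namespace Vale.Agent.P120.TT
variable {d n : ℕ} {c C C₁ C₂ : ℝ}

/-- iteration of the improvement of flatness over all scales -/
theorem flat_iterate {ε₁ : ℝ} (hε : 0 < ε₁)
    (imp : ∀ (ν : Measure (Eu d)), Lim n c C C₁ C₂ ν →
      (0 : Eu d) ∈ ν.support → ∀ t : ℝ, 0 < t → t ≤ ε₁ → (∀ R : ℝ, 1 ≤ R → FlatL2 n ν R t) →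
      FlatL2 n ν 1 (t / 2)) {ν : Measure (Eu d)} (hν : Lim n c C C₁ C₂ ν)
    (h0 : (0 : Eu d) ∈ ν.support) (hfl : ∀ R : ℝ, 1 ≤ R → FlatL2 n ν R ε₁) (k : ℕ) :
    ∀ R : ℝ, 1 ≤ R → FlatL2 n ν R (ε₁ / 2 ^ k) := by
  induction k with
  | zero => simpa only [pow_zero, div_one] using hfl
  | succ k ih =>
    intro R hR
    have hR0 : 0 < R := by linarith only [hR]
    have hlim : Lim n c C C₁ C₂ (simM n (LinearIsometryEquiv.refl ℝ (Eu d)) 0 R ν) :=
      hν.simM _ _ hR0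
    have h0' : (0 : Eu d) ∈ (simM n (LinearIsometryEquiv.refl ℝ (Eu d)) 0 R ν).support := by
      rw [mem_support_simM _ _ n hR0]
      simpa only [simTi, map_zero, smul_zero, add_zero] using h0
    have h2 := imp _ hlim h0' (ε₁ / 2 ^ k) (by (clear * - hε; positivity))
      (div_le_self hε.le (one_le_pow₀ (by norm_num))) (fun R' hR' =>
        (ih (R * R') (by nlinarith only [hR, hR'])).rescale hR0)
    have h3 := FlatL2.of_rescale hR0 h2
    rw [mul_one] at h3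
    have h4 : ε₁ / 2 ^ k / 2 = ε₁ / 2 ^ (k + 1) := by
      rw [pow_succ]; field_simp
    rwa [h4] at h3

/-- Lemma 11 from Lemma 10 -/
theorem liouville2_of (n d : ℕ) (hn : 1 ≤ n) (hnd : n ≤ d) (c C C₁ C₂ : ℝ) (_hc : 0 < c)
    (_hC : 0 < C)
    (imp : ∃ ε₁ : ℝ, 0 < ε₁ ∧ ∀ (ν : Measure (Eu d)), Lim n c C C₁ C₂ ν →
      (0 : Eu d) ∈ ν.support → ∀ t : ℝ, 0 < t → t ≤ ε₁ → (∀ R : ℝ, 1 ≤ R → FlatL2 n ν R t) →
      FlatL2 n ν 1 (t / 2)) :
    ∃ ε₁ : ℝ, 0 < ε₁ ∧ ∀ (ν : Measure (Eu d)), Lim n c C C₁ C₂ ν →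
    (0 : Eu d) ∈ ν.support → (∀ R : ℝ, 1 ≤ R → FlatL2 n ν R ε₁) →
    ∃ (b : Eu d) (ι : Eu n →ₗᵢ[ℝ] Eu d) (g : ℝ), c / kap n ≤ g ∧ g ≤ C / kap n ∧
      ∀ f : Eu d → ℝ, Continuous f → HasCompactSupport f →
        ∫ x, f x ∂ν = g * ∫ v, f (b + ι v) := by
  obtain ⟨ε₁, hε, himp⟩ := imp
  refine ⟨ε₁, hε, fun ν hν h0 hfl => ?_⟩
  obtain ⟨W, b, hW, hWb⟩ := exists_plane_of_flat hν.ar h0 hε
    (flat_iterate hε himp hν h0 hfl)
  obtain ⟨ι, g, _, hg1, hg2, _, _, hf⟩ :=
    liouville_plane n d hn hnd c C C₁ C₂ ν hν ⟨0, h0⟩ W b hW hWb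
  exact ⟨b, ι, g, hg1, hg2, hf⟩

end Vale.Agent.P120.TT
end

section
open MeasureTheory Metric Set Filter Topology
open scoped ENNReal NNReal
namespace Vale.Agent.P120.TT

/-- Lemma 10: improvement of flatness -/
theorem improvement (n d : ℕ) (hn : 1 ≤ n) (hnd : n ≤ d) (c C C₁ C₂ : ℝ) (hc : 0 < c)
    (hC : 0 < C) : ∃ ε₁ : ℝ, 0 < ε₁ ∧ ∀ (ν : Measure (Eu d)), Lim n c C C₁ C₂ ν →
    (0 : Eu d) ∈ ν.support → ∀ t : ℝ, 0 < t → t ≤ ε₁ → (∀ R : ℝ, 1 ≤ R → FlatL2 n ν R t) →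
    FlatL2 n ν 1 (t / 2) :=
  improvement_main n d hn hnd c C C₁ C₂ hc hC

/-- Lemma 11: flat at infinity implies flat -/
theorem liouville2 (n d : ℕ) (hn : 1 ≤ n) (hnd : n ≤ d) (c C C₁ C₂ : ℝ) (hc : 0 < c)
    (hC : 0 < C) : ∃ ε₁ : ℝ, 0 < ε₁ ∧ ∀ (ν : Measure (Eu d)), Lim n c C C₁ C₂ ν →
    (0 : Eu d) ∈ ν.support → (∀ R : ℝ, 1 ≤ R → FlatL2 n ν R ε₁) →
    ∃ (b : Eu d) (ι : Eu n →ₗᵢ[ℝ] Eu d) (g : ℝ), c / kap n ≤ g ∧ g ≤ C / kap n ∧
      ∀ f : Eu d → ℝ, Continuous f → HasCompactSupport f →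
        ∫ x, f x ∂ν = g * ∫ v, f (b + ι v) :=
  liouville2_of n d hn hnd c C C₁ C₂ hc hC (improvement n d hn hnd c C C₁ C₂ hc hC)


section
variable {d n : ℕ} {c C C₁ : ℝ} {D : ℝ≥0∞} {μ : Measure (Eu d)}

theorem persistence (n d : ℕ) (hn : 1 ≤ n) (hnd : n ≤ d) (c C C₁ : ℝ) (hc : 0 < c)
    (hC : 0 < C) : ∃ ε₀ : ℝ, 0 < ε₀ ∧ ∀ K ε : ℝ, 0 < K → 0 < ε → ∃ M : ℝ, 1 ≤ M ∧
    ∀ (μ : Measure (Eu d)) (D : ℝ≥0∞), AR n c C D μ → RB n C₁ μ →
    ∀ a ∈ μ.support, ∀ r : ℝ, 0 < r → ENNReal.ofReal (M * r) ≤ D →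
    ∀ θ : Eu d → ℝ, LipC θ → (∀ x, 0 ≤ θ x ∧ θ x ≤ 1) → (∀ x, dist x a ≤ M * r → θ x = 1) →
      Good n M μ θ a r → (∀ R : ℝ, r ≤ R → R ≤ M * r → Flat n μ a R ε₀) →
      NearFlat n μ (c / kap n) (C / kap n) a r K ε := by
  obtain ⟨C₂, hC₂, hlim⟩ := lim_of_good n hn C hC
  obtain ⟨ε₁, hε₁, hliou⟩ := liouville2 n d hn hnd c C C₁ C₂ hc hC
  set ε₀ : ℝ := ε₁ / (1 + C) with hε₀
  have hε₀pos : 0 < ε₀ := by (clear * - hε₁ hC; positivity)
  have hε₀1 : C * ε₀ ^ 2 ≤ ε₁ ^ 2 := by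
    have h1 : ε₁ = ε₀ * (1 + C) := by rw [hε₀]; (clear * - hC hε₁; field_simp)
    rw [h1, mul_pow, mul_comm]
    gcongr
    nlinarith only [hC]
  refine ⟨ε₀, hε₀pos, ?_⟩
  intro K ε hK hε
  by_contra hcon
  have hseq : ∀ k : ℕ, ∃ (μ : Measure (Eu d)) (θ : Eu d → ℝ),
      AR n c C (ENNReal.ofReal ((k : ℝ) + 1)) μ ∧ RB n C₁ μ ∧ (0 : Eu d) ∈ μ.support ∧
      LipC θ ∧ (∀ x, 0 ≤ θ x ∧ θ x ≤ 1) ∧ (∀ x, dist x 0 ≤ (k : ℝ) + 1 → θ x = 1) ∧
      Good n ((k : ℝ) + 1) μ θ 0 1 ∧ (∀ R : ℝ, 1 ≤ R → R ≤ (k : ℝ) + 1 → Flat n μ 0 R ε₀) ∧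
      ¬ NearFlat n μ (c / kap n) (C / kap n) 0 1 K ε := by
    intro k
    by_contra hk
    apply hcon
    have hk1 : (1 : ℝ) ≤ (k : ℝ) + 1 := by
      have : (0 : ℝ) ≤ k := Nat.cast_nonneg k
      linarith only []
    refine ⟨(k : ℝ) + 1, hk1, ?_⟩
    intro μ D hAR hRB a ha r hr hD θ hθ hθ01 hθ1 hG hF
    by_contra hN
    apply hk
    have hlf := hAR.isLocallyFiniteMeasure
    set O := LinearIsometryEquiv.refl ℝ (Eu d) with hO
    have hcomp : ∀ x, (fun y => θ (a + r • y)) (simT O a r x) = θ x := by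
      intro x
      change θ (a + r • simT O a r x) = θ x
      congr 1
      exact simTi_simT O a hr x
    refine ⟨simM n O a r μ, fun y => θ (a + r • y), ?_, hRB.simM O a hr, ?_, ?_,
      fun x => hθ01 _, ?_, ?_, ?_, ?_⟩
    · refine hAR.simM O a hr fun ρ hρ hρD => (ENNReal.ofReal_le_ofReal ?_).trans hD
      rw [mul_comm]
      gcongr
      exact (ENNReal.ofReal_le_ofReal_iff (by linarith only [])).1 hρD
    · rw [mem_support_simM O a n hr]
      have : simTi O a r 0 = a := by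
        rw [hO, simTi_refl, smul_zero, add_zero]
      rwa [this]
    · obtain ⟨L, hL0, hL⟩ := hθ.exists_lip
      obtain ⟨S, hS0, hS⟩ := hθ.exists_ball a
      refine lipC_of_bound (L := L * r) (R := (S + 1) / r) (a := 0) ?_ ?_
      · intro x y
        refine (hL _ _).trans (le_of_eq ?_)
        rw [dist_add_left, dist_smul₀, Real.norm_of_nonneg hr.le]
        ring
      · intro x hx
        apply hS
        rw [dist_eq_norm, add_sub_cancel_left, norm_smul, Real.norm_of_nonneg hr.le]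
        rw [dist_zero_right, div_le_iff₀ hr] at hx
        linarith only [hx]
    · intro x hx
      apply hθ1
      rw [dist_eq_norm, add_sub_cancel_left, norm_smul, Real.norm_of_nonneg hr.le]
      rw [dist_zero_right] at hx
      rw [mul_comm]
      (clear * - hr hx; gcongr)
    · refine Good.simM O a hr one_pos ?_
      have h1 : simTi O a r 0 = a := by
        rw [hO, simTi_refl, smul_zero, add_zero]
      rw [h1, mul_one]
      simp only [hcomp]
      exact hG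
    · intro R hR1 hR2
      refine Flat.simM n hr (hF (r * R) ?_ ?_)
      · nlinarith only [hr, hR1]
      · rw [mul_comm]; (clear * - hr hR2; (clear * - hR2 hr; gcongr))
    · intro hNF
      exact hN (NearFlat.of_simM hr hNF)
  choose μ θ hAR hRB h0 hθL hθ01 hθ1 hG hF hN using hseq
  obtain ⟨ν, hν, hl⟩ := exists_vagueLim n C μ (fun k => (hAR k).upper)
  have hM : Tendsto (fun k : ℕ => (k : ℝ) + 1) (UU : Filter ℕ) atTop := by
    have h1 : Tendsto (fun k : ℕ => (k : ℝ) + 1) atTop atTop :=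
      tendsto_atTop_add_const_right _ _ tendsto_natCast_atTop_atTop
    refine h1.mono_left ?_
    rw [← Nat.cofinite_eq_atTop]
    exact Filter.hyperfilter_le_cofinite
  have hD : Tendsto (fun k : ℕ => ENNReal.ofReal ((k : ℝ) + 1)) (UU : Filter ℕ) (𝓝 ⊤) :=
    ENNReal.tendsto_ofReal_atTop.comp hM
  have hLim := hlim d c C₁ μ _ ν _ θ hAR hRB hD hν hl h0 hM hθL hθ01 hθ1 hG
  have h0ν : (0 : Eu d) ∈ ν.support :=
    mem_support_lim hAR hD hν hl (x := fun _ => 0) (Eventually.of_forall h0) tendsto_const_nhds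
  obtain ⟨b, ι, g, hg₀, hg₁, hg⟩ := hliou ν hLim h0ν (fun R hR => by
    refine Flat.flatL2 hLim.ar (by linarith only [hR]) hε₀1 ?_
    refine flat_lim hnd hAR hD hν hl h0 R ε₀ (by linarith only [hR]) hε₀pos.le ?_
    filter_upwards [hM.eventually_ge_atTop R] with k hk
    exact hF k R hR hk)
  have hNF := nf_of_lim hn hAR hν hl b ι g hg K ε hK hε
  obtain ⟨k, hk⟩ := hNF.exists
  exact hN k ⟨b, ι, g, hg₀, hg₁, hk⟩

end
end Vale.Agent.P120.TT
end

section
open MeasureTheory Metric Set Filter Topology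
open scoped ENNReal NNReal
namespace Vale.Agent.P120.TT
variable {n d : ℕ} {μ : Measure (Eu d)} {c C : ℝ} {D : ℝ≥0∞}
variable {A : ℕ} {l₀ : ℝ} {x₀ : Eu d} {p : ℕ → Eu d → Eu d}

/-- packing of bad cubes -/
theorem bad_cubes (n d A : ℕ) (hn : 1 ≤ n) (hA : 16 ≤ A) (c C C₁ M : ℝ) (hC : 0 < C)
    (hM : 1 ≤ M) :
    ∃ CB : ℝ, 0 < CB ∧ ∀ (μ : Measure (Eu d)) (D : ℝ≥0∞), AR n c C D μ → RB n C₁ μ →
    ∀ x₀ ∈ μ.support, ∀ l₀ : ℝ, 0 < l₀ → ENNReal.ofReal l₀ ≤ D → ∀ p : ℕ → Eu d → Eu d,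
    Sys μ A l₀ x₀ p → ∀ J : ℕ,
      ∫ x in rootC μ x₀ p,
        cnt p (fun j z => ¬ Good n M μ (cut x₀ (3 * l₀)) z (sc A l₀ j)) 0 J x ∂μ ≤
        CB * l₀ ^ n := by
  classical
  obtain ⟨Cp, hCp, hpack⟩ := packing n d A hn (by omega) c C C₁ M hM
  have hA0 : (16 : ℝ) ≤ A := by exact_mod_cast hA
  have hAp : (0 : ℝ) < A := by linarith only [hA0]
  refine ⟨C * 2 ^ n * (Cp * (A : ℝ) ^ n), by (clear * - hC hCp hA; positivity), ?_⟩
  intro μ D hAR hRB x₀ hx₀ l₀ hl hlD p hS J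
  set θ := cut x₀ (3 * l₀) with hθ
  set S₀ := rootC μ x₀ p with hS₀
  set Bad : ℕ → Eu d → Prop := fun j z => ¬ Good n M μ θ z (sc A l₀ j) with hBad
  have hfin : ∀ j, (p j '' S₀).Finite := fun j => hS.finite hA hl j
  set Z : ℕ → Finset (Eu d) := fun j => ((hfin j).toFinset).filter (fun z => Bad j z) with hZ
  -- the measure of the bad part at generation `j`
  have hμS₀ : μ S₀ ≠ ⊤ := by
    refine ((measure_mono ?_).trans_lt (hAR.measure_ball_lt_top x₀ (2 * l₀))).ne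
    intro x hx
    rw [mem_closedBall]
    exact hS.dist_root hx
  have hfm : IsFiniteMeasure (μ.restrict S₀) := ⟨by
    rw [Measure.restrict_apply_univ]; exact lt_top_iff_ne_top.2 hμS₀⟩
  have hpred : ∀ j, MeasurableSet {x | x ∈ S₀ ∧ Bad j (p j x)} := fun j =>
    measurable_pred (J := j) (fun i _ => hfin i) (fun i _ z => hS.hmeas i z) Bad le_rfl
  have h1 : ∀ j, ∫ x in S₀, (if Bad j (p j x) then (1 : ℝ) else 0) ∂μ =
      μ.real {x | x ∈ S₀ ∧ Bad j (p j x)} := by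
    intro j
    have e1 : ∫ x in S₀, (if Bad j (p j x) then (1 : ℝ) else 0) ∂μ =
        ∫ x in S₀, Set.indicator {x | x ∈ S₀ ∧ Bad j (p j x)} (fun _ => (1 : ℝ)) x ∂μ := by
      apply setIntegral_congr_fun hS.measurableSet_root
      intro x hx
      by_cases hP : Bad j (p j x)
      · have hm : x ∈ {x | x ∈ S₀ ∧ Bad j (p j x)} := ⟨hx, hP⟩
        simp only [Set.indicator_of_mem hm, if_pos hP]
      · have hm : x ∉ {x | x ∈ S₀ ∧ Bad j (p j x)} := fun h => hP h.2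
        simp only [Set.indicator_of_notMem hm, if_neg hP]
    rw [e1, setIntegral_indicator (hpred j), setIntegral_const, smul_eq_mul, mul_one]
    congr 1
    ext x
    constructor
    · rintro ⟨-, h⟩; exact h
    · intro h; exact ⟨h.1, h⟩
  have h2 : ∀ j, μ.real {x | x ∈ S₀ ∧ Bad j (p j x)} ≤
      ∑ z ∈ Z j, C * (2 * sc A l₀ j) ^ n := by
    intro j
    have e1 : {x | x ∈ S₀ ∧ Bad j (p j x)} = ⋃ z ∈ Z j, {x | x ∈ S₀ ∧ p j x = z} := by
      ext x
      simp only [mem_iUnion, hZ, Finset.mem_filter, Set.Finite.mem_toFinset, mem_image]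
      constructor
      · rintro ⟨hx, hP⟩
        exact ⟨p j x, ⟨⟨x, hx, rfl⟩, hP⟩, hx, rfl⟩
      · rintro ⟨z, ⟨-, hP⟩, hx, rfl⟩
        exact ⟨hx, hP⟩
    rw [e1]
    refine (measureReal_biUnion_finset_le _ _).trans ?_
    apply Finset.sum_le_sum
    intro z _
    exact hS.measure_cell_le hAR hA hl j z
  have h3 : ∫ x in S₀, cnt p Bad 0 J x ∂μ ≤
      ∑ j ∈ Finset.Icc 0 J, ∑ z ∈ Z j, C * (2 * sc A l₀ j) ^ n := by
    have e1 : ∫ x in S₀, cnt p Bad 0 J x ∂μ =
        ∑ j ∈ Finset.Icc 0 J, ∫ x in S₀, (if Bad j (p j x) then (1 : ℝ) else 0) ∂μ := by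
      unfold cnt
      rw [integral_finsetSum]
      · apply Finset.sum_congr rfl
        intro j _
        congr 1
        ext x
        congr 1
      · intro j _
        have hi : IntegrableOn (Set.indicator {x | x ∈ S₀ ∧ Bad j (p j x)}
            (fun _ => (1 : ℝ))) S₀ μ :=
          (integrable_const (1 : ℝ)).indicator (hpred j)
        refine IntegrableOn.congr_fun hi ?_ hS.measurableSet_root
        intro x hx
        by_cases hP : Bad j (p j x)
        · have hm : x ∈ {x | x ∈ S₀ ∧ Bad j (p j x)} := ⟨hx, hP⟩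
          simp only [Set.indicator_of_mem hm, if_pos hP]
        · have hm : x ∉ {x | x ∈ S₀ ∧ Bad j (p j x)} := fun h => hP h.2
          simp only [Set.indicator_of_notMem hm, if_neg hP]
    rw [e1]
    apply Finset.sum_le_sum
    intro j _
    rw [h1 j]
    exact h2 j
  refine h3.trans ?_
  -- apply packing
  set r₀ : ℝ := A * l₀ with hr₀
  have hr₀p : 0 < r₀ := by (clear * - hA hl; positivity)
  have hsc : ∀ j, r₀ * ((A : ℝ) ^ (j + 1))⁻¹ = sc A l₀ j := by
    intro j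
    rw [hr₀, sc, pow_succ]
    (clear * - hA hl; field_simp)
  set I : Finset (Eu d × ℕ) := (Finset.Icc 0 J).biUnion
    (fun j => (Z j).image (fun z => (z, j + 1))) with hI
  have hmemI : ∀ i ∈ I, ∃ j, i.2 = j + 1 ∧ i.1 ∈ Z j := by
    intro i hi
    rw [hI, Finset.mem_biUnion] at hi
    obtain ⟨j, -, hj⟩ := hi
    rw [Finset.mem_image] at hj
    obtain ⟨z, hz, rfl⟩ := hj
    exact ⟨j, rfl, hz⟩
  have hmemZ : ∀ j, ∀ z ∈ Z j, z ∈ S₀ ∧ p j z = z ∧ Bad j z := by
    intro j z hz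
    simp only [hZ, Finset.mem_filter, Set.Finite.mem_toFinset, mem_image] at hz
    obtain ⟨⟨x, hx, rfl⟩, hb⟩ := hz
    exact ⟨hS.p_mem_root hA hl j hx, hS.idem hA hl j hx.1, hb⟩
  have h4 := hpack μ D hAR hRB x₀ r₀ hr₀p (3 * l₀) (by positivity)
    (by rw [hr₀]; nlinarith only [hA0, hl]) I (by
      intro i hi
      obtain ⟨j, hj, hz⟩ := hmemI i hi
      obtain ⟨z1, z2, z3⟩ := hmemZ j _ hz
      refine ⟨z1.1, ?_, ?_, ?_⟩
      · refine (hS.dist_root z1).trans ?_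
        rw [hr₀]; nlinarith only [hA0, hl]
      · rw [hj, hsc]
        exact (ENNReal.ofReal_le_ofReal (sc_le hA hl j)).trans hlD
      · rw [hj, hsc]
        exact z3) (by
      intro i hi i' hi' hne heq
      obtain ⟨j, hj, hz⟩ := hmemI i hi
      obtain ⟨j', hj', hz'⟩ := hmemI i' hi'
      have hjj : j = j' := by (clear * - heq hj hj'; omega)
      subst hjj
      obtain ⟨z1, z2, -⟩ := hmemZ j _ hz
      obtain ⟨z1', z2', -⟩ := hmemZ j _ hz'
      rw [hj, hsc]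
      have hne' : i.1 ≠ i'.1 := fun h => hne (Prod.ext h heq)
      have := hS.sep j i.1 z1.1 i'.1 z1'.1 (by rw [z2, z2']; exact hne')
      rwa [z2, z2'] at this)
  have h5 : ∑ i ∈ I, (r₀ * ((A : ℝ) ^ i.2)⁻¹) ^ n =
      ∑ j ∈ Finset.Icc 0 J, ∑ z ∈ Z j, (sc A l₀ j) ^ n := by
    rw [hI, Finset.sum_biUnion]
    · apply Finset.sum_congr rfl
      intro j _
      rw [Finset.sum_image]
      · apply Finset.sum_congr rfl
        intro z _
        simp only
        rw [hsc]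
      · intro z _ w _ hzw
        exact (Prod.ext_iff.1 hzw).1
    · intro j _ j' _ hne
      simp only [Function.onFun]
      rw [Finset.disjoint_left]
      intro i hi hi'
      rw [Finset.mem_image] at hi hi'
      obtain ⟨z, -, rfl⟩ := hi
      obtain ⟨w, -, hw⟩ := hi'
      have := (Prod.ext_iff.1 hw).2
      simp only at this
      omega
  rw [h5] at h4
  calc ∑ j ∈ Finset.Icc 0 J, ∑ z ∈ Z j, C * (2 * sc A l₀ j) ^ n
      = C * 2 ^ n * ∑ j ∈ Finset.Icc 0 J, ∑ z ∈ Z j, (sc A l₀ j) ^ n := by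
        rw [Finset.mul_sum]
        apply Finset.sum_congr rfl
        intro j _
        rw [Finset.mul_sum]
        apply Finset.sum_congr rfl
        intro z _
        rw [mul_pow]; ring
    _ ≤ C * 2 ^ n * (Cp * r₀ ^ n) := by (clear * - hC h4; (clear * - h4 hC; gcongr))
    _ = C * 2 ^ n * (Cp * (A : ℝ) ^ n) * l₀ ^ n := by rw [hr₀, mul_pow]; ring

/-- persistence step of the counting argument -/
theorem per_step (hA : 16 ≤ A) {C₁ : ℝ} {ε₀ K' ε' MP : ℝ} (hK' : 4 ≤ K')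
    (hP : ∀ (μ : Measure (Eu d)) (D : ℝ≥0∞), AR n c C D μ → RB n C₁ μ →
      ∀ a ∈ μ.support, ∀ r : ℝ, 0 < r → ENNReal.ofReal (MP * r) ≤ D →
      ∀ θ : Eu d → ℝ, LipC θ → (∀ x, 0 ≤ θ x ∧ θ x ≤ 1) → (∀ x, dist x a ≤ MP * r → θ x = 1) →
      Good n MP μ θ a r → (∀ R : ℝ, r ≤ R → R ≤ MP * r → Flat n μ a R ε₀) →
      NearFlat n μ (c / kap n) (C / kap n) a r K' ε')
    {τ : ℝ} (hτ : 0 < τ) (hτ1 : τ ≤ 1) (hτε : τ * A ≤ ε₀) (hε' : ε' < c * (τ / 2) ^ (n + 1))
    {m₁ : ℕ} (hm₁ : 1 ≤ m₁) (hMm : MP ≤ (A : ℝ) ^ m₁)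
    (hAR : AR n c C D μ) (hRB : RB n C₁ μ) (hl : 0 < l₀)
    (hlD : ENNReal.ofReal l₀ ≤ D) (hS : Sys μ A l₀ x₀ p) {j : ℕ} (hj : m₁ ≤ j) {y : Eu d}
    (hy : y ∈ rootC μ x₀ p)
    (hF : ∀ i, j - m₁ ≤ i → i < j →
      NearFlat n μ (c / kap n) (C / kap n) (p i y) (sc A l₀ i) K' ε')
    (hG : Good n MP μ (cut x₀ (3 * l₀)) (p j y) (sc A l₀ j)) :
    NearFlat n μ (c / kap n) (C / kap n) (p j y) (sc A l₀ j) K' ε' := by
  have hsj := sc_pos hA hl j
  have hz := hS.p_mem_root hA hl j hy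
  have hle : MP * sc A l₀ j ≤ sc A l₀ (j - m₁) := by
    have h1 := sc_add hA l₀ (j - m₁) m₁
    have h2 : j - m₁ + m₁ = j := by omega
    rw [h2] at h1
    rw [h1, mul_comm]
    (clear * - hMm hsj; gcongr)
  have hle0 : MP * sc A l₀ j ≤ l₀ := hle.trans (sc_le hA hl _)
  refine hP μ D hAR hRB (p j y) hz.1 (sc A l₀ j) hsj
    ((ENNReal.ofReal_le_ofReal hle0).trans hlD) (cut x₀ (3 * l₀))
    (lipC_cut x₀ _ (by (clear * - hl; positivity))) (fun x => ⟨cut_nonneg_ta _ _ x, cut_le_one_ta _ _ x⟩) ?_ hG ?_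
  · intro x hx
    apply cut_eq_one_ta (by positivity)
    have h1 := hS.dist_root hz
    have := dist_triangle x (p j y) x₀
    linarith only [hle0, hx, h1, this]
  · intro R hR1 hR2
    obtain ⟨i, hi1, hi2, hi3, hi4⟩ := scale_find hA hm₁ hj hR1 (hR2.trans hle)
    have hsi := sc_pos hA hl i
    refine (hF i hi1 hi2).flat hAR hsi hK'
      ((ENNReal.ofReal_le_ofReal (sc_le hA hl i)).trans hlD) hτ hτ1 hε' hi3
      (hS.dist_p hA hl hi2.le hy.1) ?_
    calc τ * sc A l₀ i ≤ τ * (A * R) := by (clear * - hτ hi4; gcongr)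
      _ = (τ * A) * R := by ring
      _ ≤ ε₀ * R := by
        have : 0 < R := lt_of_lt_of_le hsj hR1
        (clear * - hτε this; (clear * - hτε this; gcongr))

/-- abundance step of the counting argument -/
theorem ab_step (hA : 16 ≤ A) {C₁ : ℝ} {ε₀ K' ε' MP : ℝ}
    (hε₀ : 0 < ε₀) (hMP : 1 ≤ MP)
    (hP : ∀ (μ : Measure (Eu d)) (D : ℝ≥0∞), AR n c C D μ → RB n C₁ μ →
      ∀ a ∈ μ.support, ∀ r : ℝ, 0 < r → ENNReal.ofReal (MP * r) ≤ D →
      ∀ θ : Eu d → ℝ, LipC θ → (∀ x, 0 ≤ θ x ∧ θ x ≤ 1) → (∀ x, dist x a ≤ MP * r → θ x = 1) →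
      Good n MP μ θ a r → (∀ R : ℝ, r ≤ R → R ≤ MP * r → Flat n μ a R ε₀) →
      NearFlat n μ (c / kap n) (C / kap n) a r K' ε')
    {m₁ m₂ : ℕ} {ρ Ct MT Q δ M : ℝ} (hρ : 0 < ρ)
    (hQ : Q = (MP + 2) * (A : ℝ) ^ m₁) (hδ : δ = ε₀ / Q)
    (hT : ∀ (μ : Measure (Eu d)) (D : ℝ≥0∞), AR n c C D μ →
      ∀ (a : Eu d) (r : ℝ) (θ : Eu d → ℝ), 0 < r → ENNReal.ofReal r ≤ D → LipC θ →
      (∀ x, 0 ≤ θ x ∧ θ x ≤ 1) → (∀ x, dist x a ≤ 8 * r → θ x = 1) → Good n MT μ θ a r →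
      ∀ x ∈ μ.support, dist x a < r → ∀ s S : ℝ, ρ * r ≤ s → s ≤ S → S ≤ r →
      ‖Trunc n μ s S x‖ ≤ Ct)
    (hab : ∀ (μ : Measure (Eu d)) (D : ℝ≥0∞), AR n c C D μ →
      ∀ a ∈ μ.support, ∀ r : ℝ, 0 < r → ENNReal.ofReal r ≤ D →
      (∀ x ∈ μ.support, dist x a < r → ∀ s S : ℝ, ρ * r ≤ s → s ≤ S → S ≤ r →
        ‖Trunc n μ s S x‖ ≤ Ct) →
      ∃ a' ∈ μ.support, ∃ r' : ℝ, dist a' a < r ∧ ρ * r ≤ r' ∧ r' ≤ r ∧ Flat n μ a' r' δ)
    (hg1 : ∀ (d : ℕ) (μ : Measure (Eu d)) (θ : Eu d → ℝ)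
      (a x : Eu d) (l r : ℝ), 0 < l → (1 / 8) * l ≤ r → r ≤ l → dist x a ≤ 0 * l →
      Good n M μ θ a l → Good n MT μ θ x r)
    (hg2 : ∀ (d : ℕ) (μ : Measure (Eu d)) (θ : Eu d → ℝ)
      (a x : Eu d) (l r : ℝ), 0 < l → (ρ / (8 * Q)) * l ≤ r → r ≤ l → dist x a ≤ 3 * l →
      Good n M μ θ a l → Good n MP μ θ x r)
    (hm₂ : Q ≤ ρ / 8 * (A : ℝ) ^ m₂)
    (hAR : AR n c C D μ) (hRB : RB n C₁ μ) (hl : 0 < l₀)
    (hlD : ENNReal.ofReal l₀ ≤ D) (hS : Sys μ A l₀ x₀ p) {j : ℕ} {y : Eu d}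
    (hy : y ∈ rootC μ x₀ p)
    (hG : Good n M μ (cut x₀ (3 * l₀)) (p j y) (sc A l₀ j)) :
    ∃ i, ∃ y' ∈ rootC μ x₀ p, j + m₁ ≤ i ∧ i ≤ j + m₂ ∧ p j y' = p j y ∧
        (∀ i', i - m₁ ≤ i' → i' < i →
          NearFlat n μ (c / kap n) (C / kap n) (p i' y') (sc A l₀ i') K' ε') := by
  classical
  have hA0 : (16 : ℝ) ≤ A := by exact_mod_cast hA
  have hAp : (0 : ℝ) < A := by linarith only [hA0]
  have hA1 : (1 : ℝ) ≤ A := by linarith only [hA0]
  have hQp : 0 < Q := by rw [hQ]; (clear * - hMP hA; positivity)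
  have hAm : 1 ≤ (A : ℝ) ^ m₁ := one_le_pow₀ hA1
  have hQ1 : (A : ℝ) ^ m₁ ≤ Q := by rw [hQ]; nlinarith only [hMP, hAm]
  have hQ2 : 1 ≤ Q := hAm.trans hQ1
  have hsj := sc_pos hA hl j
  have hz := hS.p_mem_root hA hl j hy
  have hz0 := hS.dist_root hz
  set z := p j y with hzdef
  set L := sc A l₀ j with hL
  have hLl : L ≤ l₀ := sc_le hA hl j
  set r := L / 8 with hr
  have hrp : 0 < r := by (clear * - hsj; positivity)
  have hrD : ENNReal.ofReal r ≤ D := (ENNReal.ofReal_le_ofReal (by rw [hr]; linarith only [hl, hLl])).trans hlD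
  have hθ01 : ∀ x, 0 ≤ cut x₀ (3 * l₀) x ∧ cut x₀ (3 * l₀) x ≤ 1 :=
    fun x => ⟨cut_nonneg_ta _ _ x, cut_le_one_ta _ _ x⟩
  have hθL : LipC (cut x₀ (3 * l₀)) := lipC_cut x₀ _ (by positivity)
  have hT' := hT μ D hAR z r (cut x₀ (3 * l₀)) hrp hrD hθL hθ01 (by
      intro x hx
      apply cut_eq_one_ta (by (clear * - hl; positivity))
      have := dist_triangle x z x₀
      rw [hr] at hx
      linarith only [hz0, hLl, hx, this])
    (hg1 d μ (cut x₀ (3 * l₀)) z z L r hsj (by rw [hr]; linarith only []) (by rw [hr]; linarith only [hsj])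
      (by rw [dist_self]; linarith only []) hG)
  obtain ⟨a', ha', r', har, hr1, hr2, hfl⟩ := hab μ D hAR z hz.1 r hrp hrD hT'
  have hr'p : 0 < r' := lt_of_lt_of_le (by (clear * - hρ hsj; positivity)) hr1
  -- `a'` lies in the cube of `z`
  have hpa : p j a' = z := by
    apply hS.inner j y hy.1 a' ha'
    change dist a' z < L / 4
    linarith only [hsj, hr, har]
  have ha'R : a' ∈ rootC μ x₀ p := by
    refine ⟨ha', ?_⟩
    have h1 : p j a' = p j y := hpa
    rw [hS.nest_le (Nat.zero_le j) ha' hy.1 h1]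
    exact hy.2
  -- the generation
  have hex : ∃ k, Q * sc A l₀ (j + k) ≤ r' := by
    refine ⟨m₂, ?_⟩
    have h1 := sc_add hA l₀ j m₂
    have h2 := sc_pos hA hl (j + m₂)
    calc Q * sc A l₀ (j + m₂) ≤ (ρ / 8 * (A : ℝ) ^ m₂) * sc A l₀ (j + m₂) := by (clear * - hm₂ h2; gcongr)
      _ = ρ * (L / 8) := by rw [hL, h1]; ring
      _ ≤ r' := hr1
  set k := Nat.find hex with hk
  have hk1 : Q * sc A l₀ (j + k) ≤ r' := Nat.find_spec hex
  have hkm : k ≤ m₂ := Nat.find_min' hex (by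
    have h1 := sc_add hA l₀ j m₂
    have h2 := sc_pos hA hl (j + m₂)
    calc Q * sc A l₀ (j + m₂) ≤ (ρ / 8 * (A : ℝ) ^ m₂) * sc A l₀ (j + m₂) := by (clear * - hm₂ h2; gcongr)
      _ = ρ * (L / 8) := by rw [hL, h1]; ring
      _ ≤ r' := hr1)
  have hmk : m₁ < k := by
    by_contra hcon
    push Not at hcon
    have h1 := sc_add hA l₀ j k
    have h2 := sc_pos hA hl (j + k)
    have h3 : (A : ℝ) ^ k ≤ (A : ℝ) ^ m₁ := pow_le_pow_right₀ hA1 hcon
    have h4 : L ≤ r' := by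
      calc L = sc A l₀ (j + k) * (A : ℝ) ^ k := h1
        _ ≤ sc A l₀ (j + k) * Q := by
          gcongr
          exact h3.trans hQ1
        _ = Q * sc A l₀ (j + k) := mul_comm _ _
        _ ≤ r' := hk1
    linarith only [hr, hrp, hr2, h4]
  have hk2 : r' < Q * sc A l₀ (j + (k - 1)) := by
    have := Nat.find_min hex (m := k - 1) (by (clear * - hex hmk; omega))
    push Not at this
    exact this
  refine ⟨j + k, a', ha'R, by omega, by omega, hpa, ?_⟩
  intro i hi1 hi2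
  have hsi := sc_pos hA hl i
  set l := sc A l₀ i with hl'
  -- upper bound for `l`
  have hup : (MP + 2) * l ≤ r' := by
    have h1 : l ≤ sc A l₀ (j + k - m₁) := sc_anti hA hl hi1
    have h2 := sc_add hA l₀ (j + k - m₁) m₁
    have h3 : j + k - m₁ + m₁ = j + k := by omega
    rw [h3] at h2
    calc (MP + 2) * l ≤ (MP + 2) * (sc A l₀ (j + k) * (A : ℝ) ^ m₁) := by
          rw [← h2]; (clear * - hMP h1; gcongr)
      _ = Q * sc A l₀ (j + k) := by rw [hQ]; ring
      _ ≤ r' := hk1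
  -- lower bound for `l`
  have hlow : r' < Q * l := by
    have h1 : sc A l₀ (j + (k - 1)) ≤ l := sc_anti hA hl (by omega)
    calc r' < Q * sc A l₀ (j + (k - 1)) := hk2
      _ ≤ Q * l := by (clear * - hQp h1; (clear * - h1 hQp; gcongr))
  have hlr : l ≤ r' := by nlinarith only [hMP, hsi, hup]
  have hMl : MP * l ≤ r' := by nlinarith only [hsi, hup]
  have hja : j ≤ i := by omega
  have hz' := hS.p_mem_root hA hl i ha'R
  have hz'0 := hS.dist_root hz'
  have hz'a := hS.near i a' ha'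
  rw [dist_comm] at hz'a
  refine hP μ D hAR hRB (p i a') hz'.1 l hsi ?_ (cut x₀ (3 * l₀)) hθL hθ01 ?_ ?_ ?_
  · refine (ENNReal.ofReal_le_ofReal ?_).trans hlD
    linarith only [hl, hLl, hr, hr2, hsi, hup]
  · intro x hx
    apply cut_eq_one_ta (by positivity)
    have := dist_triangle x (p i a') x₀
    linarith only [hl, hLl, hr, hr2, hsi, hup, hz'0, hx, this]
  · apply hg2 d μ (cut x₀ (3 * l₀)) z (p i a') L l hsj
    · rw [div_mul_eq_mul_div, div_le_iff₀ (by (clear * - hQp; positivity))]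
      have : ρ * L ≤ 8 * r' := by
        rw [hr] at hr1; linarith only [hr1]
      nlinarith only [hlow, this]
    · linarith only [hr, hrp, hr2, hlr]
    · have := dist_triangle (p i a') a' z
      linarith only [hr, hrp, har, hr2, hlr, hz'a, this]
    · exact hG
  · intro R hR1 hR2
    have hRp : 0 < R := lt_of_lt_of_le hsi hR1
    obtain ⟨W, b, hW, hWb⟩ := hfl
    refine ⟨W, b, hW, ?_⟩
    intro x hx hxR
    refine (hWb x hx ?_).trans ?_
    · calc dist x a' ≤ dist x (p i a') + dist (p i a') a' := dist_triangle _ _ _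
        _ < MP * l + 2 * l := by linarith only [hz'a, hR2, hxR]
        _ ≤ r' := by linarith only [hup]
    · calc δ * r' ≤ δ * (Q * l) := by
            have : 0 ≤ δ := by rw [hδ]; positivity
            (clear * - hlow this; gcongr)
        _ = ε₀ * l := by rw [hδ]; (clear * - hε₀ hQp hsi; (clear * - hQp hsi hε₀; field_simp))
        _ ≤ ε₀ * R := by (clear * - hε₀ hR1; gcongr)

/-- Theorem A -/
theorem theoremA (n d A : ℕ) (hn : 1 ≤ n) (hnd : n ≤ d) (hA : 16 ≤ A) (c C C₁ : ℝ) (hc : 0 < c)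
    (hC : 0 < C) (K ε : ℝ) (hK : 0 < K) (hε : 0 < ε) :
    ∃ CA : ℝ, 0 < CA ∧ ∀ (μ : Measure (Eu d)) (D : ℝ≥0∞), AR n c C D μ → RB n C₁ μ →
    ∀ x₀ ∈ μ.support, ∀ l₀ : ℝ, 0 < l₀ → ENNReal.ofReal l₀ ≤ D → ∀ p : ℕ → Eu d → Eu d,
    Sys μ A l₀ x₀ p → ∀ J : ℕ,
      ∫ x in rootC μ x₀ p,
        cnt p (fun j z => ¬ NearFlat n μ (c / kap n) (C / kap n) z (sc A l₀ j) K ε) 0 J x ∂μ ≤
        CA * l₀ ^ n := by
  classical
  have hA0 : (16 : ℝ) ≤ A := by exact_mod_cast hA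
  have hAp : (0 : ℝ) < A := by linarith only [hA0]
  have hA1 : (1 : ℝ) < A := by linarith only [hA0]
  obtain ⟨ε₀, hε₀, hP⟩ := persistence n d hn hnd c C C₁ hc hC
  set τ : ℝ := min 1 (ε₀ / A) with hτdef
  have hτ : 0 < τ := lt_min one_pos (by (clear * - hε₀ hA; positivity))
  have hτ1 : τ ≤ 1 := min_le_left _ _
  have hτε : τ * A ≤ ε₀ := by
    calc τ * A ≤ (ε₀ / A) * A := by
          gcongr; exact min_le_right _ _
      _ = ε₀ := by field_simp
  set K' : ℝ := max K 4 with hK'def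
  have hK' : 4 ≤ K' := le_max_right _ _
  set ε' : ℝ := min ε (c * (τ / 2) ^ (n + 1) / 2) with hε'def
  have hε'p : 0 < ε' := lt_min hε (by (clear * - hc hε₀ hA; positivity))
  have hε'2 : ε' < c * (τ / 2) ^ (n + 1) := by
    have h1 : 0 < c * (τ / 2) ^ (n + 1) := by positivity
    calc ε' ≤ c * (τ / 2) ^ (n + 1) / 2 := min_le_right _ _
      _ < c * (τ / 2) ^ (n + 1) := by linarith only [h1]
  obtain ⟨MP, hMP, hP⟩ := hP K' ε' (by positivity) hε'p
  obtain ⟨m₀, hm₀⟩ := pow_unbounded_of_one_lt MP hA1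
  set m₁ : ℕ := max m₀ 1 with hm₁def
  have hm₁ : 1 ≤ m₁ := le_max_right _ _
  have hMm : MP ≤ (A : ℝ) ^ m₁ :=
    hm₀.le.trans (pow_le_pow_right₀ hA1.le (le_max_left _ _))
  obtain ⟨Ct, hCt, hT⟩ := trunc_bound n d hn c C hc hC
  set Q : ℝ := (MP + 2) * (A : ℝ) ^ m₁ with hQ
  have hQp : 0 < Q := by (clear * - hMP hA; positivity)
  set δ : ℝ := ε₀ / Q with hδ
  obtain ⟨ρ, hρ, hρ1, hab⟩ := abundance n d hn hnd c C Ct hc hC δ (by (clear * - hε₀ hMP hA; positivity))
  obtain ⟨MT, hMT, hT⟩ := hT ρ hρ hρ1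
  have hT' := hT MT le_rfl
  obtain ⟨M1, hM1, hg1⟩ := Good.change n MT 0 (1 / 8) hMT le_rfl (by norm_num) (by norm_num)
  have hAm : 1 ≤ (A : ℝ) ^ m₁ := one_le_pow₀ hA1.le
  have hQ2 : 1 ≤ Q := by rw [hQ]; nlinarith only [hMP, hMm]
  obtain ⟨M2, hM2, hg2⟩ := Good.change n MP 3 (ρ / (8 * Q)) hMP (by norm_num) (by (clear * - hA hMP hρ; positivity)) (by
    rw [div_le_one (by (clear * - hMP hA; positivity))]
    linarith only [hQp, hρ1, hQ2])
  set M : ℝ := max M1 M2 with hM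
  have hMM1 : M1 ≤ M := le_max_left _ _
  have hMM2 : M2 ≤ M := le_max_right _ _
  have hM1' : 1 ≤ M := hMT.trans (hM1.trans hMM1)
  have hMPM : MP ≤ M := hM2.trans hMM2
  obtain ⟨m₂, hm₂⟩ := pow_unbounded_of_one_lt (8 * Q / ρ) hA1
  have hm₂' : Q ≤ ρ / 8 * (A : ℝ) ^ m₂ := by
    have h1 : Q = ρ / 8 * (8 * Q / ρ) := by (clear * - hQp hρ; (clear * - hρ hQp; field_simp))
    rw [h1]
    have : 0 < ρ / 8 := by (clear * - hρ; positivity)
    (clear * - hρ hm₂; gcongr)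
  obtain ⟨CB, hCB, hbad⟩ := bad_cubes n d A hn hA c C C₁ M hC hM1'
  set c₀ : ℝ := min 1 (c / (C * 8 ^ n * ((A : ℝ) ^ m₂) ^ n)) with hc₀
  have hc₀p : 0 < c₀ := lt_min one_pos (by (clear * - hc hC hA; positivity))
  have hc₀1 : c₀ ≤ 1 := min_le_left _ _
  refine ⟨(1 + (m₂ + 1) / c₀) * CB + (m₂ + 1) / c₀ * (C * 2 ^ n), by (clear * - hA hc hC hCB; positivity), ?_⟩
  intro μ D hAR hRB x₀ hx₀ l₀ hl hlD p hS J
  set S₀ := rootC μ x₀ p with hS₀
  have hlf := hAR.isLocallyFiniteMeasure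
  have hμS₀ : μ S₀ ≠ ⊤ := by
    refine ((measure_mono ?_).trans_lt (hAR.measure_ball_lt_top x₀ (2 * l₀))).ne
    intro x hx
    rw [mem_closedBall]
    exact hS.dist_root hx
  have hfm : IsFiniteMeasure (μ.restrict S₀) := ⟨by
    rw [Measure.restrict_apply_univ]; exact lt_top_iff_ne_top.2 hμS₀⟩
  have hrestr : ∀ T : Set (Eu d), T ⊆ S₀ → (μ.restrict S₀).real T = μ.real T := by
    intro T hT
    rw [Measure.real, Measure.restrict_eq_self _ hT, Measure.real]
  set F : ℕ → Eu d → Prop :=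
    fun j z => NearFlat n μ (c / kap n) (C / kap n) z (sc A l₀ j) K' ε' with hF
  set Bad : ℕ → Eu d → Prop :=
    fun j z => ¬ Good n M μ (cut x₀ (3 * l₀)) z (sc A l₀ j) with hBad
  have hcount := counting (μ.restrict S₀) S₀ J m₁ m₂ p F Bad c₀ hc₀p hc₀1
    (fun j _ => hS.finite hA hl j) (fun j _ z => hS.hmeas j z)
    (fun j _ x hx y hy h => hS.nest j x hx.1 y hy.1 h)
    (by
      intro j hj _ y hy hFy hB
      have hG : Good n M μ (cut x₀ (3 * l₀)) (p j y) (sc A l₀ j) := not_not.1 hB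
      exact per_step hA hK' hP hτ hτ1 hτε hε'2 hm₁ hMm hAR hRB hl hlD hS hj hy hFy
        (hG.mono (sc_pos hA hl j) hMP hMPM))
    (by
      intro j hj y hy hB
      have hG : Good n M μ (cut x₀ (3 * l₀)) (p j y) (sc A l₀ j) := not_not.1 hB
      obtain ⟨i, y', hy', h1, h2, h3, h4⟩ := ab_step (m₂ := m₂) hA hε₀ hMP hP hρ hQ hδ hT' hab
        (hg1 M hMM1) (hg2 M hMM2) hm₂' hAR hRB hl hlD hS hy hG
      refine ⟨i, y', hy', h1, h2, h3, h4, ?_⟩
      rw [hrestr _ (cell_subset_S₀ _ _), hrestr _ (cell_subset_S₀ _ _)]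
      have h5 : μ.real (cell S₀ p j y) ≤ C * (2 * sc A l₀ j) ^ n :=
        hS.measure_cell_le hAR hA hl j (p j y)
      have h6 := hS.le_measure_cell hAR hA hl hlD i hy'
      refine le_trans ?_ h6
      have hsj := sc_pos hA hl j
      have hsi := sc_pos hA hl i
      have h7 : sc A l₀ j ≤ sc A l₀ i * (A : ℝ) ^ m₂ := by
        rw [sc_add hA l₀ j m₂]
        have := sc_anti hA hl h2
        (clear * - hA this; gcongr)
      calc c₀ * μ.real (cell S₀ p j y)
          ≤ (c / (C * 8 ^ n * ((A : ℝ) ^ m₂) ^ n)) * (C * (2 * sc A l₀ j) ^ n) := by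
            gcongr
            exact min_le_right _ _
        _ ≤ (c / (C * 8 ^ n * ((A : ℝ) ^ m₂) ^ n)) *
            (C * (2 * (sc A l₀ i * (A : ℝ) ^ m₂)) ^ n) := by (clear * - hA hc hC hsj h7; gcongr)
        _ = c * (sc A l₀ i / 4) ^ n := by
            have h8 : (8 : ℝ) ^ n = 2 ^ n * 4 ^ n := by rw [← mul_pow]; norm_num
            rw [mul_pow, mul_pow, div_pow, h8]
            (clear * - hA hc hC hsi; (clear * - hC hA hsi hc; field_simp)))
    x₀ (hS.mem_root hx₀)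
  have hcell : cell S₀ p 0 x₀ = S₀ := by
    ext x
    constructor
    · intro hx; exact hx.1
    · intro hx
      exact ⟨hx, by rw [hx.2, hS.root]⟩
  rw [hcell, Measure.restrict_restrict hS.measurableSet_root, inter_self,
    hrestr _ subset_rfl] at hcount
  have hB := hbad μ D hAR hRB x₀ hx₀ l₀ hl hlD p hS J
  have hmS : μ.real S₀ ≤ C * 2 ^ n * l₀ ^ n := by
    have h1 := hS.measure_cell_le hAR hA hl 0 x₀
    have h2 : {x | x ∈ rootC μ x₀ p ∧ p 0 x = x₀} = S₀ := by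
      ext x
      constructor
      · intro hx; exact hx.1
      · intro hx; exact ⟨hx, hx.2⟩
    rw [h2, sc_zero, mul_pow] at h1
    linarith only [h1]
  have hint : ∀ P : ℕ → Eu d → Prop, IntegrableOn (cnt p P 0 J) S₀ μ := by
    intro P
    have h1 := integrableOn_cnt (μ := μ.restrict S₀) (S₀ := S₀) (J := J) (p := p)
      (fun j _ => hS.finite hA hl j) (fun j _ z => hS.hmeas j z) P (j := 0) (k := J) le_rfl
      subset_rfl hS.measurableSet_root
    rw [IntegrableOn, Measure.restrict_restrict hS.measurableSet_root, inter_self] at h1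
    exact h1
  calc ∫ x in S₀, cnt p
        (fun j z => ¬ NearFlat n μ (c / kap n) (C / kap n) z (sc A l₀ j) K ε) 0 J x ∂μ
      ≤ ∫ x in S₀, cnt p (fun i z => ¬ F i z) 0 J x ∂μ := by
        apply setIntegral_mono (hint _) (hint _)
        intro x
        apply cnt_mono
        intro j z hjz hF'
        exact hjz (hF'.mono (sc_pos hA hl j) (le_max_left _ _) (min_le_left _ _))
    _ ≤ (1 + (m₂ + 1) / c₀) * ∫ x in S₀, cnt p Bad 0 J x ∂μ + (m₂ + 1) / c₀ * μ.real S₀ :=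
        hcount
    _ ≤ (1 + (m₂ + 1) / c₀) * (CB * l₀ ^ n) + (m₂ + 1) / c₀ * (C * 2 ^ n * l₀ ^ n) := by
        (clear * - hA hc hC hB hmS; (clear * - hB hc hC hA hmS; gcongr))
    _ = ((1 + (m₂ + 1) / c₀) * CB + (m₂ + 1) / c₀ * (C * 2 ^ n)) * l₀ ^ n := by ring

end Vale.Agent.P120.TT
end

section
open MeasureTheory Metric Set Filter Topology
open scoped ENNReal NNReal
namespace Vale.Agent.P120.TT
variable {n d : ℕ}

/-- Theorem A, bilateral form -/
theorem theoremA_bilateral (n d A : ℕ) (hn : 1 ≤ n) (hnd : n ≤ d) (hA : 16 ≤ A) (c C C₁ : ℝ)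
    (hc : 0 < c) (hC : 0 < C) (K δ : ℝ) (hK : 0 ≤ K) (hδ : 0 < δ) :
    ∃ CA : ℝ, 0 < CA ∧ ∀ (μ : Measure (Eu d)) (D : ℝ≥0∞), AR n c C D μ → RB n C₁ μ →
    ∀ l₀ : ℝ, ENNReal.ofReal l₀ ≤ D → ∀ Q : Cubes μ.support A l₀, ∀ z ∈ Q.N 0, ∀ J : ℕ,
      ∑ j ∈ Finset.range J, μ {x | x ∈ Q.cube 0 z ∧ ¬ ∃ ι : Eu n →ₗᵢ[ℝ] Eu d,
        (∀ y ∈ μ.support, dist y (Q.p j x) ≤ K * Q.l j →
          ∃ v, dist y (Q.p j x + ι v) ≤ δ * Q.l j) ∧
        (∀ v, ‖v‖ ≤ K * Q.l j → ∃ y ∈ μ.support, dist y (Q.p j x + ι v) ≤ δ * Q.l j)} ≤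
      ENNReal.ofReal (CA * l₀ ^ n) := by
  classical
  have hkap := kap_pos n
  set τ : ℝ := min 1 (δ / 2) with hτdef
  have hτ : 0 < τ := lt_min one_pos (by (clear * - hδ; positivity))
  have hτ1 : τ ≤ 1 := min_le_left _ _
  have hτδ : 2 * τ ≤ δ := by
    have : τ ≤ δ / 2 := min_le_right _ _
    linarith only [this]
  have hg₀ : 0 < c / kap n := by (clear * - hc hkap; positivity)
  set ε : ℝ := min (c * (τ / 2) ^ (n + 1)) (c / kap n * kap n * (τ / 2) ^ (n + 1)) / 2 with hε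
  have hm : 0 < min (c * (τ / 2) ^ (n + 1)) (c / kap n * kap n * (τ / 2) ^ (n + 1)) :=
    lt_min (by positivity) (by positivity)
  have hεp : 0 < ε := by positivity
  have hε1 : ε < c * (τ / 2) ^ (n + 1) := lt_of_lt_of_le (by rw [hε]; linarith only [hε, hεp]) (min_le_left _ _)
  have hε2 : ε < c / kap n * kap n * (τ / 2) ^ (n + 1) :=
    lt_of_lt_of_le (by rw [hε]; linarith only [hε, hεp]) (min_le_right _ _)
  obtain ⟨CA, hCA, H⟩ := theoremA n d A hn hnd hA c C C₁ hc hC (K + 2) ε (by (clear * - hK; positivity)) hεp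
  refine ⟨CA, hCA, ?_⟩
  intro μ D hAR hRB l₀ hlD Q z hz J
  have hl := Q.l_pos
  have hS := Q.sys hz
  have hzs : z ∈ μ.support := Q.N_sub 0 hz
  have hint := H μ D hAR hRB z hzs l₀ hl hlD Q.p hS J
  set S₀ := rootC μ z Q.p with hS₀
  have hlf := hAR.isLocallyFiniteMeasure
  set P : ℕ → Eu d → Prop :=
    fun j z => ¬ NearFlat n μ (c / kap n) (C / kap n) z (sc A l₀ j) (K + 2) ε with hP
  have hfin : ∀ j, (Q.p j '' S₀).Finite := fun j => hS.finite hA hl j
  have hμS₀ : μ S₀ ≠ ⊤ := by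
    refine ((measure_mono ?_).trans_lt (hAR.measure_ball_lt_top z (2 * l₀))).ne
    intro x hx
    rw [mem_closedBall]
    exact hS.dist_root hx
  have hfm : IsFiniteMeasure (μ.restrict S₀) := ⟨by
    rw [Measure.restrict_apply_univ]; exact lt_top_iff_ne_top.2 hμS₀⟩
  have hpred : ∀ j, MeasurableSet {x | x ∈ S₀ ∧ P j (Q.p j x)} := fun j =>
    measurable_pred (J := j) (fun i _ => hfin i) (fun i _ z => hS.hmeas i z) P le_rfl
  have hnt : ∀ j, μ {x | x ∈ S₀ ∧ P j (Q.p j x)} ≠ ⊤ := fun j =>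
    ((measure_mono (fun x hx => hx.1)).trans_lt (lt_top_iff_ne_top.2 hμS₀)).ne
  have h1 : ∀ j, ∫ x in S₀, (if P j (Q.p j x) then (1 : ℝ) else 0) ∂μ =
      μ.real {x | x ∈ S₀ ∧ P j (Q.p j x)} := by
    intro j
    have e1 : ∫ x in S₀, (if P j (Q.p j x) then (1 : ℝ) else 0) ∂μ =
        ∫ x in S₀, Set.indicator {x | x ∈ S₀ ∧ P j (Q.p j x)} (fun _ => (1 : ℝ)) x ∂μ := by
      apply setIntegral_congr_fun hS.measurableSet_root
      intro x hx
      by_cases hP : P j (Q.p j x)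
      · have hm : x ∈ {x | x ∈ S₀ ∧ P j (Q.p j x)} := ⟨hx, hP⟩
        simp only [Set.indicator_of_mem hm, if_pos hP]
      · have hm : x ∉ {x | x ∈ S₀ ∧ P j (Q.p j x)} := fun h => hP h.2
        simp only [Set.indicator_of_notMem hm, if_neg hP]
    rw [e1, setIntegral_indicator (hpred j), setIntegral_const, smul_eq_mul, mul_one]
    congr 1
    ext x
    constructor
    · rintro ⟨-, h⟩; exact h
    · intro h; exact ⟨h.1, h⟩
  have h2 : ∫ x in S₀, cnt Q.p P 0 J x ∂μ =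
      ∑ j ∈ Finset.Icc 0 J, μ.real {x | x ∈ S₀ ∧ P j (Q.p j x)} := by
    unfold cnt
    rw [integral_finsetSum]
    · apply Finset.sum_congr rfl
      intro j _
      rw [← h1 j]
      congr 1
      ext x
      congr 1
    · intro j _
      have hi : IntegrableOn (Set.indicator {x | x ∈ S₀ ∧ P j (Q.p j x)}
          (fun _ => (1 : ℝ))) S₀ μ :=
        (integrable_const (1 : ℝ)).indicator (hpred j)
      refine IntegrableOn.congr_fun hi ?_ hS.measurableSet_root
      intro x hx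
      by_cases hP : P j (Q.p j x)
      · have hm : x ∈ {x | x ∈ S₀ ∧ P j (Q.p j x)} := ⟨hx, hP⟩
        simp only [Set.indicator_of_mem hm, if_pos hP]
      · have hm : x ∉ {x | x ∈ S₀ ∧ P j (Q.p j x)} := fun h => hP h.2
        simp only [Set.indicator_of_notMem hm, if_neg hP]
  rw [h2] at hint
  calc _ ≤ ∑ j ∈ Finset.range J, μ {x | x ∈ S₀ ∧ P j (Q.p j x)} := by
        apply Finset.sum_le_sum
        intro j _
        apply measure_mono
        rintro x ⟨hx, hbf⟩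
        refine ⟨hx, ?_⟩
        intro hNF
        apply hbf
        have hlj : sc A l₀ j = Q.l j := by rw [sc, Cubes.l, div_eq_mul_inv]
        rw [hlj] at hNF
        exact hNF.bilateral hAR hg₀ (Q.l_pos' j)
          ((ENNReal.ofReal_le_ofReal (by rw [← hlj]; exact sc_le hA hl j)).trans hlD)
          (Q.p_memE hx.1) hK hτ hτ1 hτδ hε1 hε2
    _ ≤ ∑ j ∈ Finset.Icc 0 J, μ {x | x ∈ S₀ ∧ P j (Q.p j x)} := by
        apply Finset.sum_le_sum_of_subset
        intro j hj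
        rw [Finset.mem_range] at hj
        rw [Finset.mem_Icc]
        omega
    _ = ENNReal.ofReal (∑ j ∈ Finset.Icc 0 J, μ.real {x | x ∈ S₀ ∧ P j (Q.p j x)}) := by
        rw [ENNReal.ofReal_sum_of_nonneg (fun j _ => measureReal_nonneg)]
        apply Finset.sum_congr rfl
        intro j _
        rw [ofReal_measureReal (hnt j)]
    _ ≤ ENNReal.ofReal (CA * l₀ ^ n) := ENNReal.ofReal_le_ofReal hint

end Vale.Agent.P120.TT
end
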