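import Vale.Agent.P120.H982.Main

/-!
`L^2` boundedness implies weak testing (Chebyshev).
-/

set_option linter.all false

open MeasureTheory Metric Set Filter Topology
open scoped ENNReal NNReal

namespace Vale.Agent.P120

variable {n d : ℕ}

theorem aesm_truncRiesz_ball {μ : Measure (Eu d)} [SFinite μ] (e : ℝ) (z : Eu d) (r : ℝ) :
    AEStronglyMeasurable (truncRiesz n μ e ((ball z r).indicator 1)) μ := by
  have h1 : StronglyMeasurable fun x => ∫ y, (ball z r).indicator (1 : Eu d → ℝ) y •
      tK n e (x - y) ∂μ := by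
    apply StronglyMeasurable.integral_prod_right' (f := fun p : Eu d × Eu d =>
      (ball z r).indicator (1 : Eu d → ℝ) p.2 • tK n e (p.1 - p.2))
    have h2 : Measurable fun p : Eu d × Eu d => (ball z r).indicator (1 : Eu d → ℝ) p.2 :=
      (measurable_one.indicator measurableSet_ball).comp measurable_snd
    have h3 : Measurable fun p : Eu d × Eu d => tK n e (p.1 - p.2) :=
      (measurable_tK n e).comp (measurable_fst.sub measurable_snd)
    exact (h2.smul h3).stronglyMeasurable
  have h4 : truncRiesz n μ e ((ball z r).indicator 1) =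
      fun x => ∫ y, (ball z r).indicator (1 : Eu d → ℝ) y • tK n e (x - y) ∂μ := by
    funext x
    rw [TT.truncRiesz_ind, ← integral_indicator measurableSet_ball]
    apply integral_congr_ae
    filter_upwards with y
    by_cases hy : y ∈ ball z r
    · rw [indicator_of_mem hy, indicator_of_mem hy, Pi.one_apply, one_smul]
    · rw [indicator_of_notMem hy, indicator_of_notMem hy, zero_smul]
  rw [h4]
  exact h1.aestronglyMeasurable

/-- the degenerate case of a support of diameter `0` -/
theorem weak_of_diam_zero {μ : Measure (Eu d)} {α lam : ℝ} (hlam : 0 < lam)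
    (hdiam : ¬ 0 < ediam μ.support) : WeakTesting n α lam μ := by
  intro x hx r hr ε hε
  have hsupp : ∀ᵐ y ∂μ, y ∈ μ.support := by
    rw [ae_iff]; exact Measure.measure_compl_support
  have h0 : ediam μ.support = 0 := by
    rcases eq_or_lt_of_le (bot_le (a := ediam μ.support)) with h | h
    · exact h.symm
    · exact absurd h hdiam
  have hsub : ∀ y ∈ μ.support, ∀ w ∈ μ.support, dist y w = 0 := by
    intro y hy w hw
    have h3 : edist y w ≤ ediam μ.support := edist_le_ediam_of_mem hy hw
    rw [h0] at h3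
    have h4 : edist y w = 0 := le_antisymm h3 bot_le
    rw [edist_eq_zero] at h4
    rw [h4, dist_self]
  have h3 : ∀ y ∈ μ.support, truncRiesz n μ ε ((ball x r).indicator 1) y = 0 := by
    intro y hy
    unfold truncRiesz
    apply setIntegral_eq_zero_of_ae_eq_zero
    filter_upwards [hsupp] with w hw hw2
    rw [hsub y hy w hw] at hw2
    linarith
  have h4 : μ {y | y ∈ ball x r ∧ lam < ‖truncRiesz n μ ε ((ball x r).indicator 1) y‖} = 0 := by
    have h5 : {y | y ∈ ball x r ∧ lam < ‖truncRiesz n μ ε ((ball x r).indicator 1) y‖} ⊆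
        μ.supportᶜ := by
      rintro y ⟨-, hy⟩ hys
      rw [h3 y hys, norm_zero] at hy
      linarith
    exact measure_mono_null h5 Measure.measure_compl_support
  rw [h4]
  exact bot_le

/-- `L^2` boundedness implies weak testing -/
theorem weak_of_bounded (n d : ℕ) (C₀ C₁ α : ℝ) (hα : 0 < α) :
    ∃ lam : ℝ, ∀ μ : Measure (Eu d), ADRegularWith n C₀ μ → RieszBoundedWith n C₁ μ →
      WeakTesting n α lam μ := by
  by_cases hcon : 1 ≤ C₀ ∧ 0 ≤ C₁
  swap
  · exact ⟨0, fun μ h1 h2 => absurd ⟨h1.1, h2.1⟩ hcon⟩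
  obtain ⟨hC₀, hC₁⟩ := hcon
  obtain ⟨C, hC, hAR⟩ := ar_quant n d C₀ hC₀
  set lam : ℝ := C₁ ^ 2 * C / α + 1 with hlam
  have hlam1 : 1 ≤ lam := by
    have : 0 ≤ C₁ ^ 2 * C / α := by positivity
    linarith
  have hlam0 : 0 < lam := by linarith
  refine ⟨lam, ?_⟩
  intro μ h1 h2 x hx r hr ε hε
  have hsupp : ∀ᵐ y ∂μ, y ∈ μ.support := by
    rw [ae_iff]; exact Measure.measure_compl_support
  by_cases hdiam : 0 < ediam μ.support
  · have har := hAR μ hdiam h1.2
    have hlf := har.isLocallyFiniteMeasure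
    set T := truncRiesz n μ ε ((ball x r).indicator 1) with hT
    have hTm : AEStronglyMeasurable T μ := aesm_truncRiesz_ball ε x r
    have hf : MemLp ((ball x r).indicator (1 : Eu d → ℝ)) 2 μ :=
      memLp_indicator_const 2 measurableSet_ball (1 : ℝ) (Or.inr measure_ball_lt_top.ne)
    have h3 := (h2.2 _ hf ε hε).2
    have h4 : eLpNorm ((ball x r).indicator (1 : Eu d → ℝ)) 2 μ = μ (ball x r) ^ (1 / 2 : ℝ) := by
      have h5 := eLpNorm_indicator_const (p := 2) (μ := μ) (c := (1 : ℝ))
        (measurableSet_ball (x := x) (ε := r)) (by norm_num) (by norm_num)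
      rw [enorm_one, one_mul, ENNReal.toReal_ofNat] at h5
      exact h5
    have h5 : μ (ball x r) ≤ ENNReal.ofReal (C * r ^ n) :=
      (measure_mono ball_subset_closedBall).trans (har.upper x r hr)
    have h6 := meas_ge_le_mul_pow_eLpNorm_enorm μ (p := 2) (by norm_num) (by norm_num) hTm
      (ε := ENNReal.ofReal lam) (ENNReal.ofReal_pos.2 hlam0).ne'
      (fun h => absurd h ENNReal.ofReal_ne_top)
    simp only [ENNReal.toReal_ofNat, ENNReal.rpow_ofNat] at h6
    have h7 : {y | y ∈ ball x r ∧ lam < ‖T y‖} ⊆ {y | ENNReal.ofReal lam ≤ ‖T y‖ₑ} := by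
      rintro y ⟨-, hy⟩
      rw [mem_ofPred_eq, ← ofReal_norm]
      exact ENNReal.ofReal_le_ofReal hy.le
    refine (measure_mono h7).trans (h6.trans ?_)
    have h8 : eLpNorm T 2 μ ^ 2 ≤ ENNReal.ofReal (C₁ ^ 2) * ENNReal.ofReal (C * r ^ n) := by
      calc eLpNorm T 2 μ ^ 2 ≤ (ENNReal.ofReal C₁ * μ (ball x r) ^ (1 / 2 : ℝ)) ^ 2 := by
            rw [← h4]
            exact pow_le_pow_left₀ bot_le h3 2
        _ = ENNReal.ofReal (C₁ ^ 2) * μ (ball x r) := by
            rw [mul_pow, ← ENNReal.ofReal_pow hC₁]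
            congr 1
            rw [← ENNReal.rpow_two, ← ENNReal.rpow_mul]
            norm_num
        _ ≤ _ := mul_le_mul_right h5 _
    refine (mul_le_mul_right h8 _).trans ?_
    rw [← ENNReal.ofReal_inv_of_pos hlam0, ← ENNReal.ofReal_pow (by positivity),
      ← ENNReal.ofReal_mul (by positivity), ← ENNReal.ofReal_mul (by positivity)]
    apply ENNReal.ofReal_le_ofReal
    have h9 : C₁ ^ 2 * C ≤ α * lam ^ 2 := by
      have h10 : C₁ ^ 2 * C ≤ α * lam := by
        rw [hlam, mul_add, mul_div_cancel₀ _ hα.ne']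
        linarith
      have h11 : α * lam ≤ α * lam ^ 2 := by
        apply mul_le_mul_of_nonneg_left _ hα.le
        nlinarith
      linarith
    calc lam⁻¹ ^ 2 * (C₁ ^ 2 * (C * r ^ n)) = (C₁ ^ 2 * C) / lam ^ 2 * r ^ n := by
          field_simp
      _ ≤ α * r ^ n := by
          apply mul_le_mul_of_nonneg_right _ (by positivity)
          rw [div_le_iff₀ (by positivity)]
          exact h9
  · exact weak_of_diam_zero hlam0 hdiam x hx r hr ε hε

end Vale.Agent.P120
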