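import Vale.Agent.P120.FinalQ

/-!
A weak testing condition for the Riesz transform.
-/

open MeasureTheory Metric Set

namespace Vale.Agent.P120

/-- Weak testing on balls: for every ball `B = B(x, r)` centred on `supp μ` and every `ε > 0`,
the set of the points of `B` where `|R_{μ,ε} 1_B| > lam` has measure at most `α r^n`. -/
def WeakTesting {d : ℕ} (n : ℕ) (α lam : ℝ) (μ : Measure (Eu d)) : Prop :=
  ∀ x ∈ μ.support, ∀ r : ℝ, 0 < r → ∀ ε : ℝ, 0 < ε →
    μ {y | y ∈ ball x r ∧ lam < ‖truncRiesz n μ ε ((ball x r).indicator 1) y‖} ≤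
      ENNReal.ofReal (α * r ^ n)

end Vale.Agent.P120
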