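import Mathlib.Tactic
import Mathlib.Analysis.Normed.Group.Basic

/-!
`L^2` bounds from `L^1` mean oscillation on a finite nested family of partitions
(a finite form of the John–Nirenberg inequality).
-/

set_option linter.all false

namespace Vale.Agent.P120.JN

theorem sq_norm_le {F : Type*} [NormedAddCommGroup F] (x y : F) :
    ‖x + y‖ ^ 2 ≤ 2 * ‖x‖ ^ 2 + 2 * ‖y‖ ^ 2 := by
  have h1 := norm_add_le x y
  have h2 : ‖x + y‖ ^ 2 ≤ (‖x‖ + ‖y‖) ^ 2 := pow_le_pow_left₀ (norm_nonneg _) h1 2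
  nlinarith [sq_nonneg (‖x‖ - ‖y‖)]

section

variable {ι κ F : Type*} [NormedAddCommGroup F] [DecidableEq κ] {W : Finset ι} {m : ι → ℝ}
  {J : ℕ} {p : ℕ → ι → κ} {a : ℕ → ι → F} {K Δ B : ℝ}

/-- a union of stopped classes of level `j` -/
theorem stopped (hm : ∀ w ∈ W, 0 ≤ m w) (hK : 0 < K)
    (ha : ∀ j ≤ J, ∀ w ∈ W, ∀ w' ∈ W, p j w = p j w' → a j w = a j w')
    (h1 : ∀ k ≤ J, ∀ w₀ ∈ W, ∑ w ∈ W with p k w = p k w₀, m w * ‖a J w - a k w₀‖ ≤
      K * ∑ w ∈ W with p k w = p k w₀, m w)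
    {b : F} {j : ℕ} (hj : j ≤ J)
    (ih : ∀ w₀ ∈ W, ∑ w ∈ W with p j w = p j w₀, m w * ‖a J w - a j w₀‖ ^ 2 ≤
      B * ∑ w ∈ W with p j w = p j w₀, m w) {T : Finset ι} (hT : T ⊆ W) {L : ℝ}
    (hT1 : ∀ w ∈ T, 9 * K < ‖a j w - b‖) (hT2 : ∀ w ∈ T, ‖a j w - b‖ ≤ L)
    (hsat : ∀ w ∈ T, ∀ w' ∈ W, p j w' = p j w → w' ∈ T) :
    ∑ w ∈ T, m w * ‖a J w - b‖ ^ 2 ≤ (2 * B + 2 * L ^ 2) * ∑ w ∈ T, m w ∧
    8 * K * ∑ w ∈ T, m w ≤ ∑ w ∈ T, m w * ‖a J w - b‖ := by
  have hmaps : ∀ w ∈ T, p j w ∈ T.image (p j) := fun w hw => Finset.mem_image_of_mem _ hw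
  have hgrp : ∀ w₁ ∈ T, T.filter (fun w => p j w = p j w₁) = W.filter (fun w => p j w = p j w₁) := by
    intro w₁ hw₁
    ext w
    simp only [Finset.mem_filter]
    exact ⟨fun h => ⟨hT h.1, h.2⟩, fun h => ⟨hsat w₁ hw₁ w h.1 h.2, h.2⟩⟩
  constructor
  · rw [← Finset.sum_fiberwise_of_maps_to hmaps, ← Finset.sum_fiberwise_of_maps_to hmaps,
      Finset.mul_sum]
    apply Finset.sum_le_sum
    intro u hu
    obtain ⟨w₁, hw₁, rfl⟩ := Finset.mem_image.1 hu
    rw [hgrp w₁ hw₁]
    have h3 : ∀ w ∈ W.filter (fun w => p j w = p j w₁), m w * ‖a J w - b‖ ^ 2 ≤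
        2 * (m w * ‖a J w - a j w₁‖ ^ 2) + 2 * L ^ 2 * m w := by
      intro w hw
      have hw' := Finset.mem_filter.1 hw
      have e : a J w - b = (a J w - a j w₁) + (a j w₁ - b) := by abel
      have h4 := sq_norm_le (a J w - a j w₁) (a j w₁ - b)
      rw [← e] at h4
      have h5 : ‖a j w₁ - b‖ ^ 2 ≤ L ^ 2 := pow_le_pow_left₀ (norm_nonneg _) (hT2 w₁ hw₁) 2
      have h6 := hm w hw'.1
      nlinarith
    refine (Finset.sum_le_sum h3).trans ?_
    rw [Finset.sum_add_distrib, ← Finset.mul_sum, ← Finset.mul_sum]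
    have := ih w₁ (hT hw₁)
    linarith
  · rw [← Finset.sum_fiberwise_of_maps_to hmaps, ← Finset.sum_fiberwise_of_maps_to hmaps,
      Finset.mul_sum]
    apply Finset.sum_le_sum
    intro u hu
    obtain ⟨w₁, hw₁, rfl⟩ := Finset.mem_image.1 hu
    rw [hgrp w₁ hw₁]
    have h3 : ∀ w ∈ W.filter (fun w => p j w = p j w₁), 9 * K * m w ≤
        m w * ‖a J w - a j w₁‖ + m w * ‖a J w - b‖ := by
      intro w hw
      have hw' := Finset.mem_filter.1 hw
      have e : a j w₁ - b = -(a J w - a j w₁) + (a J w - b) := by abel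
      have h4 := norm_add_le (-(a J w - a j w₁)) (a J w - b)
      rw [← e, norm_neg] at h4
      have h5 := hT1 w₁ hw₁
      have h6 := hm w hw'.1
      nlinarith
    have h7 := Finset.sum_le_sum h3
    rw [Finset.sum_add_distrib, ← Finset.mul_sum] at h7
    have := h1 j hj w₁ (hT hw₁)
    linarith

/-- finite form of the John–Nirenberg inequality -/
theorem jn_fin (hm : ∀ w ∈ W, 0 ≤ m w) (hK : 0 < K) (hΔ : 0 ≤ Δ)
    (hnest : ∀ j ≤ J, ∀ i ≤ j, ∀ w ∈ W, ∀ w' ∈ W, p j w = p j w' → p i w = p i w')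
    (ha : ∀ j ≤ J, ∀ w ∈ W, ∀ w' ∈ W, p j w = p j w' → a j w = a j w')
    (h1 : ∀ k ≤ J, ∀ w₀ ∈ W, ∑ w ∈ W with p k w = p k w₀, m w * ‖a J w - a k w₀‖ ≤
      K * ∑ w ∈ W with p k w = p k w₀, m w)
    (h2 : ∀ k < J, ∀ w ∈ W, ‖a (k + 1) w - a k w‖ ≤ Δ)
    (hB : 81 * K ^ 2 + (2 * B + 2 * (9 * K + Δ) ^ 2) / 8 ≤ B) :
    ∀ k ≤ J, ∀ w₀ ∈ W, ∑ w ∈ W with p k w = p k w₀, m w * ‖a J w - a k w₀‖ ^ 2 ≤
      B * ∑ w ∈ W with p k w = p k w₀, m w := by
  classical
  have hB0 : 0 ≤ B := by nlinarith [sq_nonneg K, sq_nonneg (9 * K + Δ)]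
  have main : ∀ i, ∀ k ≤ J, J - k ≤ i → ∀ w₀ ∈ W,
      ∑ w ∈ W with p k w = p k w₀, m w * ‖a J w - a k w₀‖ ^ 2 ≤
      B * ∑ w ∈ W with p k w = p k w₀, m w := by
    intro i
    induction i with
    | zero =>
      intro k hk hi w₀ hw₀
      have hkJ : k = J := by omega
      subst hkJ
      have h3 : ∑ w ∈ W with p k w = p k w₀, m w * ‖a k w - a k w₀‖ ^ 2 = 0 := by
        apply Finset.sum_eq_zero
        intro w hw
        have hw' := Finset.mem_filter.1 hw
        rw [ha k le_rfl w hw'.1 w₀ hw₀ hw'.2, sub_self, norm_zero]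
        ring
      rw [h3]
      exact mul_nonneg hB0 (Finset.sum_nonneg fun w hw => hm w (Finset.mem_filter.1 hw).1)
    | succ i IH =>
      intro k hk hi w₀ hw₀
      set S : Finset ι := W.filter (fun w => p k w = p k w₀) with hS
      set b := a k w₀ with hb
      have hSW : S ⊆ W := Finset.filter_subset _ _
      set τ : ι → ℕ := fun w => if h : ∃ j, k < j ∧ j ≤ J ∧ 9 * K < ‖a j w - b‖ then Nat.find h
        else 0 with hτ
      have hτspec : ∀ w, ∀ j, 0 < j → τ w = j → (k < j ∧ j ≤ J ∧ 9 * K < ‖a j w - b‖) ∧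
          ∀ i, i < j → ¬ (k < i ∧ i ≤ J ∧ 9 * K < ‖a i w - b‖) := by
        intro w j hj hτj
        by_cases h : ∃ j, k < j ∧ j ≤ J ∧ 9 * K < ‖a j w - b‖
        · simp only [hτ] at hτj
          rw [dif_pos h] at hτj
          subst hτj
          exact ⟨Nat.find_spec h, fun i hi => Nat.find_min h hi⟩
        · simp only [hτ] at hτj
          rw [dif_neg h] at hτj
          omega
      have hτof : ∀ w, ∀ j, (k < j ∧ j ≤ J ∧ 9 * K < ‖a j w - b‖) →
          (∀ i, i < j → ¬ (k < i ∧ i ≤ J ∧ 9 * K < ‖a i w - b‖)) → τ w = j := by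
        intro w j h3 h4
        have h : ∃ j, k < j ∧ j ≤ J ∧ 9 * K < ‖a j w - b‖ := ⟨j, h3⟩
        simp only [hτ]
        rw [dif_pos h]
        exact (Nat.find_eq_iff h).2 ⟨h3, h4⟩
      have hmaps : ∀ w ∈ S, τ w ∈ insert 0 (Finset.Ioc k J) := by
        intro w _
        by_cases h : 0 < τ w
        · have := (hτspec w (τ w) h rfl).1
          exact Finset.mem_insert_of_mem (Finset.mem_Ioc.2 ⟨this.1, this.2.1⟩)
        · rw [show τ w = 0 by omega]
          exact Finset.mem_insert_self _ _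
      have h0 : (0 : ℕ) ∉ Finset.Ioc k J := by simp
      -- the stopped part
      have hst : ∀ j ∈ Finset.Ioc k J,
          (∑ w ∈ S with τ w = j, m w * ‖a J w - b‖ ^ 2 ≤
            (2 * B + 2 * (9 * K + Δ) ^ 2) * ∑ w ∈ S with τ w = j, m w) ∧
          8 * K * ∑ w ∈ S with τ w = j, m w ≤ ∑ w ∈ S with τ w = j, m w * ‖a J w - b‖ := by
        intro j hj
        rw [Finset.mem_Ioc] at hj
        have hjp : 0 < j := by omega
        refine stopped hm hK ha h1 hj.2 (IH j hj.2 (by omega))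
          ((Finset.filter_subset _ _).trans hSW) ?_ ?_ ?_
        · intro w hw
          exact (hτspec w j hjp (Finset.mem_filter.1 hw).2).1.2.2
        · intro w hw
          have hw' := Finset.mem_filter.1 hw
          have h3 := hτspec w j hjp hw'.2
          obtain ⟨l, rfl⟩ : ∃ l, j = l + 1 := ⟨j - 1, by omega⟩
          have h4 := h2 l (by omega) w (hSW hw'.1)
          have h5 : ‖a l w - b‖ ≤ 9 * K := by
            by_cases hkl : k < l
            · by_contra hcon
              exact h3.2 l (by omega) ⟨hkl, by omega, by linarith⟩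
            · have hkl' : l = k := by omega
              subst hkl'
              have h6 := Finset.mem_filter.1 hw'.1
              rw [hb, ha l hk w h6.1 w₀ hw₀ h6.2, sub_self, norm_zero]
              positivity
          calc ‖a (l + 1) w - b‖ = ‖(a (l + 1) w - a l w) + (a l w - b)‖ := by
                congr 1; abel
            _ ≤ ‖a (l + 1) w - a l w‖ + ‖a l w - b‖ := norm_add_le _ _
            _ ≤ 9 * K + Δ := by linarith
        · intro w hw w' hw'W hp
          have hw' := Finset.mem_filter.1 hw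
          have hwS := Finset.mem_filter.1 hw'.1
          have hall : ∀ i ≤ j, a i w' = a i w := fun i hi =>
            ha i (by omega) w' hw'W w hwS.1 (hnest j hj.2 i hi w' hw'W w hwS.1 hp)
          refine Finset.mem_filter.2 ⟨Finset.mem_filter.2 ⟨hw'W, ?_⟩, ?_⟩
          · rw [hnest j hj.2 k hj.1.le w' hw'W w hwS.1 hp, hwS.2]
          · have h3 := hτspec w j hjp hw'.2
            refine hτof w' j ?_ ?_
            · rw [hall j le_rfl]; exact h3.1
            · intro i hi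
              rw [hall i hi.le]
              exact h3.2 i hi
      -- the part that is never stopped
      have hns : ∑ w ∈ S with τ w = 0, m w * ‖a J w - b‖ ^ 2 ≤
          81 * K ^ 2 * ∑ w ∈ S with τ w = 0, m w := by
        rw [Finset.mul_sum]
        apply Finset.sum_le_sum
        intro w hw
        have hw' := Finset.mem_filter.1 hw
        have h3 : ‖a J w - b‖ ≤ 9 * K := by
          by_cases hkJ : k < J
          · by_contra hcon
            push Not at hcon
            have h : ∃ j, k < j ∧ j ≤ J ∧ 9 * K < ‖a j w - b‖ := ⟨J, hkJ, le_rfl, hcon⟩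
            have h4 : τ w = Nat.find h := by simp only [hτ]; rw [dif_pos h]
            have h5 := (Nat.find_spec h).1
            rw [← h4, hw'.2] at h5
            omega
          · have hkJ' : k = J := by omega
            have h6 := Finset.mem_filter.1 hw'.1
            subst hkJ'
            rw [hb, ha k le_rfl w h6.1 w₀ hw₀ h6.2, sub_self, norm_zero]
            positivity
        have h7 : ‖a J w - b‖ ^ 2 ≤ (9 * K) ^ 2 := pow_le_pow_left₀ (norm_nonneg _) h3 2
        have h8 := hm w (hSW hw'.1)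
        nlinarith
      have hall := h1 k hk w₀ hw₀
      rw [← Finset.sum_fiberwise_of_maps_to hmaps (fun w => m w * ‖a J w - b‖),
        Finset.sum_insert h0] at hall
      have hnn : ∀ f : ι → ℝ, (∀ w ∈ W, 0 ≤ f w) → ∀ j, 0 ≤ ∑ w ∈ S with τ w = j, f w :=
        fun f hf j => Finset.sum_nonneg fun w hw => hf w (hSW (Finset.mem_filter.1 hw).1)
      have hM : ∑ w ∈ S, m w = ∑ w ∈ S with τ w = 0, m w +
          ∑ j ∈ Finset.Ioc k J, ∑ w ∈ S with τ w = j, m w := by
        rw [← Finset.sum_fiberwise_of_maps_to hmaps, Finset.sum_insert h0]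
      have hsB := Finset.sum_le_sum fun j hj => (hst j hj).2
      have hsA := Finset.sum_le_sum fun j hj => (hst j hj).1
      rw [← Finset.mul_sum] at hsB hsA
      have hns0 := hnn (fun w => m w * ‖a J w - b‖)
        (fun w hw => mul_nonneg (hm w hw) (norm_nonneg _)) 0
      have hm0 := hnn m hm 0
      set X := ∑ j ∈ Finset.Ioc k J, ∑ w ∈ S with τ w = j, m w with hX
      set Y := ∑ w ∈ S, m w with hY
      have hX8 : 8 * X ≤ Y := by
        have : 8 * K * X ≤ K * Y := by linarith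
        by_contra hcon
        push Not at hcon
        nlinarith
      have hX0 : 0 ≤ X := Finset.sum_nonneg fun j _ => hnn m hm j
      have hL0 : 0 ≤ 2 * B + 2 * (9 * K + Δ) ^ 2 := by positivity
      rw [← Finset.sum_fiberwise_of_maps_to hmaps, Finset.sum_insert h0]
      have h9 : (2 * B + 2 * (9 * K + Δ) ^ 2) * X ≤ (2 * B + 2 * (9 * K + Δ) ^ 2) * (Y / 8) :=
        mul_le_mul_of_nonneg_left (by linarith) hL0
      have h10 : 81 * K ^ 2 * ∑ w ∈ S with τ w = 0, m w ≤ 81 * K ^ 2 * Y :=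
        mul_le_mul_of_nonneg_left (by linarith) (by positivity)
      have hY0 : 0 ≤ Y := by linarith
      calc _ ≤ 81 * K ^ 2 * Y + (2 * B + 2 * (9 * K + Δ) ^ 2) * (Y / 8) := by linarith
        _ = (81 * K ^ 2 + (2 * B + 2 * (9 * K + Δ) ^ 2) / 8) * Y := by ring
        _ ≤ B * Y := mul_le_mul_of_nonneg_right hB hY0
  intro k hk w₀ hw₀
  exact main (J - k) k hk le_rfl w₀ hw₀

end

end Vale.Agent.P120.JN
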