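import Vale.Agent.P120.Bdl.B4
import Vale.Agent.P120.H982.JN

/-!
The John–Nirenberg inequality on the cubes of a regular measure.
-/

set_option linter.all false

open MeasureTheory Metric Set Filter Topology
open scoped ENNReal NNReal

namespace Vale.Agent.P120

variable {n d : ℕ}

namespace Cubes

variable {μ : Measure (Eu d)} {A : ℕ} {l₀ : ℝ} (Q : Cubes μ.support A l₀)

lemma cube_eq_biUnion {z₀ : Eu d} {i J : ℕ} (hiJ : i ≤ J) {w : Eu d} (hw : w ∈ Q.Wf z₀ i) :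
    Q.cube i w = ⋃ w' ∈ (Q.Wf z₀ J).filter (fun w' => Q.p i w' = w), Q.cube J w' := by
  rw [mem_Wf] at hw
  ext x
  simp only [mem_iUnion, Finset.mem_filter, exists_prop, mem_Wf]
  constructor
  · rintro ⟨hx, hxw⟩
    refine ⟨Q.p J x, ⟨⟨Q.p_mem J x hx, Q.p_memE hx, ?_⟩, ?_⟩, hx, rfl⟩
    · rw [Q.p_p (Nat.zero_le J) hx, ← Q.p_p (Nat.zero_le i) hx, hxw]
      exact hw.2.2
    · rw [Q.p_p hiJ hx, hxw]
  · rintro ⟨w', ⟨⟨h1, h2⟩, h3⟩, hx, hxw⟩
    refine ⟨hx, ?_⟩
    rw [← Q.p_p hiJ hx, hxw, h3]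

lemma int_split {z₀ : Eu d} {i J : ℕ} (hiJ : i ≤ J) {w : Eu d} (hw : w ∈ Q.Wf z₀ i)
    {g : Eu d → ℝ} (hg : IntegrableOn g (Q.cube i w) μ) :
    ∫ x in Q.cube i w, g x ∂μ =
      ∑ w' ∈ Q.Wf z₀ J with Q.p i w' = w, ∫ x in Q.cube J w', g x ∂μ := by
  have h := Q.cube_eq_biUnion hiJ hw
  rw [h, integral_biUnion_finset _ (fun b _ => Q.measurableSet_cube J b)
    (fun a _ b _ hab => Q.cube_disjoint hab)]
  intro w' hw'
  refine hg.mono_set ?_
  rw [h]
  exact subset_biUnion_of_mem (u := fun w' => Q.cube J w') hw'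

end Cubes

theorem jn_cubes (n d A : ℕ) (c C : ℝ) (hc : 0 < c) (hC : 0 < C) (K : ℝ) (hK : 0 < K) :
    ∃ B : ℝ, 0 < B ∧ ∀ (μ : Measure (Eu d)) (D : ℝ≥0∞), AR n c C D μ → ∀ l₀ : ℝ,
      ENNReal.ofReal l₀ ≤ D → ∀ Q : Cubes μ.support A l₀, ∀ z ∈ Q.N 0, ∀ (F : Eu d → Eu d),
      Continuous F → ∀ v : ℕ → Eu d → Eu d,
      (∀ k, ∀ w ∈ Q.N k, ∫ x in Q.cube k w, ‖F x - v k w‖ ∂μ ≤ K * μ.real (Q.cube k w)) →
      ∫ x in Q.cube 0 z, ‖F x - v 0 z‖ ^ 2 ∂μ ≤ B * μ.real (Q.cube 0 z) := by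
  set R : ℝ := C / c * (8 * A) ^ n with hR
  have hR0 : 0 ≤ R := by positivity
  set Δ : ℝ := K + K * R with hΔ
  set B₀ : ℝ := 108 * (2 * K) ^ 2 + (9 * (2 * K) + Δ) ^ 2 with hB₀
  have hB₀0 : 0 < B₀ := by positivity
  refine ⟨8 * K ^ 2 + 2 * B₀, by positivity, ?_⟩
  intro μ D har l₀ hD Q z hz F hF v hosc
  have hlf := har.isLocallyFiniteMeasure
  have hl₀ := Q.l_pos
  have hzE : z ∈ μ.support := Q.N_sub 0 hz
  -- integrability
  have hint : ∀ (u : Eu d) (k : ℕ) (w : Eu d) (q : ℕ),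
      IntegrableOn (fun x => ‖F x - u‖ ^ q) (Q.cube k w) μ := by
    intro u k w q
    have h1 : Continuous fun x => ‖F x - u‖ ^ q := (hF.sub continuous_const).norm.pow q
    exact (h1.locallyIntegrable.integrableOn_isCompact
      (isCompact_closedBall w (2 * Q.l k))).mono_set (Q.cube_subset k w)
  have hint1 : ∀ (u : Eu d) (k : ℕ) (w : Eu d),
      IntegrableOn (fun x => ‖F x - u‖) (Q.cube k w) μ := by
    intro u k w
    simpa only [pow_one] using hint u k w 1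
  -- the last generation
  obtain ⟨δ, hδ, hunif⟩ : ∃ δ > 0, ∀ x ∈ closedBall z (2 * l₀), ∀ y ∈ closedBall z (2 * l₀),
      dist x y < δ → dist (F x) (F y) < K := by
    have h1 := (isCompact_closedBall z (2 * l₀)).uniformContinuousOn_of_continuous hF.continuousOn
    exact Metric.uniformContinuousOn_iff.1 h1 K hK
  obtain ⟨J, hJ⟩ := Q.exists_l_lt (show 0 < δ / 4 by positivity)
  have hroot : ∀ k, ∀ w ∈ Q.Wf z k, Q.cube k w ⊆ Q.cube 0 z := by
    intro k w hw x hx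
    rw [Q.mem_Wf] at hw
    refine ⟨hx.1, ?_⟩
    rw [← Q.p_p (Nat.zero_le k) hx.1, hx.2]
    exact hw.2.2
  have hpos : ∀ k, ∀ w ∈ Q.N k, 0 < μ.real (Q.cube k w) := by
    intro k w hw
    refine lt_of_lt_of_le ?_ (Q.cube_lower har hD hw)
    have := Q.l_pos' k
    positivity
  have hfin : ∀ k w, μ (Q.cube k w) ≠ ⊤ := fun k w => (Q.cube_lt_top har k w).ne
  have hcst : ∀ (t : ℝ) (k : ℕ) (w : Eu d), IntegrableOn (fun _ : Eu d => t) (Q.cube k w) μ :=
    fun t k w => integrableOn_const (hfin k w)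
  have hlast : ∀ w ∈ Q.Wf z J, ∀ x ∈ Q.cube J w, ‖F x - v J w‖ ≤ 2 * K := by
    intro w hw x hx
    have hwN := (Q.mem_Wf.1 hw).1
    have hm := hpos J w hwN
    have h1 : ∫ y in Q.cube J w, ‖F x - v J w‖ ∂μ ≤
        ∫ y in Q.cube J w, (K + ‖F y - v J w‖) ∂μ := by
      refine setIntegral_mono_on (hcst _ J w) ((hcst _ J w).add
        (hint1 _ J w)) (Q.measurableSet_cube J w) ?_
      intro y hy
      have h2 : dist (F x) (F y) < K := by
        apply hunif
        · have := Q.cube_subset 0 z (hroot J w hw hx)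
          rwa [Q.l_zero] at this
        · have := Q.cube_subset 0 z (hroot J w hw hy)
          rwa [Q.l_zero] at this
        · have h3 := Q.cube_subset J w hx
          have h4 := Q.cube_subset J w hy
          rw [mem_closedBall] at h3 h4
          have h5 := dist_triangle_right x y w
          linarith
      have h3 : F x - v J w = (F x - F y) + (F y - v J w) := by abel
      rw [h3]
      refine (norm_add_le _ _).trans ?_
      rw [dist_eq_norm] at h2
      linarith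
    rw [setIntegral_const, smul_eq_mul, integral_add (hcst K J w) (hint1 _ J w),
      setIntegral_const, smul_eq_mul] at h1
    have h2 := hosc J w hwN
    have h3 : μ.real (Q.cube J w) * ‖F x - v J w‖ ≤ μ.real (Q.cube J w) * (2 * K) := by linarith
    exact le_of_mul_le_mul_left h3 hm
  -- application of the finite inequality
  set W := Q.Wf z J with hW
  set m : Eu d → ℝ := fun w => μ.real (Q.cube J w) with hm
  set a : ℕ → Eu d → Eu d := fun j w => v j (Q.p j w) with ha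
  have hWE : ∀ w ∈ W, w ∈ μ.support := fun w hw => (Q.mem_Wf.1 hw).2.1
  have haJ : ∀ w ∈ W, a J w = v J w := by
    intro w hw
    simp only [ha]
    rw [Q.p_self (Q.mem_Wf.1 hw).1]
  have hpW : ∀ k ≤ J, ∀ w ∈ W, Q.p k w ∈ Q.Wf z k := by
    intro k hk w hw
    rw [Q.mem_Wf]
    have hE := hWE w hw
    exact ⟨Q.p_mem k w hE, Q.p_memE hE, (Q.p_p (Nat.zero_le k) hE).trans (Q.mem_Wf.1 hw).2.2⟩
  have hmass : ∀ k ≤ J, ∀ w ∈ W, ∑ w' ∈ W with Q.p k w' = Q.p k w, m w' =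
      μ.real (Q.cube k (Q.p k w)) := fun k hk w hw => (Q.mass_split har hk (hpW k hk w hw)).symm
  have h1 : ∀ k ≤ J, ∀ w₀ ∈ W, ∑ w ∈ W with Q.p k w = Q.p k w₀, m w * ‖a J w - a k w₀‖ ≤
      2 * K * ∑ w ∈ W with Q.p k w = Q.p k w₀, m w := by
    intro k hk w₀ hw₀
    set u := Q.p k w₀ with hu
    have hu' := hpW k hk w₀ hw₀
    have h2 : ∀ w ∈ W.filter (fun w => Q.p k w = u), m w * ‖a J w - a k w₀‖ ≤
        K * m w + ∫ x in Q.cube J w, ‖F x - v k u‖ ∂μ := by
      intro w hw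
      have hw' := Finset.mem_filter.1 hw
      rw [haJ w hw'.1]
      have h3 : ∫ x in Q.cube J w, ‖v J w - v k u‖ ∂μ ≤
          ∫ x in Q.cube J w, (‖F x - v J w‖ + ‖F x - v k u‖) ∂μ := by
        refine setIntegral_mono_on (hcst _ J w) ((hint1 _ J w).add
          (hint1 _ J w)) (Q.measurableSet_cube J w) ?_
        intro x _
        have h3 : v J w - v k u = -(F x - v J w) + (F x - v k u) := by abel
        rw [h3]
        refine (norm_add_le _ _).trans ?_
        rw [norm_neg]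
      rw [setIntegral_const, smul_eq_mul, integral_add (hint1 _ J w) (hint1 _ J w)] at h3
      have h4 := hosc J w (Q.mem_Wf.1 hw'.1).1
      simp only [ha, hm]
      linarith
    refine (Finset.sum_le_sum h2).trans ?_
    rw [Finset.sum_add_distrib, ← Finset.mul_sum, ← Q.int_split hk hu' (hint1 _ k u)]
    have h5 := hosc k u (Q.mem_Wf.1 hu').1
    have h6 := hmass k hk w₀ hw₀
    rw [← hu] at h6
    rw [h6]
    linarith
  have h2 : ∀ k < J, ∀ w ∈ W, ‖a (k + 1) w - a k w‖ ≤ Δ := by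
    intro k hk w hw
    have hwE := hWE w hw
    set P := Q.cube (k + 1) (Q.p (k + 1) w) with hP
    have hPN : Q.p (k + 1) w ∈ Q.N (k + 1) := Q.p_mem _ w hwE
    have hkN : Q.p k w ∈ Q.N k := Q.p_mem _ w hwE
    have hsub : P ⊆ Q.cube k (Q.p k w) := by
      intro x hx
      exact ⟨hx.1, Q.p_nest (Nat.le_succ k) hx.1 hwE hx.2⟩
    have hmP := hpos (k + 1) _ hPN
    have h3 : ∫ x in P, ‖a (k + 1) w - a k w‖ ∂μ ≤
        ∫ x in P, (‖F x - a (k + 1) w‖ + ‖F x - a k w‖) ∂μ := by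
      refine setIntegral_mono_on (hcst _ _ _) ((hint1 _ _ _).add
        (hint1 _ _ _)) (Q.measurableSet_cube _ _) ?_
      intro x _
      have h3 : a (k + 1) w - a k w = -(F x - a (k + 1) w) + (F x - a k w) := by abel
      rw [h3]
      refine (norm_add_le _ _).trans ?_
      rw [norm_neg]
    rw [setIntegral_const, smul_eq_mul, integral_add (hint1 _ _ _) (hint1 _ _ _)] at h3
    have h4 := hosc (k + 1) _ hPN
    have h5 : ∫ x in P, ‖F x - a k w‖ ∂μ ≤ ∫ x in Q.cube k (Q.p k w), ‖F x - a k w‖ ∂μ :=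
      setIntegral_mono_set (hint1 _ _ _) (Eventually.of_forall fun x => norm_nonneg _)
        (HasSubset.Subset.eventuallyLE hsub)
    have h6 := hosc k _ hkN
    have h7 : μ.real (Q.cube k (Q.p k w)) ≤ R * μ.real P := by
      have h8 := Q.cube_upper har k (Q.p k w)
      have h9 := Q.cube_lower har hD hPN
      have hl := Q.l_pos' (k + 1)
      calc μ.real (Q.cube k (Q.p k w)) ≤ C * (2 * Q.l k) ^ n := h8
        _ = R * (c * (Q.l (k + 1) / 4) ^ n) := by
            rw [Q.l_succ k, hR]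
            have h10 : (2 * ((A : ℝ) * Q.l (k + 1))) ^ n = (8 * A) ^ n * (Q.l (k + 1) / 4) ^ n := by
              rw [← mul_pow]; congr 1; ring
            rw [h10]
            field_simp
        _ ≤ R * μ.real P := mul_le_mul_of_nonneg_left h9 hR0
    have h11 : μ.real P * ‖a (k + 1) w - a k w‖ ≤ μ.real P * Δ := by
      have h12 : K * μ.real (Q.cube k (Q.p k w)) ≤ K * (R * μ.real P) :=
        mul_le_mul_of_nonneg_left h7 hK.le
      have h13 : μ.real P * Δ = K * μ.real P + K * (R * μ.real P) := by rw [hΔ]; ring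
      rw [h13]
      linarith
    exact le_of_mul_le_mul_left h11 hmP
  have hfinal := JN.jn_fin (W := W) (m := m) (J := J) (p := Q.p) (a := a) (K := 2 * K) (Δ := Δ)
    (B := B₀) (fun w _ => measureReal_nonneg) (by positivity) (by positivity)
    (fun j _ i hi w hw w' hw' h => Q.p_nest hi (hWE w hw) (hWE w' hw') h)
    (fun j _ w _ w' _ h => by simp only [ha]; rw [h]) h1 h2 (by
      rw [hB₀]
      nlinarith [sq_nonneg (9 * (2 * K) + Δ)])
  -- conclusion
  have hz0 : z ∈ Q.Wf z 0 := Q.mem_Wf.2 ⟨hz, hzE, Q.p_self hz⟩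
  have hWz : ∀ w ∈ W, Q.p 0 w = z := fun w hw => (Q.mem_Wf.1 hw).2.2
  have hw₀ : Q.p J z ∈ W := Q.mem_Wf.2 ⟨Q.p_mem J z hzE, Q.p_memE hzE, by
    rw [Q.p_p (Nat.zero_le J) hzE]; exact Q.p_self hz⟩
  have h3 := hfinal 0 (Nat.zero_le J) _ hw₀
  have h4 := hmass 0 (Nat.zero_le J) _ hw₀
  have e1 : a 0 (Q.p J z) = v 0 z := by simp only [ha]; rw [hWz _ hw₀]
  rw [h4, e1] at h3
  simp only [hWz _ hw₀] at h3
  rw [Q.int_split (Nat.zero_le J) hz0 (hint _ 0 z 2)]
  have h5 : ∀ w ∈ W.filter (fun w => Q.p 0 w = z), ∫ x in Q.cube J w, ‖F x - v 0 z‖ ^ 2 ∂μ ≤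
      8 * K ^ 2 * m w + 2 * (m w * ‖a J w - v 0 z‖ ^ 2) := by
    intro w hw
    have hw' := (Finset.mem_filter.1 hw).1
    rw [haJ w hw']
    have h6 : ∫ x in Q.cube J w, ‖F x - v 0 z‖ ^ 2 ∂μ ≤
        ∫ x in Q.cube J w, (8 * K ^ 2 + 2 * ‖v J w - v 0 z‖ ^ 2) ∂μ := by
      refine setIntegral_mono_on (hint _ _ _ 2) (hcst _ J w)
        (Q.measurableSet_cube J w) ?_
      intro x hx
      have h7 := JN.sq_norm_le (F x - v J w) (v J w - v 0 z)
      rw [sub_add_sub_cancel] at h7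
      have h8 : ‖F x - v J w‖ ^ 2 ≤ (2 * K) ^ 2 :=
        pow_le_pow_left₀ (norm_nonneg _) (hlast w hw' x hx) 2
      nlinarith
    rw [setIntegral_const, smul_eq_mul] at h6
    refine h6.trans (le_of_eq ?_)
    simp only [hm]
    ring
  refine (Finset.sum_le_sum h5).trans ?_
  rw [Finset.sum_add_distrib, ← Finset.mul_sum, ← Finset.mul_sum]
  have h7 : ∑ w ∈ W with Q.p 0 w = z, m w = μ.real (Q.cube 0 z) := by
    rw [← hWz _ hw₀]
    exact h4
  rw [h7]
  linarith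

end Vale.Agent.P120
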