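import Vale.Agent.P120.H982.JNCubes
import Vale.Agent.P120.H982.JS

/-!
The John–Strömberg inequality on the cubes of a regular measure.
-/

set_option linter.all false

open MeasureTheory Metric Set Filter Topology
open scoped ENNReal NNReal

namespace Vale.Agent.P120

theorem js_cubes (n d A : ℕ) (c C : ℝ) (hc : 0 < c) (hC : 0 < C) :
    ∃ α : ℝ, 0 < α ∧ ∀ K : ℝ, 0 < K → ∀ (μ : Measure (Eu d)) (D : ℝ≥0∞), AR n c C D μ →
      ∀ l₀ : ℝ, ENNReal.ofReal l₀ ≤ D → ∀ Q : Cubes μ.support A l₀, ∀ z ∈ Q.N 0,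
      ∀ (F : Eu d → Eu d), Continuous F → ∀ v : ℕ → Eu d → Eu d,
      (∀ k, ∀ w ∈ Q.N k, μ.real {x | x ∈ Q.cube k w ∧ K < ‖F x - v k w‖} ≤
        α * μ.real (Q.cube k w)) →
      ∫ x in Q.cube 0 z, ‖F x - v 0 z‖ ^ 2 ∂μ ≤ 76 * K ^ 2 * μ.real (Q.cube 0 z) := by
  classical
  set R : ℝ := C / c * (8 * A) ^ n with hR
  have hR0 : 0 ≤ R := by positivity
  set α : ℝ := min (1 / 18) (1 / (2 * (1 + R))) with hα
  have hα0 : 0 < α := lt_min (by norm_num) (by positivity)
  have hα18 : α ≤ 1 / 18 := min_le_left _ _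
  have hαR : α * (1 + R) ≤ 1 / 2 := by
    have h1 : α ≤ 1 / (2 * (1 + R)) := min_le_right _ _
    have h2 : 0 < 1 + R := by linarith
    calc α * (1 + R) ≤ 1 / (2 * (1 + R)) * (1 + R) := mul_le_mul_of_nonneg_right h1 h2.le
      _ = 1 / 2 := by field_simp
  refine ⟨α, hα0, ?_⟩
  intro K hK μ D har l₀ hD Q z hz F hF v hosc
  have hlf := har.isLocallyFiniteMeasure
  have hl₀ := Q.l_pos
  have hzE : z ∈ μ.support := Q.N_sub 0 hz
  -- integrability and measurability
  have hint : ∀ (u : Eu d) (k : ℕ) (w : Eu d) (q : ℕ),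
      IntegrableOn (fun x => ‖F x - u‖ ^ q) (Q.cube k w) μ := by
    intro u k w q
    have h1 : Continuous fun x => ‖F x - u‖ ^ q := (hF.sub continuous_const).norm.pow q
    exact (h1.locallyIntegrable.integrableOn_isCompact
      (isCompact_closedBall w (2 * Q.l k))).mono_set (Q.cube_subset k w)
  have hmeas : ∀ (u : Eu d) (k : ℕ) (w : Eu d),
      MeasurableSet {x | x ∈ Q.cube k w ∧ K < ‖F x - u‖} := by
    intro u k w
    have h1 : IsOpen {x : Eu d | K < ‖F x - u‖} :=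
      isOpen_lt continuous_const (hF.sub continuous_const).norm
    exact (Q.measurableSet_cube k w).inter h1.measurableSet
  -- the last generation
  obtain ⟨δ, hδ, hunif⟩ : ∃ δ > 0, ∀ x ∈ closedBall z (2 * l₀), ∀ y ∈ closedBall z (2 * l₀),
      dist x y < δ → dist (F x) (F y) < K := by
    have h1 := (isCompact_closedBall z (2 * l₀)).uniformContinuousOn_of_continuous hF.continuousOn
    exact Metric.uniformContinuousOn_iff.1 h1 K hK
  obtain ⟨J, hJ⟩ := Q.exists_l_lt (show 0 < δ / 4 by positivity)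
  have hroot : ∀ k, ∀ w ∈ Q.Wf z k, Q.cube k w ⊆ Q.cube 0 z := by
    intro k w hw x hx
    rw [Q.mem_Wf] at hw
    refine ⟨hx.1, ?_⟩
    rw [← Q.p_p (Nat.zero_le k) hx.1, hx.2]
    exact hw.2.2
  have hpos : ∀ k, ∀ w ∈ Q.N k, 0 < μ.real (Q.cube k w) := by
    intro k w hw
    refine lt_of_lt_of_le ?_ (Q.cube_lower har hD hw)
    have := Q.l_pos' k
    positivity
  have hfin : ∀ k w, μ (Q.cube k w) ≠ ⊤ := fun k w => (Q.cube_lt_top har k w).ne
  have hcst : ∀ (t : ℝ) (k : ℕ) (w : Eu d), IntegrableOn (fun _ : Eu d => t) (Q.cube k w) μ :=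
    fun t k w => integrableOn_const (hfin k w)
  have hfin' : ∀ (u : Eu d) (k : ℕ) (w : Eu d), μ {x | x ∈ Q.cube k w ∧ K < ‖F x - u‖} ≠ ⊤ :=
    fun u k w => ne_top_of_le_ne_top (hfin k w) (measure_mono fun x hx => hx.1)
  -- a point of a cube where two functions are small
  have hpick : ∀ k, ∀ w, ∀ u₁ u₂ : Eu d,
      μ.real {x | x ∈ Q.cube k w ∧ K < ‖F x - u₁‖} +
        μ.real {x | x ∈ Q.cube k w ∧ K < ‖F x - u₂‖} < μ.real (Q.cube k w) →
      ∃ x ∈ Q.cube k w, ‖F x - u₁‖ ≤ K ∧ ‖F x - u₂‖ ≤ K := by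
    intro k w u₁ u₂ h
    by_contra hcon
    push Not at hcon
    have h1 : Q.cube k w ⊆ {x | x ∈ Q.cube k w ∧ K < ‖F x - u₁‖} ∪
        {x | x ∈ Q.cube k w ∧ K < ‖F x - u₂‖} := by
      intro x hx
      by_cases h2 : K < ‖F x - u₁‖
      · exact Or.inl ⟨hx, h2⟩
      · exact Or.inr ⟨hx, hcon x hx (not_lt.1 h2)⟩
    have h3 : μ.real (Q.cube k w) ≤ μ.real {x | x ∈ Q.cube k w ∧ K < ‖F x - u₁‖} +
        μ.real {x | x ∈ Q.cube k w ∧ K < ‖F x - u₂‖} :=
      (measureReal_mono h1 (measure_union_ne_top (hfin' _ _ _) (hfin' _ _ _))).trans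
        (measureReal_union_le _ _)
    linarith
  have hlast : ∀ w ∈ Q.Wf z J, ∀ x ∈ Q.cube J w, ‖F x - v J w‖ ≤ 2 * K := by
    intro w hw x hx
    have hwN := (Q.mem_Wf.1 hw).1
    have hm := hpos J w hwN
    obtain ⟨y, hy, hy1, -⟩ := hpick J w (v J w) (v J w) (by
      have := hosc J w hwN
      nlinarith)
    have h2 : dist (F x) (F y) < K := by
      apply hunif
      · have := Q.cube_subset 0 z (hroot J w hw hx)
        rwa [Q.l_zero] at this
      · have := Q.cube_subset 0 z (hroot J w hw hy)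
        rwa [Q.l_zero] at this
      · have h3 := Q.cube_subset J w hx
        have h4 := Q.cube_subset J w hy
        rw [mem_closedBall] at h3 h4
        have h5 := dist_triangle_right x y w
        linarith
    have h3 : F x - v J w = (F x - F y) + (F y - v J w) := by abel
    rw [h3]
    refine (norm_add_le _ _).trans ?_
    rw [dist_eq_norm] at h2
    linarith
  -- application of the finite inequality
  set W := Q.Wf z J with hW
  set m : Eu d → ℝ := fun w => μ.real (Q.cube J w) with hm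
  set a : ℕ → Eu d → Eu d := fun j w => v j (Q.p j w) with ha
  have hWE : ∀ w ∈ W, w ∈ μ.support := fun w hw => (Q.mem_Wf.1 hw).2.1
  have haJ : ∀ w ∈ W, a J w = v J w := by
    intro w hw
    simp only [ha]
    rw [Q.p_self (Q.mem_Wf.1 hw).1]
  have hpW : ∀ k ≤ J, ∀ w ∈ W, Q.p k w ∈ Q.Wf z k := by
    intro k hk w hw
    rw [Q.mem_Wf]
    have hE := hWE w hw
    exact ⟨Q.p_mem k w hE, Q.p_memE hE, (Q.p_p (Nat.zero_le k) hE).trans (Q.mem_Wf.1 hw).2.2⟩
  have hmass : ∀ k ≤ J, ∀ w ∈ W, ∑ w' ∈ W with Q.p k w' = Q.p k w, m w' =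
      μ.real (Q.cube k (Q.p k w)) := fun k hk w hw => (Q.mass_split har hk (hpW k hk w hw)).symm
  have h1 : ∀ k ≤ J, ∀ w₀ ∈ W,
      ∑ w ∈ W with Q.p k w = Q.p k w₀ ∧ 2 * K < ‖a J w - a k w₀‖, m w ≤
      (1 / 9) * ∑ w ∈ W with Q.p k w = Q.p k w₀, m w := by
    intro k hk w₀ hw₀
    rw [hmass k hk w₀ hw₀]
    set u := Q.p k w₀ with hu
    have hu' := hpW k hk w₀ hw₀
    set G := W.filter (fun w => Q.p k w = u ∧ 2 * K < ‖a J w - a k w₀‖) with hG
    have hcub := Q.cube_eq_biUnion hk hu'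
    have hsub : ∀ w ∈ G, Q.cube J w ⊆ Q.cube k u := by
      intro w hw
      have hw' := Finset.mem_filter.1 hw
      rw [hcub]
      exact subset_biUnion_of_mem (u := fun w' => Q.cube J w')
        (show w ∈ ((Q.Wf z J).filter (fun w' => Q.p k w' = u) : Finset (Eu d)) from
          Finset.mem_filter.2 ⟨hw'.1, hw'.2.1⟩)
    have h2 : ∀ w ∈ G, (17 / 18) * m w ≤ μ.real {x | x ∈ Q.cube J w ∧ K < ‖F x - v k u‖} := by
      intro w hw
      have hw' := Finset.mem_filter.1 hw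
      have hbig := hw'.2.2
      rw [haJ w hw'.1] at hbig
      have hbig' : 2 * K < ‖v J w - v k u‖ := hbig
      have h3 : Q.cube J w ⊆ {x | x ∈ Q.cube J w ∧ K < ‖F x - v J w‖} ∪
          {x | x ∈ Q.cube J w ∧ K < ‖F x - v k u‖} := by
        intro x hx
        by_cases h4 : K < ‖F x - v J w‖
        · exact Or.inl ⟨hx, h4⟩
        · refine Or.inr ⟨hx, ?_⟩
          have h5 : v J w - v k u = -(F x - v J w) + (F x - v k u) := by abel
          have h6 := norm_add_le (-(F x - v J w)) (F x - v k u)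
          rw [← h5, norm_neg] at h6
          linarith [not_lt.1 h4]
      have h7 : μ.real (Q.cube J w) ≤ μ.real {x | x ∈ Q.cube J w ∧ K < ‖F x - v J w‖} +
          μ.real {x | x ∈ Q.cube J w ∧ K < ‖F x - v k u‖} :=
        (measureReal_mono h3 (measure_union_ne_top (hfin' _ _ _) (hfin' _ _ _))).trans
          (measureReal_union_le _ _)
      have h8 := hosc J w (Q.mem_Wf.1 hw'.1).1
      have h9 : 0 ≤ μ.real (Q.cube J w) := measureReal_nonneg
      simp only [hm]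
      nlinarith
    have h3 := Finset.sum_le_sum h2
    rw [← Finset.mul_sum] at h3
    have h4 : ∑ w ∈ G, μ.real {x | x ∈ Q.cube J w ∧ K < ‖F x - v k u‖} ≤
        μ.real {x | x ∈ Q.cube k u ∧ K < ‖F x - v k u‖} := by
      rw [← measureReal_biUnion_finset (fun w _ w' _ hww' => ?_) (fun w _ => hmeas _ J w)
        (fun w _ => hfin' _ J w)]
      · refine measureReal_mono ?_ (hfin' _ k u)
        intro x hx
        rw [mem_iUnion₂] at hx
        obtain ⟨w, hw, hx1, hx2⟩ := hx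
        exact ⟨hsub w hw hx1, hx2⟩
      · exact (Q.cube_disjoint hww').mono (fun x hx => hx.1) (fun x hx => hx.1)
    have h5 := hosc k u (Q.mem_Wf.1 hu').1
    have h6 : 0 ≤ μ.real (Q.cube k u) := measureReal_nonneg
    have h7 : α * μ.real (Q.cube k u) ≤ 1 / 18 * μ.real (Q.cube k u) :=
      mul_le_mul_of_nonneg_right hα18 h6
    linarith
  have h2 : ∀ k < J, ∀ w ∈ W, ‖a (k + 1) w - a k w‖ ≤ 2 * K := by
    intro k hk w hw
    have hwE := hWE w hw
    set P := Q.cube (k + 1) (Q.p (k + 1) w) with hP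
    have hPN : Q.p (k + 1) w ∈ Q.N (k + 1) := Q.p_mem _ w hwE
    have hkN : Q.p k w ∈ Q.N k := Q.p_mem _ w hwE
    have hsub : P ⊆ Q.cube k (Q.p k w) := by
      intro x hx
      exact ⟨hx.1, Q.p_nest (Nat.le_succ k) hx.1 hwE hx.2⟩
    have hmP := hpos (k + 1) _ hPN
    have h7 : μ.real (Q.cube k (Q.p k w)) ≤ R * μ.real P := by
      have h8 := Q.cube_upper har k (Q.p k w)
      have h9 := Q.cube_lower har hD hPN
      have hl := Q.l_pos' (k + 1)
      calc μ.real (Q.cube k (Q.p k w)) ≤ C * (2 * Q.l k) ^ n := h8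
        _ = R * (c * (Q.l (k + 1) / 4) ^ n) := by
            rw [Q.l_succ k, hR]
            have h10 : (2 * ((A : ℝ) * Q.l (k + 1))) ^ n = (8 * A) ^ n * (Q.l (k + 1) / 4) ^ n := by
              rw [← mul_pow]; congr 1; ring
            rw [h10]
            field_simp
        _ ≤ R * μ.real P := mul_le_mul_of_nonneg_left h9 hR0
    obtain ⟨x, -, hx1, hx2⟩ := hpick (k + 1) (Q.p (k + 1) w) (a (k + 1) w) (a k w) (by
      have h3 := hosc (k + 1) _ hPN
      have h4 := hosc k _ hkN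
      have h5 : μ.real {x | x ∈ P ∧ K < ‖F x - a k w‖} ≤
          μ.real {x | x ∈ Q.cube k (Q.p k w) ∧ K < ‖F x - v k (Q.p k w)‖} :=
        measureReal_mono (fun x hx => ⟨hsub hx.1, hx.2⟩) (hfin' _ _ _)
      have h6 : α * μ.real (Q.cube k (Q.p k w)) ≤ α * (R * μ.real P) :=
        mul_le_mul_of_nonneg_left h7 hα0.le
      have h8 : α * (1 + R) * μ.real P ≤ 1 / 2 * μ.real P :=
        mul_le_mul_of_nonneg_right hαR hmP.le
      have h9 : μ.real {x | x ∈ P ∧ K < ‖F x - a (k + 1) w‖} ≤ α * μ.real P := h3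
      nlinarith)
    have h3 : a (k + 1) w - a k w = -(F x - a (k + 1) w) + (F x - a k w) := by abel
    rw [h3]
    refine (norm_add_le _ _).trans ?_
    rw [norm_neg]
    linarith
  have hfinal := JN.js_fin (W := W) (m := m) (J := J) (p := Q.p) (a := a) (K := 2 * K)
    (Δ := 2 * K) (B := 34 * K ^ 2) (fun w _ => measureReal_nonneg) (by positivity) (by positivity)
    (fun j _ i hi w hw w' hw' h => Q.p_nest hi (hWE w hw) (hWE w' hw') h)
    (fun j _ w _ w' _ h => by simp only [ha]; rw [h]) h1 h2 (by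
      nlinarith [sq_nonneg K])
  -- conclusion
  have hz0 : z ∈ Q.Wf z 0 := Q.mem_Wf.2 ⟨hz, hzE, Q.p_self hz⟩
  have hWz : ∀ w ∈ W, Q.p 0 w = z := fun w hw => (Q.mem_Wf.1 hw).2.2
  have hw₀ : Q.p J z ∈ W := Q.mem_Wf.2 ⟨Q.p_mem J z hzE, Q.p_memE hzE, by
    rw [Q.p_p (Nat.zero_le J) hzE]; exact Q.p_self hz⟩
  have h3 := hfinal 0 (Nat.zero_le J) _ hw₀
  have h4 := hmass 0 (Nat.zero_le J) _ hw₀
  have e1 : a 0 (Q.p J z) = v 0 z := by simp only [ha]; rw [hWz _ hw₀]
  rw [h4, e1] at h3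
  simp only [hWz _ hw₀] at h3
  rw [Q.int_split (Nat.zero_le J) hz0 (hint _ 0 z 2)]
  have h5 : ∀ w ∈ W.filter (fun w => Q.p 0 w = z), ∫ x in Q.cube J w, ‖F x - v 0 z‖ ^ 2 ∂μ ≤
      8 * K ^ 2 * m w + 2 * (m w * ‖a J w - v 0 z‖ ^ 2) := by
    intro w hw
    have hw' := (Finset.mem_filter.1 hw).1
    rw [haJ w hw']
    have h6 : ∫ x in Q.cube J w, ‖F x - v 0 z‖ ^ 2 ∂μ ≤
        ∫ x in Q.cube J w, (8 * K ^ 2 + 2 * ‖v J w - v 0 z‖ ^ 2) ∂μ := by
      refine setIntegral_mono_on (hint _ _ _ 2) (hcst _ J w)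
        (Q.measurableSet_cube J w) ?_
      intro x hx
      have h7 := JN.sq_norm_le (F x - v J w) (v J w - v 0 z)
      rw [sub_add_sub_cancel] at h7
      have h8 : ‖F x - v J w‖ ^ 2 ≤ (2 * K) ^ 2 :=
        pow_le_pow_left₀ (norm_nonneg _) (hlast w hw' x hx) 2
      nlinarith
    rw [setIntegral_const, smul_eq_mul] at h6
    refine h6.trans (le_of_eq ?_)
    simp only [hm]
    ring
  refine (Finset.sum_le_sum h5).trans ?_
  rw [Finset.sum_add_distrib, ← Finset.mul_sum, ← Finset.mul_sum]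
  have h7 : ∑ w ∈ W with Q.p 0 w = z, m w = μ.real (Q.cube 0 z) := by
    rw [← hWz _ hw₀]
    exact h4
  rw [h7]
  linarith

end Vale.Agent.P120
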