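import Vale.Agent.P120.H982.Testing
import Vale.Agent.P120.H982.Big
import Vale.Agent.P120.H982.Defs

/-!
Weak testing implies very big pieces of Lipschitz images.
-/

set_option linter.all false

open MeasureTheory Metric Set Filter Topology
open scoped ENNReal NNReal

namespace Vale.Agent.P120

/-- **weak testing implies very big pieces of Lipschitz images** -/
theorem very_big_pieces (n d : ℕ) (hn : 1 ≤ n) (hnd : n ≤ d) (C₀ : ℝ) :
    ∃ α : ℝ, 0 < α ∧ ∀ lam η : ℝ, 0 < η → ∃ M : ℝ≥0, ∀ μ : Measure (Eu d),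
      ADRegularWith n C₀ μ → WeakTesting n α lam μ →
      ∀ x ∈ μ.support, ∀ r : ℝ, 0 < r → ENNReal.ofReal r ≤ ediam μ.support →
        ∃ g : Eu n → Eu d, LipschitzWith M g ∧
          μ (ball x r \ g '' ball 0 r) ≤ ENNReal.ofReal (η * r ^ n) := by
  by_cases hC₀ : 1 ≤ C₀
  swap
  · exact ⟨1, one_pos, fun lam η _ => ⟨1, fun μ h1 => absurd h1.1 hC₀⟩⟩
  have hC₀p : 0 < C₀ := by linarith only [hC₀]
  obtain ⟨C, hC, hAR⟩ := ar_quant n d C₀ hC₀
  have hc : 0 < C₀⁻¹ := inv_pos.2 hC₀p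
  obtain ⟨α, hα, hW⟩ := TT.rb_of_weak n d hn C₀⁻¹ C hc hC
  refine ⟨α, hα, fun lam η hη => ?_⟩
  obtain ⟨K, hK, hW⟩ := hW lam
  have hc4 : 0 < C₀⁻¹ / 4 ^ n := by positivity
  obtain ⟨δ, hδ, hB⟩ := theoremB_big n d hn hnd (C₀⁻¹ / 4 ^ n) C hc4 hC
  obtain ⟨CA, hCA, hA⟩ := TT.theoremA_bilateral n d 16 hn hnd le_rfl (C₀⁻¹ / 4 ^ n) C K hc4 hC
    10 δ (by norm_num) hδ
  obtain ⟨M, hB⟩ := hB CA hCA.le (η / 4 ^ n) (by positivity)
  refine ⟨M * 4, ?_⟩
  intro μ h1 h2 x hx r hr hrD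
  have hDpos : 0 < ediam μ.support := lt_of_lt_of_le (ENNReal.ofReal_pos.2 hr) hrD
  have hAR1 := hAR μ hDpos h1.2
  have hRB := hW μ hDpos hAR1 h2
  have hAR4 := TT.AR_scale hAR1 (T := 4) (by norm_num)
  have hl : 0 < 4 * r := by positivity
  have hlD : ENNReal.ofReal (4 * r) ≤ ENNReal.ofReal 4 * ediam μ.support := by
    rw [ENNReal.ofReal_mul (by norm_num)]
    exact mul_le_mul_right hrD _
  obtain ⟨Q, hQ⟩ := exists_cubes (E := μ.support) Measure.isClosed_support.measurableSet hx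
    (le_refl 16) hl
  obtain ⟨g, hg, hmeas⟩ := hB μ _ hAR4 (4 * r) hlD Q x hQ
    (fun J => hA μ _ hAR4 hRB (4 * r) hlD Q x hQ J)
  refine ⟨fun v => g ((4 : ℝ) • v), ?_, ?_⟩
  · refine hg.comp (LipschitzWith.of_dist_le_mul fun v w => ?_)
    rw [dist_smul₀, Real.norm_of_nonneg (by norm_num : (0 : ℝ) ≤ 4)]
    norm_num
  · have himg : (fun v => g ((4 : ℝ) • v)) '' ball 0 r = g '' ball 0 (4 * r) := by
      ext y
      constructor
      · rintro ⟨v, hv, rfl⟩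
        refine ⟨(4 : ℝ) • v, ?_, rfl⟩
        rw [mem_ball, dist_zero_right] at hv ⊢
        rw [norm_smul, Real.norm_of_nonneg (by norm_num : (0 : ℝ) ≤ 4)]
        linarith
      · rintro ⟨v, hv, rfl⟩
        refine ⟨(4 : ℝ)⁻¹ • v, ?_, ?_⟩
        · rw [mem_ball, dist_zero_right] at hv ⊢
          rw [norm_smul, Real.norm_of_nonneg (by norm_num : (0 : ℝ) ≤ 4⁻¹)]
          linarith
        · show g ((4 : ℝ) • (4 : ℝ)⁻¹ • v) = g v
          rw [smul_smul, mul_inv_cancel₀ (by norm_num), one_smul]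
    rw [himg]
    have hsupp : ∀ᵐ y ∂μ, y ∈ μ.support := by
      rw [ae_iff]; exact Measure.measure_compl_support
    have hle : μ (ball x r \ g '' ball 0 (4 * r)) ≤ μ (Q.cube 0 x \ g '' ball 0 (4 * r)) := by
      apply measure_mono_ae
      filter_upwards [hsupp] with y hy
      rintro ⟨hy1, hy2⟩
      refine ⟨Q.ball_subset_cube hQ ⟨hy, ?_⟩, hy2⟩
      rw [Q.l_zero]
      rw [mem_ball] at hy1 ⊢
      linarith
    refine hle.trans (hmeas.trans (ENNReal.ofReal_le_ofReal (le_of_eq ?_)))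
    rw [mul_pow]
    field_simp

end Vale.Agent.P120
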