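import Vale.Agent.P120.Bdl.B4
import Vale.Agent.P120.H982.JNCubes
import Vale.Agent.P120.H982.Chain

/-!
From `L^1` testing on balls to the `L^2` bound of the forms against cutoffs.
-/

set_option linter.all false

open MeasureTheory Metric Set Filter Topology
open scoped ENNReal NNReal

namespace Vale.Agent.P120.TT

variable {n d : ℕ}

/-- the regularised Riesz transform of `θ μ` -/
noncomputable def RR (n : ℕ) (e : ℝ) (μ : Measure (Eu d)) (θ : Eu d → ℝ) (x : Eu d) : Eu d :=
  ∫ y, θ y • rK n e (x - y) ∂μ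

variable {c C : ℝ} {D : ℝ≥0∞} {μ : Measure (Eu d)}

theorem continuous_RR {e : ℝ} (he : 0 < e) {θ : Eu d → ℝ} (hθ : Integrable θ μ) :
    Continuous (RR n e μ θ) := by
  unfold RR
  apply continuous_of_dominated (bound := fun y => ‖θ y‖ * (e ^ n)⁻¹)
  · intro x
    exact hθ.aestronglyMeasurable.smul
      (((measurable_rK n e).comp (measurable_const.sub measurable_id)).aestronglyMeasurable)
  · intro x
    refine Eventually.of_forall fun y => ?_
    rw [norm_smul]
    gcongr
    exact norm_rK_le_e n e he _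
  · exact hθ.norm.mul_const _
  · refine Eventually.of_forall fun y => ?_
    have h1 : Continuous fun x : Eu d => rK n e (x - y) :=
      (continuous_rK n e he).comp (show Continuous fun x : Eu d => x - y by fun_prop)
    exact h1.const_smul (θ y)

theorem form_eq_RR (h : AR n c C D μ) {ψ θ : Eu d → ℝ} {e : ℝ} (he : 0 < e)
    (hψ : Integrable ψ μ) (hθ : Integrable θ μ) :
    form n e μ ψ θ = ∫ x, ψ x • RR n e μ θ x ∂μ := by
  have := h.isLocallyFiniteMeasure
  rw [form_eq_of_pos h e he hψ hθ, integral_prod _ (integrable_pos_form h e he hψ hθ)]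
  apply integral_congr_ae
  filter_upwards with x
  unfold RR
  rw [← integral_smul]
  apply integral_congr_ae
  filter_upwards with y
  rw [smul_smul]

/-- testing condition, real form -/
def Test (n : ℕ) (C₁ : ℝ) (μ : Measure (Eu d)) : Prop :=
  ∀ z ∈ μ.support, ∀ r : ℝ, 0 < r → ∀ e : ℝ, 0 < e →
    ∫⁻ x in ball z r, ‖truncRiesz n μ e ((ball z r).indicator 1) x‖ₑ ∂μ ≤
      ENNReal.ofReal (C₁ * r ^ n)

theorem truncRiesz_ind (e : ℝ) (z : Eu d) (r : ℝ) (x : Eu d) :
    truncRiesz n μ e ((ball z r).indicator 1) x = ∫ y in ball z r, tK n e (x - y) ∂μ := by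
  unfold truncRiesz
  have hms : MeasurableSet {y : Eu d | e < dist x y} :=
    (isOpen_lt continuous_const (by fun_prop)).measurableSet
  rw [← integral_indicator hms, ← integral_indicator measurableSet_ball]
  apply integral_congr_ae
  filter_upwards with y
  by_cases hy : e < dist x y
  · rw [indicator_of_mem (show y ∈ {y : Eu d | e < dist x y} from hy)]
    by_cases hz : y ∈ ball z r
    · rw [indicator_of_mem hz, indicator_of_mem hz, Pi.one_apply, one_smul, tK,
        indicator_of_mem (show x - y ∈ {z : Eu d | e < ‖z‖} by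
          rw [mem_ofPred_eq, ← dist_eq_norm]; exact hy)]
    · rw [indicator_of_notMem hz, indicator_of_notMem hz, zero_smul]
  · rw [indicator_of_notMem (show y ∉ {y : Eu d | e < dist x y} from hy)]
    by_cases hz : y ∈ ball z r
    · rw [indicator_of_mem hz, tK,
        indicator_of_notMem (show x - y ∉ {z : Eu d | e < ‖z‖} by
          rw [mem_ofPred_eq, ← dist_eq_norm]; exact hy)]
    · rw [indicator_of_notMem hz]


/-- a bounded kernel over a set of finite measure -/
theorem intOn_kernel {k : Eu d → Eu d} (hk : Measurable k) {M : ℝ} (hM : ∀ z, ‖k z‖ ≤ M)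
    {s : Set (Eu d)} (hs : μ s ≠ ⊤) (x : Eu d) : IntegrableOn (fun y => k (x - y)) s μ := by
  refine Integrable.mono' (g := fun _ => M) (integrableOn_const hs) ?_ ?_
  · exact (hk.comp (measurable_const.sub measurable_id)).aestronglyMeasurable
  · exact Eventually.of_forall fun y => hM _

/-- **local oscillation** of the transform of a cutoff -/
theorem osc_le (n : ℕ) (hn : 1 ≤ n) (C : ℝ) (hC : 0 < C) : ∃ K : ℝ, 0 < K ∧
    ∀ (d : ℕ) (c : ℝ) (D : ℝ≥0∞) (μ : Measure (Eu d)), AR n c C D μ →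
    ∀ (a z : Eu d) (S l e : ℝ), 0 < S → 0 < l → l ≤ 32 * S → 0 < e →
    ∀ x : Eu d, dist x z ≤ 2 * l →
      ‖RR n e μ (cut a S) x - ∫ y in (ball z (4 * l))ᶜ, cut a S y • rK n e (z - y) ∂μ‖ₑ ≤
      ‖truncRiesz n μ e ((ball z (4 * l)).indicator 1) x‖ₑ + ENNReal.ofReal K := by
  obtain ⟨K₁, hK₁, hdiff⟩ := lintegral_diff_le n hn C hC
  obtain ⟨K₂, hK₂, hnear⟩ := lintegral_near n hn C hC
  obtain ⟨K₃, hK₃, hfar⟩ := lintegral_far n 1 le_rfl C hC
  obtain ⟨K₄, hK₄, hsub⟩ := rK_sub_le n
  refine ⟨K₁ + 192 * K₂ + K₄ * K₃, by positivity, ?_⟩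
  intro d c D μ har a z S l e hS hl hlS he x hx
  have hlf := har.isLocallyFiniteMeasure
  set θ := cut a S with hθdef
  have hθL := lipC_cut a S hS
  have hθi : Integrable θ μ := hθL.continuous.integrable_of_hasCompactSupport hθL.2
  have hθ0 : ∀ y, 0 ≤ θ y := fun y => le_max_left _ _
  have hθ1 : ∀ y, θ y ≤ 1 := fun y => max_le zero_le_one (min_le_left _ _)
  set Bt : Set (Eu d) := ball z (4 * l) with hBt
  have hBm : MeasurableSet Bt := measurableSet_ball
  have hBfin : μ Bt ≠ ⊤ := measure_ball_lt_top.ne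
  have hrb := norm_rK_le_e (d := d) n e he
  have htb := norm_tK_le (d := d) n e he
  have iR : ∀ w : Eu d, Integrable (fun y => θ y • rK n e (w - y)) μ := by
    intro w
    refine Integrable.mono' (hθi.norm.mul_const ((e ^ n)⁻¹)) ?_ ?_
    · exact hθi.aestronglyMeasurable.smul
        (((measurable_rK n e).comp (measurable_const.sub measurable_id)).aestronglyMeasurable)
    · refine Eventually.of_forall fun y => ?_
      rw [norm_smul]
      gcongr
      exact hrb _
  have i1 := intOn_kernel (measurable_rK n e) hrb hBfin x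
  have i2 := intOn_kernel (measurable_tK n e) htb hBfin x
  have i3 : IntegrableOn (fun y => θ y • rK n e (x - y)) Bt μ := (iR x).integrableOn
  have e1 : RR n e μ θ x - ∫ y in Btᶜ, θ y • rK n e (z - y) ∂μ =
      θ x • (∫ y in Bt, tK n e (x - y) ∂μ) +
      θ x • (∫ y in Bt, (rK n e (x - y) - tK n e (x - y)) ∂μ) +
      (∫ y in Bt, (θ y - θ x) • rK n e (x - y) ∂μ) +
      ∫ y in Btᶜ, θ y • (rK n e (x - y) - rK n e (z - y)) ∂μ := by
    have h1 : RR n e μ θ x = (∫ y in Bt, θ y • rK n e (x - y) ∂μ) +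
        ∫ y in Btᶜ, θ y • rK n e (x - y) ∂μ := (integral_add_compl hBm (iR x)).symm
    have h2 : ∫ y in Bt, (rK n e (x - y) - tK n e (x - y)) ∂μ =
        (∫ y in Bt, rK n e (x - y) ∂μ) - ∫ y in Bt, tK n e (x - y) ∂μ := integral_sub i1 i2
    have h3 : ∫ y in Bt, (θ y - θ x) • rK n e (x - y) ∂μ =
        (∫ y in Bt, θ y • rK n e (x - y) ∂μ) - θ x • ∫ y in Bt, rK n e (x - y) ∂μ := by
      have i4 : IntegrableOn (fun y => θ x • rK n e (x - y)) Bt μ := i1.smul (θ x)
      rw [← integral_smul, ← integral_sub i3 i4]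
      apply integral_congr_ae
      filter_upwards with y
      rw [sub_smul]
    have h4 : ∫ y in Btᶜ, θ y • (rK n e (x - y) - rK n e (z - y)) ∂μ =
        (∫ y in Btᶜ, θ y • rK n e (x - y) ∂μ) - ∫ y in Btᶜ, θ y • rK n e (z - y) ∂μ := by
      rw [← integral_sub (iR x).integrableOn (iR z).integrableOn]
      apply integral_congr_ae
      filter_upwards with y
      rw [smul_sub]
    rw [h1, h2, h3, h4, smul_sub]
    abel
  rw [e1, truncRiesz_ind]
  have hθx : ‖θ x‖ₑ ≤ 1 := by
    rw [← ofReal_norm, Real.norm_of_nonneg (hθ0 x), ← ENNReal.ofReal_one]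
    exact ENNReal.ofReal_le_ofReal (hθ1 x)
  have b1 : ‖θ x • (∫ y in Bt, tK n e (x - y) ∂μ)‖ₑ ≤ ‖∫ y in Bt, tK n e (x - y) ∂μ‖ₑ := by
    rw [enorm_smul]
    exact (mul_le_mul_left hθx _).trans (le_of_eq (one_mul _))
  have b2 : ‖θ x • (∫ y in Bt, (rK n e (x - y) - tK n e (x - y)) ∂μ)‖ₑ ≤ ENNReal.ofReal K₁ := by
    rw [enorm_smul]
    refine (mul_le_mul_left hθx _).trans ?_
    rw [one_mul]
    refine (enorm_integral_le_lintegral_enorm _).trans ?_
    exact (setLIntegral_le_lintegral _ _).trans (hdiff d μ har.upper x e he)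
  have b3 : ‖∫ y in Bt, (θ y - θ x) • rK n e (x - y) ∂μ‖ₑ ≤ ENNReal.ofReal (192 * K₂) := by
    refine (enorm_integral_le_lintegral_enorm _).trans ?_
    have hpt : ∀ y, ‖(θ y - θ x) • rK n e (x - y)‖ₑ ≤
        ENNReal.ofReal S⁻¹ * ENNReal.ofReal ((‖x - y‖ ^ (n - 1))⁻¹) := by
      intro y
      rw [← ofReal_norm, ← ENNReal.ofReal_mul (by positivity)]
      apply ENNReal.ofReal_le_ofReal
      rw [norm_smul]
      by_cases hxy : x = y
      · subst hxy
        rw [sub_self, norm_zero, zero_mul]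
        positivity
      · have hpos : 0 < ‖x - y‖ := norm_pos_iff.2 (sub_ne_zero.2 hxy)
        have h1 : ‖θ y - θ x‖ ≤ S⁻¹ * ‖x - y‖ := by
          rw [Real.norm_eq_abs, hθdef]
          refine (Cacc.cut_lip' hS y x).trans (le_of_eq ?_)
          rw [dist_comm, dist_eq_norm]
          field_simp
        calc ‖θ y - θ x‖ * ‖rK n e (x - y)‖ ≤ (S⁻¹ * ‖x - y‖) * (‖x - y‖ ^ n)⁻¹ := by
              gcongr
              exact norm_rK_le n e _
          _ = S⁻¹ * (‖x - y‖ ^ (n - 1))⁻¹ := by
              obtain ⟨m, rfl⟩ : ∃ m, n = m + 1 := ⟨n - 1, by omega⟩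
              rw [Nat.add_sub_cancel, pow_succ]
              field_simp
    refine (setLIntegral_mono' hBm fun y _ => hpt y).trans ?_
    rw [lintegral_const_mul' _ _ ENNReal.ofReal_ne_top]
    have h5 : Bt ⊆ closedBall x (6 * l) := by
      intro y hy
      rw [hBt, mem_ball] at hy
      rw [mem_closedBall]
      have := dist_triangle_right y x z
      linarith
    refine (mul_le_mul_right ((lintegral_mono_set h5).trans
      (hnear d μ har.upper x (6 * l) (by positivity))) _).trans ?_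
    rw [← ENNReal.ofReal_mul (by positivity)]
    apply ENNReal.ofReal_le_ofReal
    rw [inv_mul_le_iff₀ hS]
    nlinarith
  have b4 : ‖∫ y in Btᶜ, θ y • (rK n e (x - y) - rK n e (z - y)) ∂μ‖ₑ ≤
      ENNReal.ofReal (K₄ * K₃) := by
    refine (enorm_integral_le_lintegral_enorm _).trans ?_
    have hBc : Btᶜ = {y | 4 * l ≤ dist y z} := by
      ext y
      simp only [hBt, mem_compl_iff, mem_ball, not_lt, mem_ofPred_eq]
    rw [hBc]
    have hms : MeasurableSet {y : Eu d | 4 * l ≤ dist y z} :=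
      (isClosed_le continuous_const (by fun_prop)).measurableSet
    have hpt : ∀ y ∈ {y : Eu d | 4 * l ≤ dist y z}, ‖θ y • (rK n e (x - y) - rK n e (z - y))‖ₑ ≤
        ENNReal.ofReal (K₄ * (2 * l)) * ENNReal.ofReal ((‖z - y‖ ^ (n + 1))⁻¹) := by
      intro y hy
      rw [mem_ofPred_eq] at hy
      rw [← ofReal_norm, ← ENNReal.ofReal_mul (by positivity)]
      apply ENNReal.ofReal_le_ofReal
      have hzy : dist y z = ‖z - y‖ := by rw [dist_comm, dist_eq_norm]
      have hpos : 0 < ‖z - y‖ := by rw [← hzy]; linarith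
      have hxz : ‖(z - y) - (x - y)‖ ≤ 2 * l := by
        rw [sub_sub_sub_cancel_right, ← dist_eq_norm, dist_comm]; exact hx
      have h1 := hsub d e (z - y) (x - y) (by rw [← hzy]; linarith) (norm_pos_iff.1 hpos)
      rw [norm_smul, Real.norm_of_nonneg (hθ0 y), norm_sub_rev (rK n e (x - y))]
      calc θ y * ‖rK n e (z - y) - rK n e (x - y)‖
          ≤ 1 * (K₄ * (2 * l) * (‖z - y‖ ^ (n + 1))⁻¹) := by
            refine mul_le_mul (hθ1 y) (h1.trans ?_) (norm_nonneg _) zero_le_one
            gcongr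
        _ = _ := one_mul _
    refine (setLIntegral_mono' hms hpt).trans ?_
    rw [lintegral_const_mul' _ _ ENNReal.ofReal_ne_top]
    refine (mul_le_mul_right (hfar d μ har.upper z (4 * l) (by positivity)) _).trans ?_
    rw [← ENNReal.ofReal_mul (by positivity)]
    apply ENNReal.ofReal_le_ofReal
    have : K₄ * (2 * l) * (K₃ * ((4 * l) ^ 1)⁻¹) = K₄ * K₃ / 2 := by
      field_simp; ring
    rw [this]
    have : 0 ≤ K₄ * K₃ := by positivity
    linarith
  refine (enorm_add_le _ _).trans ?_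
  refine (add_le_add (enorm_add_le _ _) le_rfl).trans ?_
  refine (add_le_add (add_le_add (enorm_add_le _ _) le_rfl) le_rfl).trans ?_
  rw [ENNReal.ofReal_add (by positivity) (by positivity),
    ENNReal.ofReal_add (by positivity) (by positivity)]
  calc _ ≤ ‖∫ y in Bt, tK n e (x - y) ∂μ‖ₑ + ENNReal.ofReal K₁ + ENNReal.ofReal (192 * K₂) +
        ENNReal.ofReal (K₄ * K₃) := add_le_add (add_le_add (add_le_add b1 b2) b3) b4
    _ = _ := by ring

end Vale.Agent.P120.TT
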