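import Vale.Agent.P120.H982.Osc
import Vale.Agent.P120.H982.JSCubes

/-!
From weak testing on balls to the `L^2` bound of the forms against cutoffs.
-/

set_option linter.all false

open MeasureTheory Metric Set Filter Topology
open scoped ENNReal NNReal

namespace Vale.Agent.P120.TT

variable {n d : ℕ}

/-- weak testing condition -/
def Weak (n : ℕ) (α lam : ℝ) (μ : Measure (Eu d)) : Prop :=
  ∀ z ∈ μ.support, ∀ r : ℝ, 0 < r → ∀ e : ℝ, 0 < e →
    μ {x | x ∈ ball z r ∧ lam < ‖truncRiesz n μ e ((ball z r).indicator 1) x‖} ≤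
      ENNReal.ofReal (α * r ^ n)

/-- the lower bound at slightly larger scales -/
theorem AR_scale {c C : ℝ} {D : ℝ≥0∞} {μ : Measure (Eu d)} (h : AR n c C D μ) {T : ℝ}
    (hT : 1 ≤ T) : AR n (c / T ^ n) C (ENNReal.ofReal T * D) μ := by
  have hT0 : 0 < T := by linarith
  refine ⟨div_pos h.c_pos (by positivity), h.C_pos, h.upper, ?_⟩
  intro x hx r hr hrD
  have h1 : ENNReal.ofReal (r / T) ≤ D := by
    rw [ENNReal.ofReal_div_of_pos hT0]
    refine ENNReal.div_le_of_le_mul ?_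
    rwa [mul_comm]
  have h2 := h.lower x hx (r / T) (by positivity) h1
  have h3 : c / T ^ n * r ^ n = c * (r / T) ^ n := by
    rw [div_pow]; ring
  rw [h3]
  refine h2.trans (measure_mono (ball_subset_ball ?_))
  rw [div_le_iff₀ hT0]
  nlinarith

/-- far from the cutoff -/
theorem RR_far {c C : ℝ} {D : ℝ≥0∞} {μ : Measure (Eu d)} (har : AR n c C D μ) {a x₀ : Eu d}
    {S e : ℝ} (hS : 0 < S) (hx₀ : dist x₀ a < 2 * S) {x : Eu d} (hx : 8 * S ≤ dist x x₀) :
    ‖RR n e μ (cut a S) x‖ₑ ≤ ENNReal.ofReal (C * (8 * S) ^ n * (‖x₀ - x‖ ^ n)⁻¹) := by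
  have hC := har.C_pos
  have hdx : dist x x₀ = ‖x₀ - x‖ := by rw [dist_comm, dist_eq_norm]
  have hdpos : 0 < ‖x₀ - x‖ := by rw [← hdx]; linarith
  unfold RR
  refine (enorm_integral_le_lintegral_enorm _).trans ?_
  have hpt : ∀ y, ‖cut a S y • rK n e (x - y)‖ₑ ≤
      (closedBall x₀ (4 * S)).indicator
        (fun _ => ENNReal.ofReal (((‖x₀ - x‖ / 2) ^ n)⁻¹)) y := by
    intro y
    by_cases hy : dist y a < 2 * S
    · have h1 : dist y x₀ ≤ 4 * S := by
        have := dist_triangle_right y x₀ a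
        linarith
      rw [indicator_of_mem (mem_closedBall.2 h1), ← ofReal_norm]
      apply ENNReal.ofReal_le_ofReal
      rw [norm_smul, Real.norm_of_nonneg (cut_nonneg_ta _ _ _)]
      have h2 : ‖x₀ - x‖ / 2 ≤ ‖x - y‖ := by
        rw [← hdx, ← dist_eq_norm]
        have := dist_triangle x y x₀
        linarith
      calc cut a S y * ‖rK n e (x - y)‖ ≤ 1 * (‖x - y‖ ^ n)⁻¹ :=
            mul_le_mul (cut_le_one_ta _ _ _) (norm_rK_le n e _) (norm_nonneg _) zero_le_one
        _ = (‖x - y‖ ^ n)⁻¹ := one_mul _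
        _ ≤ _ := by
            apply inv_anti₀ (by positivity)
            exact pow_le_pow_left₀ (by positivity) h2 n
    · rw [cut_eq_zero_ta a hS (not_lt.1 hy), zero_smul, enorm_zero]
      exact bot_le
  refine (lintegral_mono hpt).trans ?_
  rw [lintegral_indicator measurableSet_closedBall, setLIntegral_const]
  refine (mul_le_mul_right (har.upper x₀ (4 * S) (by positivity)) _).trans ?_
  rw [← ENNReal.ofReal_mul (by positivity)]
  apply ENNReal.ofReal_le_ofReal
  apply le_of_eq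
  rw [div_pow, show (8 * S) ^ n = 2 ^ n * (4 * S) ^ n by rw [← mul_pow]; congr 1; ring]
  field_simp

theorem RR_L2 (n d : ℕ) (hn : 1 ≤ n) (c C : ℝ) (hc : 0 < c) (hC : 0 < C) :
    ∃ α : ℝ, 0 < α ∧ ∀ lam : ℝ, ∃ K : ℝ, 0 < K ∧ ∀ μ : Measure (Eu d), 0 < ediam μ.support →
      AR n c C (ediam μ.support) μ → Weak n α lam μ → ∀ (a : Eu d) (S e : ℝ), 0 < S → 0 < e →
      ∫⁻ x, ‖RR n e μ (cut a S) x‖ₑ ^ 2 ∂μ ≤ ENNReal.ofReal (K * S ^ n) := by
  obtain ⟨Ko, hKo, hosc⟩ := osc_le n hn C hC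
  obtain ⟨Kf, hKf, hfar⟩ := lintegral_far n n hn C hC
  set c' : ℝ := c / 32 ^ n with hc'
  have hc'0 : 0 < c' := by positivity
  obtain ⟨α, hα, hJS⟩ := js_cubes n d 16 c' C hc'0 hC
  refine ⟨α * c' / 16 ^ n, by positivity, fun lam => ?_⟩
  set K₅ : ℝ := |lam| + Ko with hK₅
  have hK₅0 : 0 < K₅ := by positivity
  set B : ℝ := 76 * K₅ ^ 2 with hBdef
  have hB : 0 < B := by positivity
  refine ⟨B * (C * 64 ^ n) + (C * 8 ^ n) ^ 2 * (Kf * (8 ^ n)⁻¹), by positivity, ?_⟩
  intro μ hdiam har hT a S e hS he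
  have hlf := har.isLocallyFiniteMeasure
  have hsupp : ∀ᵐ x ∂μ, x ∈ μ.support := by
    rw [ae_iff]; exact Measure.measure_compl_support
  set θ := cut a S with hθdef
  have hθL := lipC_cut a S hS
  have hθi : Integrable θ μ := hθL.continuous.integrable_of_hasCompactSupport hθL.2
  by_cases hex : ∃ x₀ ∈ μ.support, dist x₀ a < 2 * S
  swap
  · push Not at hex
    have h0 : ∀ x, RR n e μ θ x = 0 := by
      intro x
      unfold RR
      apply integral_eq_zero_of_ae
      filter_upwards [hsupp] with y hy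
      rw [hθdef, cut_eq_zero_ta a hS (hex y hy), zero_smul]
      rfl
    have h1 : ∫⁻ x, ‖RR n e μ θ x‖ₑ ^ 2 ∂μ = 0 := by
      simp [h0]
    rw [h1]
    exact bot_le
  obtain ⟨x₀, hx₀E, hx₀⟩ := hex
  -- the root scale
  obtain ⟨l₀, hl₀, hl₀S, hl₀D, hout, hθout⟩ : ∃ l₀ : ℝ, 0 < l₀ ∧ l₀ ≤ 32 * S ∧
      ENNReal.ofReal l₀ ≤ ENNReal.ofReal 32 * ediam μ.support ∧
      (∀ x ∈ μ.support, l₀ / 4 ≤ dist x x₀ → 8 * S ≤ dist x x₀) ∧
      (∀ y ∈ μ.support, 4 * l₀ ≤ dist y x₀ → θ y = 0) := by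
    by_cases hSD : ENNReal.ofReal S ≤ ediam μ.support
    · refine ⟨32 * S, by positivity, le_rfl, ?_, ?_, ?_⟩
      · rw [ENNReal.ofReal_mul (by norm_num)]
        exact mul_le_mul_right hSD _
      · intro x _ hx; linarith
      · intro y _ hy
        apply cut_eq_zero_ta a hS
        have := dist_triangle y a x₀
        rw [dist_comm a x₀] at this
        linarith
    · push Not at hSD
      have htop : ediam μ.support ≠ ⊤ := (lt_of_lt_of_le hSD le_top).ne
      set D' : ℝ := (ediam μ.support).toReal with hD'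
      have hD'p : 0 < D' := ENNReal.toReal_pos hdiam.ne' htop
      have hDD : ENNReal.ofReal D' = ediam μ.support := ENNReal.ofReal_toReal htop
      have hD'S : D' < S := by
        rw [← hDD] at hSD
        exact (ENNReal.ofReal_lt_ofReal_iff hS).1 hSD
      have hdist : ∀ x ∈ μ.support, dist x x₀ ≤ D' := by
        intro x hx
        have h1 : edist x x₀ ≤ ediam μ.support := edist_le_ediam_of_mem hx hx₀E
        rw [← hDD, edist_dist] at h1
        exact (ENNReal.ofReal_le_ofReal_iff hD'p.le).1 h1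
      refine ⟨32 * D', by positivity, by linarith, ?_, ?_, ?_⟩
      · rw [ENNReal.ofReal_mul (by norm_num), hDD]
      · intro x hx h1
        have := hdist x hx
        linarith
      · intro x hx h1
        have := hdist x hx
        linarith
  have har' : AR n c' C (ENNReal.ofReal 32 * ediam μ.support) μ := by
    rw [hc']
    exact AR_scale har (T := 32) (by norm_num)
  obtain ⟨Q, hQ⟩ := exists_cubes (E := μ.support) Measure.isClosed_support.measurableSet hx₀E
    (le_refl 16) hl₀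
  set F : Eu d → Eu d := RR n e μ θ with hF
  have hFc : Continuous F := continuous_RR he hθi
  set v : ℕ → Eu d → Eu d := fun k w => ∫ y in (ball w (4 * Q.l k))ᶜ, θ y • rK n e (w - y) ∂μ
    with hv
  have hoscQ : ∀ k, ∀ w ∈ Q.N k, μ.real {x | x ∈ Q.cube k w ∧ K₅ < ‖F x - v k w‖} ≤
      α * μ.real (Q.cube k w) := by
    intro k w hw
    have hl := Q.l_pos' k
    have hlS : Q.l k ≤ 32 * S := by
      have := Q.l_anti (Nat.zero_le k)
      rw [Q.l_zero] at this
      linarith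
    have hsub : {x | x ∈ Q.cube k w ∧ K₅ < ‖F x - v k w‖} ⊆
        {x | x ∈ ball w (4 * Q.l k) ∧
          lam < ‖truncRiesz n μ e ((ball w (4 * Q.l k)).indicator 1) x‖} := by
      rintro x ⟨hx1, hx2⟩
      have hxd : dist x w ≤ 2 * Q.l k := mem_closedBall.1 (Q.cube_subset k w hx1)
      refine ⟨mem_ball.2 (by linarith), ?_⟩
      have h1 := hosc d c _ μ har a w S (Q.l k) e hS hl hlS he x hxd
      rw [← ofReal_norm, ← ofReal_norm, ← ENNReal.ofReal_add (norm_nonneg _) hKo.le] at h1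
      have h2 := (ENNReal.ofReal_le_ofReal_iff (by positivity)).1 h1
      have h3 : K₅ < ‖truncRiesz n μ e ((ball w (4 * Q.l k)).indicator 1) x‖ + Ko :=
        lt_of_lt_of_le hx2 h2
      have h4 := le_abs_self lam
      rw [hK₅] at h3
      linarith
    have h1 : μ.real {x | x ∈ Q.cube k w ∧ K₅ < ‖F x - v k w‖} ≤
        α * c' / 16 ^ n * (4 * Q.l k) ^ n :=
      ENNReal.toReal_le_of_le_ofReal (by positivity)
        ((measure_mono hsub).trans (hT w (Q.N_sub k hw) (4 * Q.l k) (by positivity) e he))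
    refine h1.trans ?_
    have h4 := Q.cube_lower har' hl₀D hw
    calc α * c' / 16 ^ n * (4 * Q.l k) ^ n = α * (c' * (Q.l k / 4) ^ n) := by
          rw [show (4 * Q.l k) ^ n = 16 ^ n * (Q.l k / 4) ^ n by rw [← mul_pow]; congr 1; ring]
          field_simp
      _ ≤ α * μ.real (Q.cube k w) := mul_le_mul_of_nonneg_left h4 hα.le
  have hmain := hJS K₅ hK₅0 μ _ har' l₀ hl₀D Q x₀ hQ F hFc v hoscQ
  rw [← hBdef] at hmain
  have hv0 : v 0 x₀ = 0 := by
    simp only [hv]
    apply setIntegral_eq_zero_of_ae_eq_zero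
    filter_upwards [hsupp] with y hy hyc
    rw [mem_compl_iff, mem_ball, not_lt, Q.l_zero] at hyc
    rw [hθout y hy hyc, zero_smul]
  rw [hv0] at hmain
  simp only [sub_zero] at hmain
  -- the two parts
  have hcm : MeasurableSet (Q.cube 0 x₀) := Q.measurableSet_cube 0 x₀
  rw [← lintegral_add_compl _ hcm, add_mul, ENNReal.ofReal_add (by positivity) (by positivity)]
  apply add_le_add
  · have hint : IntegrableOn (fun x => ‖F x‖ ^ 2) (Q.cube 0 x₀) μ :=
      ((hFc.norm.pow 2).locallyIntegrable.integrableOn_isCompact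
        (isCompact_closedBall x₀ (2 * Q.l 0))).mono_set (Q.cube_subset 0 x₀)
    have h1 : ∫⁻ x in Q.cube 0 x₀, ‖F x‖ₑ ^ 2 ∂μ =
        ENNReal.ofReal (∫ x in Q.cube 0 x₀, ‖F x‖ ^ 2 ∂μ) := by
      rw [ofReal_integral_eq_lintegral_ofReal hint (Eventually.of_forall fun x => sq_nonneg _)]
      apply lintegral_congr
      intro x
      rw [ENNReal.ofReal_pow (norm_nonneg _), ofReal_norm]
    rw [h1]
    apply ENNReal.ofReal_le_ofReal
    refine hmain.trans ?_
    have h2 := Q.cube_upper har' 0 x₀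
    rw [Q.l_zero] at h2
    calc B * μ.real (Q.cube 0 x₀) ≤ B * (C * (2 * l₀) ^ n) := mul_le_mul_of_nonneg_left h2 hB.le
      _ ≤ B * (C * (64 * S) ^ n) := by
          have h3 : (2 * l₀) ^ n ≤ (64 * S) ^ n :=
            pow_le_pow_left₀ (by positivity) (by linarith) n
          exact mul_le_mul_of_nonneg_left (mul_le_mul_of_nonneg_left h3 hC.le) hB.le
      _ = _ := by rw [mul_pow]; ring
  · have h1 : ∫⁻ x in (Q.cube 0 x₀)ᶜ, ‖F x‖ₑ ^ 2 ∂μ ≤
        ∫⁻ x in {x | 8 * S ≤ dist x x₀}, ‖F x‖ₑ ^ 2 ∂μ := by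
      have hms : MeasurableSet {x : Eu d | 8 * S ≤ dist x x₀} :=
        (isClosed_le continuous_const (by fun_prop)).measurableSet
      rw [← lintegral_indicator hcm.compl, ← lintegral_indicator hms]
      apply lintegral_mono_ae
      filter_upwards [hsupp] with x hx
      by_cases hxc : x ∈ (Q.cube 0 x₀)ᶜ
      · rw [indicator_of_mem hxc]
        have h2 : l₀ / 4 ≤ dist x x₀ := by
          have := Q.dist_of_p_ne hQ hx (fun h => hxc ⟨hx, h⟩)
          rwa [Q.l_zero] at this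
        rw [indicator_of_mem (show x ∈ {x : Eu d | 8 * S ≤ dist x x₀} from hout x hx h2)]
      · rw [indicator_of_notMem hxc]
        exact bot_le
    refine h1.trans ?_
    have hms : MeasurableSet {x : Eu d | 8 * S ≤ dist x x₀} :=
      (isClosed_le continuous_const (by fun_prop)).measurableSet
    have hpt : ∀ x ∈ {x : Eu d | 8 * S ≤ dist x x₀}, ‖F x‖ₑ ^ 2 ≤
        ENNReal.ofReal ((C * (8 * S) ^ n) ^ 2) * ENNReal.ofReal ((‖x₀ - x‖ ^ (n + n))⁻¹) := by
      intro x hx
      have h2 := RR_far (e := e) har hS hx₀ (show 8 * S ≤ dist x x₀ from hx)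
      refine (pow_le_pow_left₀ bot_le h2 2).trans ?_
      rw [← ENNReal.ofReal_mul (by positivity), ← ENNReal.ofReal_pow (by positivity)]
      apply ENNReal.ofReal_le_ofReal
      apply le_of_eq
      rw [mul_pow, pow_add, inv_pow, ← pow_two]
    refine (setLIntegral_mono' hms hpt).trans ?_
    rw [lintegral_const_mul' _ _ ENNReal.ofReal_ne_top]
    refine (mul_le_mul_right (hfar d μ har.upper x₀ (8 * S) (by positivity)) _).trans ?_
    rw [← ENNReal.ofReal_mul (by positivity)]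
    apply ENNReal.ofReal_le_ofReal
    apply le_of_eq
    rw [mul_pow 8 S n]
    field_simp

/-- **weak testing implies the bound of the forms** -/
theorem rb_of_weak (n d : ℕ) (hn : 1 ≤ n) (c C : ℝ) (hc : 0 < c) (hC : 0 < C) :
    ∃ α : ℝ, 0 < α ∧ ∀ lam : ℝ, ∃ K : ℝ, 0 < K ∧ ∀ μ : Measure (Eu d), 0 < ediam μ.support →
      AR n c C (ediam μ.support) μ → Weak n α lam μ → RB n K μ := by
  obtain ⟨α, hα, H⟩ := RR_L2 n d hn c C hc hC
  refine ⟨α, hα, fun lam => ?_⟩
  obtain ⟨K, hK, H⟩ := H lam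
  refine ⟨Real.sqrt K, Real.sqrt_pos.2 hK, ?_⟩
  intro μ hdiam har hT
  have hlf := har.isLocallyFiniteMeasure
  refine ⟨Real.sqrt_nonneg _, fun e he a S hS ψ hψ hψ' => ?_⟩
  have hθL := lipC_cut a S hS
  have hθi : Integrable (cut a S) μ := hθL.continuous.integrable_of_hasCompactSupport hθL.2
  have hψi : Integrable ψ μ := hψ.integrable_of_hasCompactSupport hψ'
  have mψ : MemLp ψ 2 μ := hψ.memLp_of_hasCompactSupport hψ'
  rw [form_eq_RR har he hψi hθi]
  have hFm : AEStronglyMeasurable (RR n e μ (cut a S)) μ :=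
    (continuous_RR he hθi).aestronglyMeasurable
  have h4 : ‖∫ x, ψ x • RR n e μ (cut a S) x ∂μ‖ₑ ≤
      eLpNorm ψ 2 μ * eLpNorm (RR n e μ (cut a S)) 2 μ := by
    refine (enorm_integral_le_lintegral_enorm _).trans ?_
    have h5 := eLpNorm_smul_le_mul_eLpNorm (p := 2) (q := 2) (r := 1) hFm mψ.aestronglyMeasurable
    rwa [eLpNorm_one_eq_lintegral_enorm] at h5
  have h6 : eLpNorm (RR n e μ (cut a S)) 2 μ ≤ ENNReal.ofReal (Real.sqrt (K * S ^ n)) := by
    rw [eLpNorm_eq_lintegral_rpow_enorm_toReal (by norm_num) (by norm_num)]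
    simp only [ENNReal.toReal_ofNat, ENNReal.rpow_ofNat]
    have h7 := ENNReal.rpow_le_rpow (H μ hdiam har hT a S e hS he)
      (show (0 : ℝ) ≤ 1 / 2 by norm_num)
    refine h7.trans (le_of_eq ?_)
    rw [ENNReal.ofReal_rpow_of_nonneg (by positivity) (by norm_num), Real.sqrt_eq_rpow]
  have h8 : ‖∫ x, ψ x • RR n e μ (cut a S) x ∂μ‖ₑ ≤
      eLpNorm ψ 2 μ * ENNReal.ofReal (Real.sqrt (K * S ^ n)) := h4.trans (mul_le_mul_right h6 _)
  rw [eLpNorm_two_of_compact hψ hψ', ← ENNReal.ofReal_mul (Real.sqrt_nonneg _), ← ofReal_norm,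
    ENNReal.ofReal_le_ofReal_iff (by positivity), Real.sqrt_mul hK.le] at h8
  refine h8.trans (le_of_eq ?_)
  ring

end Vale.Agent.P120.TT
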